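import Crest.Agent.R192.Defs

/-! Row 192: Maurey's empirical method; nets of feature vectors. -/

set_option autoImplicit false

namespace Crest.Agent.R192

open Crest.AlgebraR.L1 MeasureTheory Matrix
open scoped ContDiff BoundedContinuousFunction

namespace NetAux

theorem mgf_le {Y : Type} [Fintype Y] {p Δ : Y → ℝ} (hp : ∀ y, 0 ≤ p y) (hp1 : ∑ y, p y = 1)
    (hΔ : ∀ y, |Δ y| ≤ 1) (h0 : ∑ y, p y * Δ y = 0) (s : ℝ) :
    ∑ y, p y * Real.exp (s * Δ y) ≤ Real.exp (s ^ 2 / 2) := by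
  have h1 : ∀ y, Real.exp (s * Δ y) ≤ Real.cosh s + Δ y * Real.sinh s := by
    intro y
    have h2 := abs_le.1 (hΔ y)
    have h3 := convexOn_exp.2 (Set.mem_univ s) (Set.mem_univ (-s))
      (show 0 ≤ (1 + Δ y) / 2 by linarith) (show 0 ≤ (1 - Δ y) / 2 by linarith) (by ring)
    simp only [smul_eq_mul] at h3
    rw [show (1 + Δ y) / 2 * s + (1 - Δ y) / 2 * -s = s * Δ y by ring] at h3
    rw [Real.cosh_eq, Real.sinh_eq]
    linarith
  refine (Finset.sum_le_sum fun y _ => mul_le_mul_of_nonneg_left (h1 y) (hp y)).trans ?_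
  simp only [mul_add, ← mul_assoc, Finset.sum_add_distrib, ← Finset.sum_mul, hp1, h0, one_mul,
    zero_mul, add_zero]
  exact Real.cosh_le_exp_half_sq s

theorem mgf_pow_le {Y : Type} [Fintype Y] {p Δ : Y → ℝ} (hp : ∀ y, 0 ≤ p y) (hp1 : ∑ y, p y = 1)
    (hΔ : ∀ y, |Δ y| ≤ 1) (h0 : ∑ y, p y * Δ y = 0) (s : ℝ) (M : ℕ) :
    ∑ y : Fin M → Y, (∏ k, p (y k)) * Real.exp (s * ∑ k, Δ (y k)) ≤ Real.exp (M * s ^ 2 / 2) := by
  simp only [Finset.mul_sum, Real.exp_sum, ← Finset.prod_mul_distrib]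
  rw [← Fintype.sum_pow fun a => p a * Real.exp (s * Δ a), mul_div_assoc, Real.exp_nat_mul]
  exact pow_le_pow_left₀ (Finset.sum_nonneg fun y _ => mul_nonneg (hp y) (Real.exp_pos _).le)
    (mgf_le hp hp1 hΔ h0 s) M

variable {G : Type} [Group G]

omit [Group G] in
theorem mass_eq (μ : G →₀ ℝ) : mass μ = ∑ g ∈ μ.support, μ g := by
  simp [Finsupp.linearCombination_apply, Finsupp.sum]

theorem isProb_tr {μ : G →₀ ℝ} (hμ : IsProb μ) (h : G) : IsProb (tr h μ) := by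
  refine ⟨fun g => ?_, ?_⟩
  · rw [← mul_inv_cancel_left h g, Finsupp.mapDomain_apply (mul_right_injective h)]
    exact hμ.1 _
  · rw [← hμ.2]
    exact Finsupp.linearCombination_mapDomain ..

theorem len_sub_le (ℓ : Len G) (x y z : G) :
    |(ℓ.len (x⁻¹ * z) : ℝ) - ℓ.len (y⁻¹ * z)| ≤ ℓ.len (x⁻¹ * y) := by
  have h1 := ℓ.len_mul (x⁻¹ * y) (y⁻¹ * z)
  have h2 := ℓ.len_mul (x⁻¹ * y)⁻¹ (x⁻¹ * z)
  rw [mul_assoc, mul_inv_cancel_left] at h1
  rw [ℓ.len_inv, _root_.mul_inv_rev, inv_inv, mul_assoc, mul_inv_cancel_left] at h2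
  have h1' : (ℓ.len (x⁻¹ * z) : ℝ) ≤ ℓ.len (x⁻¹ * y) + ℓ.len (y⁻¹ * z) := by exact_mod_cast h1
  have h2' : (ℓ.len (y⁻¹ * z) : ℝ) ≤ ℓ.len (x⁻¹ * y) + ℓ.len (x⁻¹ * z) := by exact_mod_cast h2
  rw [abs_le]
  constructor <;> linarith

variable [TopologicalSpace G] [DiscreteTopology G] (ℓ : Len G) (R : ℕ)

theorem feat_apply (μ : G →₀ ℝ) (z : G) :
    feat ℓ R μ z = ∑ g ∈ μ.support, μ g * bump ℓ R g z := by
  simp [Finsupp.linearCombination_apply, Finsupp.sum]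

theorem bump_nonneg (x z : G) : 0 ≤ bump ℓ R x z := le_max_left _ _

theorem bump_le_one (x z : G) : bump ℓ R x z ≤ 1 :=
  max_le zero_le_one (sub_le_self _ (by positivity))

theorem bump_eq_zero (hR : 0 < R) {x z : G} (h : R ≤ ℓ.len (x⁻¹ * z)) : bump ℓ R x z = 0 :=
  max_eq_left (sub_nonpos.2 ((one_le_div (Nat.cast_pos.2 hR)).2 (Nat.cast_le.2 h)))

theorem feat_tr (μ : G →₀ ℝ) (h z : G) : feat ℓ R (tr h μ) (h * z) = feat ℓ R μ z := by
  rw [feat, pr, Finsupp.linearCombination_mapDomain, feat_apply]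
  simp [Finsupp.linearCombination_apply, Finsupp.sum, bump_apply, mul_assoc]

end NetAux

open NetAux

theorem maurey {Y Z : Type} [Fintype Y] [Fintype Z] (ξ : Y → Z → ℝ)
    (hξ : ∀ y z, 0 ≤ ξ y z ∧ ξ y z ≤ 1) (p : Y → ℝ) (hp : ∀ y, 0 ≤ p y) (hp1 : ∑ y, p y = 1)
    (w : ℝ) (hw : 0 < w) (M : ℕ) (hM0 : 0 < M)
    (hM : 2 * (Fintype.card Z : ℝ) < Real.exp (M * w ^ 2 / 2)) :
    ∃ y : Fin M → Y, ∀ z, |∑ a, p a * ξ a z - (∑ k, ξ (y k) z) / M| ≤ w := by
  by_contra hcon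
  push Not at hcon
  have hM' : (0 : ℝ) < M := Nat.cast_pos.2 hM0
  set Δ : Z → Y → ℝ := fun z y => ξ y z - ∑ a, p a * ξ a z with hΔ
  have h1 : ∀ z y, |Δ z y| ≤ 1 := by
    intro z y
    have h2 : 0 ≤ ∑ a, p a * ξ a z := Finset.sum_nonneg fun a _ => mul_nonneg (hp a) (hξ a z).1
    have h3 : ∑ a, p a * ξ a z ≤ 1 :=
      (Finset.sum_le_sum fun a _ => mul_le_of_le_one_right (hp a) (hξ a z).2).trans_eq hp1
    rw [abs_le]
    constructor <;> simp only [hΔ] <;> linarith [(hξ y z).1, (hξ y z).2]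
  have h2 : ∀ z, ∑ y, p y * Δ z y = 0 := fun z => by
    simp only [hΔ, mul_sub, Finset.sum_sub_distrib, ← Finset.sum_mul, hp1, one_mul, sub_self]
  have h3 : ∀ y : Fin M → Y, Real.exp (M * w ^ 2) ≤
      ∑ z, (Real.exp (w * ∑ k, Δ z (y k)) + Real.exp (-w * ∑ k, Δ z (y k))) := by
    intro y
    obtain ⟨z, hz⟩ := hcon y
    refine le_trans ?_ (Finset.single_le_sum (f := fun z => Real.exp (w * ∑ k, Δ z (y k)) +
      Real.exp (-w * ∑ k, Δ z (y k))) (fun z _ => by positivity) (Finset.mem_univ z))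
    have h4 : ∑ a, p a * ξ a z - (∑ k, ξ (y k) z) / M = -(∑ k, Δ z (y k)) / M := by
      simp only [hΔ, Finset.sum_sub_distrib, Finset.sum_const, Finset.card_univ, Fintype.card_fin,
        nsmul_eq_mul]
      field_simp
      ring
    rw [h4, abs_div, abs_neg, abs_of_pos hM', lt_div_iff₀ hM'] at hz
    rcases lt_abs.1 hz with h | h
    · exact le_add_of_le_of_nonneg (Real.exp_le_exp.2 (by nlinarith)) (Real.exp_pos _).le
    · exact le_add_of_nonneg_of_le (Real.exp_pos _).le (Real.exp_le_exp.2 (by nlinarith))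
  have h4 : ∑ y : Fin M → Y, ∏ k, p (y k) = 1 := by rw [← Fintype.sum_pow, hp1, one_pow]
  have h5 := Finset.sum_le_sum fun y (_ : y ∈ Finset.univ) =>
    mul_le_mul_of_nonneg_left (h3 y) (Finset.prod_nonneg fun k (_ : k ∈ Finset.univ) => hp (y k))
  rw [← Finset.sum_mul, h4, one_mul] at h5
  simp only [Finset.mul_sum (s := (Finset.univ : Finset Z)), mul_add] at h5
  rw [Finset.sum_comm] at h5
  simp only [Finset.sum_add_distrib (s := (Finset.univ : Finset (Fin M → Y)))] at h5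
  have h6 := h5.trans (Finset.sum_le_sum fun z _ =>
    add_le_add (mgf_pow_le hp hp1 (h1 z) (h2 z) w M) (mgf_pow_le hp hp1 (h1 z) (h2 z) (-w) M))
  rw [neg_sq, Finset.sum_const, Finset.card_univ, nsmul_eq_mul,
    show M * w ^ 2 = M * w ^ 2 / 2 + M * w ^ 2 / 2 by ring, Real.exp_add,
    show (M * w ^ 2 / 2 + M * w ^ 2 / 2) / 2 = M * w ^ 2 / 2 by ring] at h6
  nlinarith [Real.exp_pos (M * w ^ 2 / 2)]

theorem exists_net {G : Type} [Group G] [TopologicalSpace G] [DiscreteTopology G] (ℓ : Len G)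
    (R r : ℕ) (hR : 0 < R) (w : ℝ) (hw : 0 < w) (M : ℕ) (hM0 : 0 < M)
    (hM : 2 * (2 : ℝ) ^ (ℓ.D * r) < Real.exp (M * w ^ 2 / 2)) :
    ∃ N : Finset (G → ℝ), N.card ≤ 2 ^ ((ℓ.D * (r + R) + 1) * M) ∧
      ∀ μ : G →₀ ℝ, IsProb μ → ∀ x : G, ∃ η ∈ N, ∀ z ∈ ℓ.ball r,
        |feat ℓ R μ (x * z) - η z| ≤ w := by
  classical
  let ξ : Option (ℓ.ball (r + R)) → G → ℝ := fun y z => y.elim 0 fun g => bump ℓ R g z
  refine ⟨Finset.univ.image fun y : Fin M → Option (ℓ.ball (r + R)) =>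
    fun z => (∑ k, ξ (y k) z) / M, Finset.card_image_le.trans ?_, fun μ hμ x => ?_⟩
  · rw [Finset.card_univ, Fintype.card_fun, Fintype.card_option, Fintype.card_coe,
      Fintype.card_fin, pow_mul]
    refine Nat.pow_le_pow_left ?_ M
    have h1 := ℓ.card_ball (r + R)
    have h2 : 0 < 2 ^ (ℓ.D * (r + R)) := by positivity
    rw [pow_succ]
    omega
  · have hν := isProb_tr hμ x⁻¹
    have h0 : ∀ z, feat ℓ R μ (x * z) = feat ℓ R (tr x⁻¹ μ) z := fun z => by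
      rw [← NetAux.feat_tr ℓ R μ x⁻¹, inv_mul_cancel_left]
    simp only [h0]
    generalize tr x⁻¹ μ = ν at hν
    have h1 : ∑ g ∈ ℓ.ball (r + R), ν g ≤ 1 := by
      rw [← hν.2, mass_eq, Finset.sum_subset (s₂ := ν.support ∪ ℓ.ball (r + R))
        Finset.subset_union_left fun g _ hg => Finsupp.notMem_support_iff.1 hg]
      exact Finset.sum_le_sum_of_subset_of_nonneg Finset.subset_union_right fun g _ _ => hν.1 g
    obtain ⟨y, hy⟩ := maurey (Z := ℓ.ball r) (fun y z => ξ y z)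
      (by
        rintro (_ | g) z
        exacts [⟨le_rfl, zero_le_one⟩, ⟨bump_nonneg .., bump_le_one ..⟩])
      (fun y => y.elim (1 - ∑ g ∈ ℓ.ball (r + R), ν g) fun g => ν g)
      (by
        rintro (_ | g)
        exacts [sub_nonneg.2 h1, hν.1 _])
      (by
        rw [Fintype.sum_option]
        simp only [Option.elim_none, Option.elim_some]
        rw [Finset.sum_coe_sort (ℓ.ball (r + R)) ν, sub_add_cancel]) w hw M hM0
      (lt_of_le_of_lt (by
        rw [Fintype.card_coe]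
        exact mul_le_mul_of_nonneg_left (by exact_mod_cast ℓ.card_ball r) zero_le_two) hM)
    refine ⟨_, Finset.mem_image_of_mem _ (Finset.mem_univ y), fun z hz => ?_⟩
    have h2 := hy ⟨z, hz⟩
    rw [Fintype.sum_option] at h2
    simp only [ξ, Option.elim_none, Option.elim_some, mul_zero, zero_add] at h2
    rw [Finset.sum_coe_sort (ℓ.ball (r + R)) fun g => ν g * bump ℓ R g z] at h2
    rw [feat_apply, Finset.sum_congr_of_eq_on_inter (s₂ := ℓ.ball (r + R))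
      (g := fun g => ν g * bump ℓ R g z) (fun g _ hg => ?_)
      (fun g _ hg => by rw [Finsupp.notMem_support_iff.1 hg, zero_mul]) fun _ _ _ => rfl]
    · exact h2
    · have h3 := ℓ.len_mul z (g⁻¹ * z)⁻¹
      rw [ℓ.len_inv, _root_.mul_inv_rev, inv_inv, mul_inv_cancel_left] at h3
      rw [ℓ.mem_ball] at hg hz
      rw [bump_eq_zero ℓ R hR (by omega), mul_zero]

/-- two majority points are close -/
theorem majority {G : Type} [Group G] [TopologicalSpace G] [DiscreteTopology G] (ℓ : Len G)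
    (R : ℕ) (hR : 0 < R) (μ : G →₀ ℝ) (hμ : IsProb μ) (x y : G) (hx : 1 / 2 < feat ℓ R μ x)
    (hy : 1 / 2 < feat ℓ R μ y) : ℓ.len (x⁻¹ * y) ≤ 2 * R := by
  by_contra hcon
  have h1 : ∀ g, bump ℓ R g x + bump ℓ R g y ≤ 1 := by
    intro g
    have h2 := ℓ.len_mul (g⁻¹ * x)⁻¹ (g⁻¹ * y)
    rw [ℓ.len_inv, _root_.mul_inv_rev, inv_inv, mul_assoc, mul_inv_cancel_left] at h2
    rcases le_total R (ℓ.len (g⁻¹ * x)) with h | h
    · rw [bump_eq_zero ℓ R hR h, zero_add]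
      exact bump_le_one ..
    · rw [bump_eq_zero ℓ R hR (x := g) (z := y) (by omega), add_zero]
      exact bump_le_one ..
  have h2 : feat ℓ R μ x + feat ℓ R μ y ≤ 1 := by
    rw [feat_apply, feat_apply, ← Finset.sum_add_distrib, ← hμ.2, mass_eq]
    refine Finset.sum_le_sum fun g _ => ?_
    rw [← mul_add]
    exact mul_le_of_le_one_right (hμ.1 g) (h1 g)
  linarith

theorem feat_mem_Icc {G : Type} [Group G] [TopologicalSpace G] [DiscreteTopology G] (ℓ : Len G)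
    (R : ℕ) (μ : G →₀ ℝ) (hμ : IsProb μ) (z : G) : feat ℓ R μ z ∈ Set.Icc (0 : ℝ) 1 := by
  rw [feat_apply]
  refine ⟨Finset.sum_nonneg fun g _ => mul_nonneg (hμ.1 g) (bump_nonneg ..), ?_⟩
  rw [← hμ.2, mass_eq]
  exact Finset.sum_le_sum fun g _ => mul_le_of_le_one_right (hμ.1 g) (bump_le_one ..)

theorem feat_tr {G : Type} [Group G] [TopologicalSpace G] [DiscreteTopology G] (ℓ : Len G)
    (R : ℕ) (μ : G →₀ ℝ) (h z : G) : feat ℓ R (tr h μ) (h * z) = feat ℓ R μ z :=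
  NetAux.feat_tr ℓ R μ h z

/-- features vanish away from the support -/
theorem feat_eq_zero {G : Type} [Group G] [TopologicalSpace G] [DiscreteTopology G] (ℓ : Len G)
    (R : ℕ) (hR : 0 < R) (μ : G →₀ ℝ) (z : G) (hz : ∀ x ∈ μ.support, R ≤ ℓ.len (x⁻¹ * z)) :
    feat ℓ R μ z = 0 := by
  rw [feat_apply]
  exact Finset.sum_eq_zero fun g hg => by rw [bump_eq_zero ℓ R hR (hz g hg), mul_zero]

theorem one_sub_mdist_le_feat {G : Type} [Group G] [TopologicalSpace G] [DiscreteTopology G]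
    (ℓ : Len G) (R : ℕ) (μ : G →₀ ℝ) (hμ : IsProb μ) (z : G) :
    1 - mdist ℓ z μ / R ≤ feat ℓ R μ z := by
  have h1 : 1 - mdist ℓ z μ / R = ∑ g ∈ μ.support, μ g * (1 - (ℓ.len (g⁻¹ * z) : ℝ) / R) := by
    simp only [mul_sub, mul_one, Finset.sum_sub_distrib, ← mass_eq, hμ.2, ← mul_div_assoc,
      ← Finset.sum_div, mdist, Finsupp.linearCombination_apply, Finsupp.sum, smul_eq_mul]
  rw [h1, feat_apply]
  exact Finset.sum_le_sum fun g _ => mul_le_mul_of_nonneg_left (le_max_right _ _) (hμ.1 g)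

theorem norm_bump_sub_le {G : Type} [Group G] [TopologicalSpace G] [DiscreteTopology G]
    (ℓ : Len G) (R : ℕ) (hR : 0 < R) (x y : G) :
    ‖bump ℓ R x - bump ℓ R y‖ ≤ ℓ.len (x⁻¹ * y) := by
  refine (BoundedContinuousFunction.norm_le (Nat.cast_nonneg _)).2 fun z => ?_
  rw [BoundedContinuousFunction.sub_apply, bump_apply, bump_apply, Real.norm_eq_abs, max_comm,
    max_comm 0]
  refine (abs_max_sub_max_le_abs _ _ _).trans ?_
  rw [sub_sub_sub_cancel_left, ← sub_div, abs_div, Nat.abs_cast, abs_sub_comm]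
  exact (div_le_self (abs_nonneg _) (Nat.one_le_cast.2 hR)).trans (len_sub_le ℓ x y z)

theorem norm_bump_le {G : Type} [Group G] [TopologicalSpace G] [DiscreteTopology G]
    (ℓ : Len G) (R : ℕ) (x : G) : ‖bump ℓ R x‖ ≤ 1 :=
  (BoundedContinuousFunction.norm_le zero_le_one).2 fun z => by
    rw [Real.norm_of_nonneg (bump_nonneg ..)]
    exact bump_le_one ..

theorem norm_xiD_sub_le {G : Type} [Group G] [TopologicalSpace G] [DiscreteTopology G]
    (ℓ : Len G) (x y : G) : ‖xiD ℓ x - xiD ℓ y‖ ≤ ℓ.len (x⁻¹ * y) := by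
  refine (BoundedContinuousFunction.norm_le (Nat.cast_nonneg _)).2 fun z => ?_
  rw [BoundedContinuousFunction.sub_apply, xiD_apply, xiD_apply, sub_sub_sub_cancel_right]
  exact len_sub_le ℓ x y z

end Crest.Agent.R192
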