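import Crest.Agent.R192.Occ

/-! Row 192: calculus of occupation fields. -/

set_option autoImplicit false

namespace Crest.Agent.R192

open Crest.AlgebraR.L1 MeasureTheory Matrix
open scoped ContDiff BoundedContinuousFunction

variable {G : Type} [Group G] {n : ℕ} {K : ℝ → ℝ} {E : Type} [NormedAddCommGroup E]
  [NormedSpace ℝ E]

namespace OccCalcAux

theorem fld_eq_sum (hK : Step K) (c : G) (x : Fin (n + 1) → G) (ξ : G → E) (θ : V (n + 1)) (φ : ℝ)
    (r : ℕ) (hr : ‖θ‖ + |φ| + 2 ≤ r) : fld K c x ξ (θ, φ) =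
      ∑ m ∈ Finset.Icc (-r : ℤ) r, ∑ i : Fin (n + 1),
        (K (φ - m - ext θ i.castSucc) - K (φ - m - ext θ i.succ)) • ξ (c ^ m * x i) := by
  simp only [fld, occ_eq_sum hK c x θ φ r hr, map_sum, Finsupp.linearCombination_single]

theorem ev_sum (hK : Step K) (c : G) (x : Fin (n + 1) → G) (ξ : G → E) (p : V (n + 1) × ℝ)
    (r : ℕ) (hr : ‖p.1‖ + |p.2| + 2 < r) : fld K c x ξ =ᶠ[nhds p] fun q =>
      ∑ m ∈ Finset.Icc (-r : ℤ) r, ∑ i : Fin (n + 1),
        (K (q.2 - m - ext q.1 i.castSucc) - K (q.2 - m - ext q.1 i.succ)) • ξ (c ^ m * x i) := by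
  have hc : Continuous fun q : V (n + 1) × ℝ => ‖q.1‖ + |q.2| + 2 := by fun_prop
  filter_upwards [hc.continuousAt.eventually_lt continuousAt_const hr] with q hq
  exact fld_eq_sum hK c x ξ q.1 q.2 r hq.le

theorem ext_smooth (k : Fin (n + 2)) : ContDiff ℝ ∞ fun θ : V (n + 1) => ext θ k := by
  refine Fin.lastCases ?_ (fun j => ?_) k
  · simp only [ext, Fin.snoc_last]
    fun_prop
  · simp only [ext, Fin.snoc_castSucc]
    fun_prop

theorem ext_line (θ v : V (n + 1)) (t : ℝ) (k : Fin (n + 2)) :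
    ext (θ + t • v) k = ext θ k + t * (Fin.snoc v (v 0) : V (n + 2)) k := by
  refine Fin.lastCases ?_ (fun j => ?_) k
  · simp only [ext, Fin.snoc_last, Pi.add_apply, Pi.smul_apply, smul_eq_mul]
    ring
  · simp [ext]

end OccCalcAux

open OccCalcAux

theorem fld_smooth (hK : Step K) (hK' : ContDiff ℝ ∞ K) (c : G) (x : Fin (n + 1) → G)
    (ξ : G → E) : ContDiff ℝ ∞ (fld K c x ξ) := by
  refine contDiff_iff_contDiffAt.2 fun p => ?_
  obtain ⟨r, hr⟩ := exists_nat_gt (‖p.1‖ + |p.2| + 2)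
  refine ContDiffAt.congr_of_eventuallyEq (ContDiff.contDiffAt ?_) (ev_sum hK c x ξ p r hr)
  refine ContDiff.sum fun m _ => ContDiff.sum fun i _ => ContDiff.smul (ContDiff.sub ?_ ?_)
    contDiff_const
  all_goals
    exact hK'.comp ((contDiff_snd.sub contDiff_const).sub ((ext_smooth _).comp contDiff_fst))

theorem OccCalcAux.fderiv_eq (hK : Step K) (hK' : ContDiff ℝ ∞ K) (c : G) (x : Fin (n + 1) → G)
    (ξ : G → E) (θ v : V (n + 1)) (φ s : ℝ) (r : ℕ) (hr : ‖θ‖ + |φ| + 2 < r) :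
    fderiv ℝ (fld K c x ξ) (θ, φ) (v, s) = ∑ m ∈ Finset.Icc (-r : ℤ) r, ∑ i : Fin (n + 1),
      (deriv K (φ - m - ext θ i.castSucc) * (s - (Fin.snoc v (v 0) : V (n + 2)) i.castSucc) -
        deriv K (φ - m - ext θ i.succ) * (s - (Fin.snoc v (v 0) : V (n + 2)) i.succ)) •
        ξ (c ^ m * x i) := by
  have hl : HasDerivAt (fun t : ℝ => ((θ, φ) : V (n + 1) × ℝ) + t • (v, s)) (v, s) 0 := by
    simpa using ((hasDerivAt_id (0 : ℝ)).smul_const ((v, s) : V (n + 1) × ℝ)).const_add (θ, φ)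
  have h0 : ((θ, φ) : V (n + 1) × ℝ) = (θ, φ) + (0 : ℝ) • (v, s) := by simp
  have h1 := ((fld_smooth hK hK' c x ξ).differentiable (by simp) (θ, φ)).hasFDerivAt
    |>.comp_hasDerivAt_of_eq 0 hl h0
  have ht := hl.continuousAt.tendsto
  rw [← h0] at ht
  have h2 := (ev_sum hK c x ξ (θ, φ) r hr).comp_tendsto ht
  have h3 : ∀ (m : ℤ) (k : Fin (n + 2)), HasDerivAt
      (fun t : ℝ => K (φ + t * s - m - ext (θ + t • v) k))
      (deriv K (φ - m - ext θ k) * (s - (Fin.snoc v (v 0) : V (n + 2)) k)) 0 := by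
    intro m k
    simp only [ext_line]
    have h4 : HasDerivAt (fun t : ℝ => φ + t * s - m -
        (ext θ k + t * (Fin.snoc v (v 0) : V (n + 2)) k))
        (s - (Fin.snoc v (v 0) : V (n + 2)) k) 0 :=
      (((hasDerivAt_mul_const s).const_add φ).sub_const _).sub
        ((hasDerivAt_mul_const _).const_add _)
    exact ((hK'.differentiable (by simp) _).hasDerivAt).comp_of_eq 0 h4 (by simp)
  refine h1.unique (HasDerivAt.congr_of_eventuallyEq ?_ h2)
  exact HasDerivAt.fun_sum fun m _ => HasDerivAt.fun_sum fun i _ =>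
    ((h3 m i.castSucc).sub (h3 m i.succ)).smul_const _

theorem norm_fderiv_fld_le (hK : Step K) (hK' : ContDiff ℝ ∞ K) (ℓ : Len G) (c : G)
    (x : Fin (n + 1) → G) (ξ : G → E) (hξ : ∀ a b, ‖ξ a - ξ b‖ ≤ ℓ.len (a⁻¹ * b))
    (θ : V (n + 1)) (φ : ℝ) (i : Fin (n + 1)) :
    ‖fderiv ℝ (fld K c x ξ) (θ, φ) (ev i, 0)‖ ≤ slen ℓ c x i * per (deriv K) (φ - θ i) := by
  obtain ⟨r, hr⟩ := exists_nat_gt (‖θ‖ + |φ| + 2)
  have hθ : ∀ j, |θ j| ≤ ‖θ‖ := fun j => norm_le_pi_norm θ j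
  have hφ := abs_le.1 (le_refl |φ|)
  rw [OccCalcAux.fderiv_eq hK hK' c x ξ θ _ φ 0 r hr]
  have e0 : ∀ w : V (n + 1), ∀ a : ℝ, (Fin.snoc w a : V (n + 2)) 0 = w 0 := fun w a => by simp
  refine (norm_abel_le ℓ ξ hξ c x r (fun m k => deriv K (φ - m - ext θ k) *
    (0 - (Fin.snoc (ev i) (ev i 0) : V (n + 2)) k)) (fun m => ?_) ?_ ?_).trans (le_of_eq ?_)
  · simp only [ext, Fin.snoc_last, e0]
    push_cast
    ring_nf
  · rw [hK.deriv_eq_zero, zero_mul]
    right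
    have := abs_le.1 (hθ 0)
    simp only [ext, e0]
    push_cast
    linarith
  · rw [hK.deriv_eq_zero, zero_mul]
    left
    have := abs_le.1 (hθ 0)
    simp only [ext, e0]
    push_cast
    linarith
  · rw [Finset.sum_eq_single i]
    · congr 1
      rw [per, finsum_eq_sum_of_support_subset (s := Finset.Icc (-r : ℤ) r)]
      · refine Finset.sum_congr rfl fun m _ => ?_
        simp [ext, sub_right_comm]
      · intro m hm
        by_contra hm'
        refine hm (abs_eq_zero.2 (hK.deriv_eq_zero _ ?_))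
        have := abs_le.1 (hθ i)
        rw [Finset.coe_Icc, Set.mem_Icc, not_and_or, not_le, not_le] at hm'
        rcases hm' with h | h
        · have : (m : ℝ) < -r := by exact_mod_cast h
          right; linarith
        · have : (r : ℝ) < m := by exact_mod_cast h
          left; linarith
    · intro j _ hj
      simp [hj]
    · simp

theorem norm_fld_sub_le {δ0 δ : ℝ} (h0 : 0 < δ0) (h : 0 < δ) (h1 : δ + δ0 ≤ 1) (c : G)
    (x : Fin (n + 1) → G) (ξ : G → E) (hξ : ∀ a, ‖ξ a‖ ≤ 1) {θ : V (n + 1)} (hθ : θ ∈ cell n)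
    (φ φ' : ℝ) :
    ‖fld (kerK δ0 δ) c x ξ (θ, φ) - fld (kerK δ0 δ) c x ξ (θ, φ')‖ ≤ 2 * |φ - φ'| / δ := by
  have hK := kerK_step h0 h h1
  have hK' := kerK_smooth δ0 δ
  have hσ := sig_step h0 (by linarith)
  have hd : ∀ ψ : ℝ, HasDerivAt (fun t => fld (kerK δ0 δ) c x ξ (θ, t))
      (fderiv ℝ (fld (kerK δ0 δ) c x ξ) (θ, ψ) (0, 1)) ψ := fun ψ =>
    ((fld_smooth hK hK' c x ξ).differentiable (by simp) (θ, ψ)).hasFDerivAt.comp_hasDerivAt ψ
      ((hasDerivAt_const ψ θ).prodMk (hasDerivAt_id ψ))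
  have hb : ∀ ψ : ℝ, ‖fderiv ℝ (fld (kerK δ0 δ) c x ξ) (θ, ψ) (0, 1)‖ ≤ 2 / δ := by
    intro ψ
    obtain ⟨r, hr⟩ := exists_nat_gt (‖θ‖ + |ψ| + |ψ - δ| + 2)
    have e : fderiv ℝ (fld (kerK δ0 δ) c x ξ) (θ, ψ) (0, 1) =
        δ⁻¹ • (fld (fun x => Real.smoothTransition (x / δ0)) c x ξ (θ, ψ) -
          fld (fun x => Real.smoothTransition (x / δ0)) c x ξ (θ, ψ - δ)) := by
      rw [OccCalcAux.fderiv_eq hK hK' c x ξ θ _ ψ 1 r (by linarith [abs_nonneg (ψ - δ)]),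
        fld_eq_sum hσ c x ξ θ ψ r (by linarith [abs_nonneg (ψ - δ)]),
        fld_eq_sum hσ c x ξ θ (ψ - δ) r (by linarith [abs_nonneg ψ]), ← Finset.sum_sub_distrib,
        Finset.smul_sum]
      refine Finset.sum_congr rfl fun m _ => ?_
      rw [← Finset.sum_sub_distrib, Finset.smul_sum]
      refine Finset.sum_congr rfl fun i _ => ?_
      have e0 : ∀ k, (Fin.snoc (0 : V (n + 1)) ((0 : V (n + 1)) 0) : V (n + 2)) k = 0 :=
        fun k => Fin.lastCases (by simp) (fun j => by simp) k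
      have e1 : ∀ a : ℝ, ψ - δ - m - a = ψ - m - a - δ := fun a => by ring
      rw [← sub_smul, smul_smul, e0, e0, deriv_kerK h0, deriv_kerK h0, e1, e1]
      congr 1
      ring
    rw [e, norm_smul, norm_inv, Real.norm_of_nonneg h.le, inv_mul_eq_div]
    refine div_le_div_of_nonneg_right ((norm_sub_le _ _).trans ?_) h.le
    have h2 := (isProb_occ hσ c x hθ ψ).norm_pr_le ξ hξ
    have h3 := (isProb_occ hσ c x hθ (ψ - δ)).norm_pr_le ξ hξ
    exact (add_le_add h2 h3).trans (by norm_num)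
  have := convex_univ.norm_image_sub_le_of_norm_hasDerivWithin_le
    (fun ψ _ => (hd ψ).hasDerivWithinAt) (fun ψ _ => hb ψ) (Set.mem_univ φ') (Set.mem_univ φ)
  rw [Real.norm_eq_abs] at this
  refine this.trans (le_of_eq ?_)
  ring

end Crest.Agent.R192
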