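import Crest.Agent.R192.TP
import Crest.Agent.R192.OccCalc
import Crest.Agent.R192.Net

/-! Row 192: the time average of the soft minimum. -/

set_option autoImplicit false

namespace Crest.Agent.R192

open Crest.AlgebraR.L1 MeasureTheory Matrix
open scoped ContDiff BoundedContinuousFunction

variable {G : Type} [Group G] [TopologicalSpace G] [DiscreteTopology G] {n : ℕ} {ℓ : Len G}
  (Γ : Gibbs ℓ) {δ0 δ : ℝ}

theorem phi_fld_smooth (h0 : 0 < δ0) (h : 0 < δ) (h1 : δ + δ0 ≤ 1) (c : G)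
    (x : Fin (n + 1) → G) : ContDiff ℝ ∞ fun p => Γ.Φ (fld (kerK δ0 δ) c x (xiD ℓ) p) :=
  Γ.smooth.comp (fld_smooth (kerK_step h0 h h1) (kerK_smooth δ0 δ) c x (xiD ℓ))

theorem phi_fld_periodic {K : ℝ → ℝ} (hK : Step K) (c : G) (x : Fin (n + 1) → G)
    (θ : V (n + 1)) : Function.Periodic (fun φ => Γ.Φ (fld K c x (xiD ℓ) (θ, φ))) 1 := by
  intro φ
  simp only [fld]
  rw [occ_add_one hK, Γ.inv _ _ (mass_occ hK c x θ φ)]

theorem avg_shift {K : ℝ → ℝ} (hK : Step K) (c : G) (x : Fin (n + 1) → G) (θ : V (n + 1))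
    (t : ℝ) : ∫ φ in (0 : ℝ)..1, Γ.Φ (fld K c x (xiD ℓ) (θ, φ + t)) = avgΦ Γ K c x θ := by
  rw [intervalIntegral.integral_comp_add_right (fun φ => Γ.Φ (fld K c x (xiD ℓ) (θ, φ))) t,
    zero_add, add_comm 1 t, (phi_fld_periodic Γ hK c x θ).intervalIntegral_add_eq t 0, zero_add]
  rfl

theorem avg_smooth (h0 : 0 < δ0) (h : 0 < δ) (h1 : δ + δ0 ≤ 1) (c : G) (x : Fin (n + 1) → G) :
    ContDiff ℝ ∞ (avgΦ Γ (kerK δ0 δ) c x) := by
  exact contDiff_intervalIntegral (phi_fld_smooth Γ h0 h h1 c x) 0 1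

theorem avg_rot {K : ℝ → ℝ} (hK : Step K) (c : G) (x : Fin (n + 1) → G) (θ : V (n + 1)) (t : ℝ) :
    avgΦ Γ K c x (fun i => θ i + t) = avgΦ Γ K c x θ := by
  rw [← avg_shift Γ hK c x (fun i => θ i + t) t]
  simp only [avgΦ, fld, occ_rot]

theorem avg_conj {K : ℝ → ℝ} (hK : Step K) (c g : G) (x : Fin (n + 1) → G) :
    avgΦ Γ K (g * c * g⁻¹) (fun i => g * x i) = avgΦ Γ K c x := by
  funext θ
  simp only [avgΦ, fld, occ_conj hK, Γ.inv _ _ (mass_occ hK c x θ _)]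

theorem avg_cyc {K : ℝ → ℝ} (hK : Step K) (c : G) (x : Fin (n + 1) → G) (θ : V (n + 1)) :
    avgΦ Γ K c (rotx c x) (rotθ θ) = avgΦ Γ K c x θ := by
  simp only [avgΦ, fld, occ_cyc hK]

theorem avg_face (K : ℝ → ℝ) (c : G) (x : Fin (n + 2) → G) (p : Fin (n + 2)) (θ : V (n + 1)) :
    avgΦ Γ K c x (faceθ p θ) = avgΦ Γ K c (fun i => x (p.succAbove i)) θ := by
  simp only [avgΦ, fld, occ_face]

theorem avg_nonneg {K : ℝ → ℝ} (hK : Step K) (c : G) (x : Fin (n + 1) → G) {θ : V (n + 1)}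
    (hθ : θ ∈ cell n) : 0 ≤ avgΦ Γ K c x θ := by
  exact intervalIntegral.integral_nonneg zero_le_one fun φ _ =>
    Γ.nonneg _ (isProb_occ hK c x hθ φ)

theorem avg_le (h0 : 0 < δ0) (h1 : 5 * δ0 ≤ 1) (c : G) (x : Fin (n + 1) → G) {θ : V (n + 1)}
    (hθ : θ ∈ cell n) : avgΦ Γ (kerK δ0 δ0) c x θ ≤ Γ.C0 + 4 * (δ0 * tlen ℓ c x) := by
  have h2 : δ0 + δ0 ≤ 1 := by linarith
  have h4 : 0 < 4 * δ0 := by linarith
  have h5 : 4 * δ0 + δ0 ≤ 1 := by linarith
  have hK := kerK_step h0 h0 h2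
  have hc := per_deriv_continuous h0 h4 h5
  have key : ∀ φ, Γ.Φ (fld (kerK δ0 δ0) c x (xiD ℓ) (θ, φ)) ≤ Γ.C0 + ∑ i, slen ℓ c x i *
      (4 * δ0 * per (deriv (kerK δ0 (4 * δ0))) (φ + (δ0 - θ i))) := by
    intro φ
    obtain ⟨z, hz⟩ := occ_heav c x hθ φ
    refine (Γ.le_mdist _ (isProb_occ hK c x hθ φ) z).trans (add_le_add le_rfl ?_)
    have h3 := norm_pr_occ_sub_le ℓ (fun y => (ℓ.len (y⁻¹ * z) : ℝ))
      (fun a b => NetAux.len_sub_le ℓ a b z) hK heav_step c x θ φ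
    have h6 : pr (fun y => (ℓ.len (y⁻¹ * z) : ℝ)) (Finsupp.single z 1) = 0 := by
      simp [ℓ.len_one]
    rw [hz, h6, sub_zero] at h3
    refine (le_abs_self _).trans (h3.trans (Finset.sum_le_sum fun i _ => ?_))
    refine mul_le_mul_of_nonneg_left ?_ (Nat.cast_nonneg _)
    refine (per_sub_heav_le h0 h1 _).trans_eq ?_
    congr 2
    ring
  have hi : ∀ i : Fin (n + 1), Continuous fun φ : ℝ => (slen ℓ c x i : ℝ) *
      (4 * δ0 * per (deriv (kerK δ0 (4 * δ0))) (φ + (δ0 - θ i))) := fun i => by fun_prop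
  refine (intervalIntegral.integral_mono_on zero_le_one
    (((phi_fld_smooth Γ h0 h0 h2 c x).continuous.comp
      (Continuous.prodMk_right θ)).intervalIntegrable 0 1)
    ((continuous_const.add (continuous_finsetSum _ fun i _ => hi i)).intervalIntegrable 0 1)
    fun φ _ => key φ).trans_eq ?_
  simp only [Pi.add_apply]
  rw [intervalIntegral.integral_add intervalIntegrable_const
    ((continuous_finsetSum _ fun i _ => hi i).intervalIntegrable 0 1),
    intervalIntegral.integral_finsetSum fun i _ => (hi i).intervalIntegrable 0 1]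
  simp only [intervalIntegral.integral_const_mul, integral_per_deriv h0 h4 h5]
  simp only [intervalIntegral.integral_const, tlen, Nat.cast_sum, ← Finset.sum_mul, smul_eq_mul]
  ring

theorem avg_fderiv_le (h0 : 0 < δ0) (h : 0 < δ) (h1 : δ + δ0 ≤ 1) (c : G) (x : Fin (n + 1) → G)
    (θ : V (n + 1)) (i : Fin (n + 1)) :
    |fderiv ℝ (avgΦ Γ (kerK δ0 δ) c x) θ (ev i)| ≤ slen ℓ c x i := by
  have hK := kerK_step h0 h h1
  have hf := fld_smooth hK (kerK_smooth δ0 δ) c x (xiD ℓ)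
  have hc := per_deriv_continuous h0 h h1
  have e := fderiv_intervalIntegral (phi_fld_smooth Γ h0 h h1 c x) 0 1 θ (ev i)
  have e' : fderiv ℝ (avgΦ Γ (kerK δ0 δ) c x) θ (ev i) = _ := e
  rw [e', ← Real.norm_eq_abs]
  refine (intervalIntegral.norm_integral_le_of_norm_le zero_le_one
    (g := fun φ => (slen ℓ c x i : ℝ) * per (deriv (kerK δ0 δ)) (φ + -θ i))
    (Filter.Eventually.of_forall fun φ _ => ?_)
    (Continuous.intervalIntegrable (by fun_prop) 0 1)).trans_eq ?_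
  · rw [fderiv_fun_comp _ (Γ.smooth.differentiable (by simp) _) (hf.differentiable (by simp) _),
      ContinuousLinearMap.comp_apply, Real.norm_eq_abs, ← sub_eq_add_neg]
    exact (Γ.grad_le _ _).trans
      (norm_fderiv_fld_le hK (kerK_smooth δ0 δ) ℓ c x _ (norm_xiD_sub_le ℓ) θ φ i)
  · rw [intervalIntegral.integral_const_mul, integral_per_deriv h0 h h1, mul_one]

end Crest.Agent.R192
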