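import Crest.Agent.R192.Defs

/-! Row 192: characters of a cyclic group that are close to `1` on a small Bohr-type set. -/

set_option autoImplicit false

namespace Crest.Agent.R192

open Crest.AlgebraR.L1 MeasureTheory Matrix
open scoped ContDiff BoundedContinuousFunction

/-- `e(t) = exp (2 π i t)` -/
noncomputable def ee (t : ℝ) : ℂ := Complex.exp (2 * Real.pi * t * Complex.I)

theorem ee_add (s t : ℝ) : ee (s + t) = ee s * ee t := by
  rw [ee, ee, ee, ← Complex.exp_add]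
  congr 1; push_cast; ring

theorem norm_ee (t : ℝ) : ‖ee t‖ = 1 := by
  have := Complex.norm_exp_ofReal_mul_I (2 * Real.pi * t)
  rw [ee, ← this]
  congr 2; push_cast; ring

theorem ee_int (k : ℤ) : ee k = 1 := by
  rw [ee, ← Complex.exp_int_mul_two_pi_mul_I k]
  congr 1; push_cast; ring

theorem Char.ee_eq (t : ℝ) : ee t = Complex.exp (Complex.I * ((2 * Real.pi * t : ℝ) : ℂ)) := by
  rw [ee]; congr 1; push_cast; ring

theorem Char.norm_ee_sub_le (t : ℝ) : ‖ee t - 1‖ ≤ 2 * Real.pi * |t| := by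
  rw [Char.ee_eq]
  refine Real.norm_exp_I_mul_ofReal_sub_one_le.trans ?_
  rw [Real.norm_eq_abs, abs_mul, abs_of_pos (by positivity)]

theorem Char.le_norm_half {t : ℝ} (h0 : 0 ≤ t) (h1 : t ≤ 1 / 2) : 4 * t ≤ ‖1 - ee t‖ := by
  rw [norm_sub_rev, Char.ee_eq, Complex.norm_exp_I_mul_ofReal_sub_one, Real.norm_eq_abs]
  have hp := Real.pi_pos
  have h2 := Real.mul_le_sin (x := 2 * Real.pi * t / 2) (by positivity) (by nlinarith)
  have h3 : 2 / Real.pi * (2 * Real.pi * t / 2) = 2 * t := by field_simp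
  have h4 := le_abs_self (2 * Real.sin (2 * Real.pi * t / 2))
  linarith

theorem Char.le_norm {δ t : ℝ} (hδ : 0 ≤ δ) (h0 : δ ≤ t) (h1 : t ≤ 1 - δ) :
    4 * δ ≤ ‖1 - ee t‖ := by
  by_cases h : t ≤ 1 / 2
  · have := Char.le_norm_half (hδ.trans h0) h
    linarith
  · have h2 := Char.le_norm_half (t := 1 - t) (by linarith) (by linarith)
    have h3 : ee (1 - t) * ee t = 1 := by
      rw [← ee_add, sub_add_cancel]; simpa using ee_int 1
    have h4 : ‖1 - ee (1 - t)‖ = ‖1 - ee t‖ := by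
      have := norm_mul (1 - ee (1 - t)) (ee t)
      rw [norm_ee, mul_one, sub_mul, h3, one_mul, norm_sub_rev] at this
      exact this.symm
    linarith

/-- a small set of exponents spans the Bohr-type set with coefficients `0, ±1` -/
theorem Char.exists_span {G : Type} [Group G] (ℓ : Len G) (c : G) (ϱ : G → ℝ) (h : ℝ) (hh : 0 < h)
    (r b : ℕ) (hb : ℓ.D * r < b) (ϱ_one : ϱ 1 = 0)
    (ϱ_mul : ∀ g g', ϱ (g * g') ≤ ϱ g + ϱ g') (hF : ∀ g, ϱ g < h → ℓ.len g ≤ r) :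
    ∃ Λ : Finset ℤ, Λ.card ≤ b ∧ ∀ m : ℤ, b * ϱ (c ^ m) < h →
      ∃ ε : ℤ → ℤ, (∀ x, |ε x| ≤ 1) ∧ c ^ m = c ^ (∑ x ∈ Λ, ε x * x) := by
  classical
  let P : Finset ℤ → Prop := fun Λ => (∀ m ∈ Λ, b * ϱ (c ^ m) < h) ∧
    ∀ S ⊆ Λ, ∀ T ⊆ Λ, c ^ (∑ x ∈ S, x) = c ^ (∑ x ∈ T, x) → S = T
  have hb0 : (0 : ℝ) < b := by exact_mod_cast (Nat.zero_le _).trans_lt hb
  have hsum : ∀ S : Finset ℤ, ϱ (c ^ (∑ x ∈ S, x)) ≤ ∑ x ∈ S, ϱ (c ^ x) := by
    intro S
    induction S using Finset.induction_on with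
    | empty => simp [ϱ_one]
    | insert a S ha ih =>
      rw [Finset.sum_insert ha, Finset.sum_insert ha, _root_.zpow_add]
      linarith [ϱ_mul (c ^ a) (c ^ (∑ x ∈ S, x))]
  have hcard : ∀ Λ, P Λ → Λ.card < b := by
    intro Λ hΛ
    by_contra hc
    obtain ⟨Λ', h1, h2⟩ := Finset.exists_subset_card_eq (not_lt.1 hc)
    have h3 : Λ'.powerset.card ≤ (ℓ.ball r).card := by
      refine Finset.card_le_card_of_injOn (fun S => c ^ (∑ x ∈ S, x)) (fun S hS => ?_)
        fun S hS T hT e => hΛ.2 S ((Finset.mem_powerset.1 hS).trans h1) T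
          ((Finset.mem_powerset.1 hT).trans h1) e
      have hS' := Finset.mem_powerset.1 (Finset.mem_coe.1 hS)
      refine Finset.mem_coe.2 ((ℓ.mem_ball _ _).2 (hF _ ((hsum S).trans_lt ?_)))
      rcases S.eq_empty_or_nonempty with rfl | hne
      · simpa using hh
      have a1 : ∑ x ∈ S, b * ϱ (c ^ x) < ∑ x ∈ S, h :=
        Finset.sum_lt_sum_of_nonempty hne fun x hx => hΛ.1 x (h1 (hS' hx))
      have a2 : (S.card : ℝ) ≤ b := by exact_mod_cast h2 ▸ Finset.card_le_card hS'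
      rw [← Finset.mul_sum, Finset.sum_const, nsmul_eq_mul] at a1
      exact lt_of_mul_lt_mul_left (a1.trans_le (by gcongr)) hb0.le
    rw [Finset.card_powerset, h2] at h3
    exact absurd (h3.trans (ℓ.card_ball r)) (not_le.2 (Nat.pow_lt_pow_right (by norm_num) hb))
  obtain ⟨n, ⟨Λ, hΛ, rfl⟩, hmax⟩ := Int.exists_greatest_of_bdd
    (P := fun n => ∃ Λ, P Λ ∧ n = (Λ.card : ℤ))
    ⟨b, by rintro _ ⟨Λ, h1, rfl⟩; exact_mod_cast (hcard Λ h1).le⟩
    ⟨_, ∅, ⟨by simp, by simp⟩, rfl⟩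
  refine ⟨Λ, (hcard Λ hΛ).le, fun m hm => ?_⟩
  have key : ∃ S ⊆ Λ, ∃ T ⊆ Λ, c ^ m = c ^ (∑ x ∈ S, x - ∑ x ∈ T, x) := by
    by_cases hmΛ : m ∈ Λ
    · exact ⟨{m}, by simpa using hmΛ, ∅, by simp, by simp⟩
    have h1 : ¬ P (insert m Λ) := fun hP => by
      have := hmax _ ⟨_, hP, rfl⟩
      rw [Finset.card_insert_of_notMem hmΛ] at this
      omega
    have h2 : ∃ S ⊆ insert m Λ, ∃ T ⊆ insert m Λ,
        c ^ (∑ x ∈ S, x) = c ^ (∑ x ∈ T, x) ∧ S ≠ T := by
      by_contra hc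
      push Not at hc
      refine h1 ⟨fun x hx => ?_, hc⟩
      rcases Finset.mem_insert.1 hx with rfl | hx
      · exact hm
      · exact hΛ.1 x hx
    obtain ⟨S, hS, T, hT, e, hne⟩ := h2
    have aux : ∀ S T : Finset ℤ, S ⊆ insert m Λ → T ⊆ insert m Λ → m ∈ S → m ∉ T →
        c ^ (∑ x ∈ S, x) = c ^ (∑ x ∈ T, x) →
        ∃ S ⊆ Λ, ∃ T ⊆ Λ, c ^ m = c ^ (∑ x ∈ S, x - ∑ x ∈ T, x) := by
      intro S T hS hT a1 a2 e
      refine ⟨T, (Finset.subset_insert_iff_of_notMem a2).1 hT, S.erase m,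
        Finset.subset_insert_iff.1 hS, ?_⟩
      rw [_root_.zpow_sub, ← e, ← _root_.zpow_sub, ← Finset.add_sum_erase S _ a1, add_sub_cancel_right]
    by_cases a1 : m ∈ S <;> by_cases a2 : m ∈ T
    · exfalso
      rw [← Finset.add_sum_erase S _ a1, ← Finset.add_sum_erase T _ a2, _root_.zpow_add, _root_.zpow_add,
        mul_right_inj] at e
      have := hΛ.2 _ (Finset.subset_insert_iff.1 hS) _ (Finset.subset_insert_iff.1 hT) e
      exact hne (by rw [← Finset.insert_erase a1, this, Finset.insert_erase a2])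
    · exact aux S T hS hT a1 a2 e
    · exact aux T S hT hS a2 a1 e.symm
    · exact absurd (hΛ.2 _ ((Finset.subset_insert_iff_of_notMem a1).1 hS) _
        ((Finset.subset_insert_iff_of_notMem a2).1 hT) e) hne
  obtain ⟨S, hS, T, hT, e⟩ := key
  refine ⟨fun x => (if x ∈ S then 1 else 0) - if x ∈ T then 1 else 0, fun x => ?_, ?_⟩
  · beta_reduce
    split_ifs <;> simp
  · rw [e]
    simp only [sub_mul, ite_mul, one_mul, zero_mul, Finset.sum_sub_distrib, Finset.sum_ite_mem,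
      Finset.inter_eq_right.2 hS, Finset.inter_eq_right.2 hT]

/-- simultaneous approximation -/
theorem Char.exists_approx (Λ : Finset ℤ) (q : ℝ) (n M : ℕ) (hn : 0 < n) (hM : n ^ Λ.card < M) :
    ∃ d : ℕ, 0 < d ∧ d < M ∧ ∀ x ∈ Λ, ∃ k : ℤ, |d * q * x - k| ≤ 1 / n := by
  classical
  have hn' : (0 : ℝ) < n := by exact_mod_cast hn
  let f : ℕ → (Λ → ℕ) := fun j x => ⌊n * Int.fract (j * q * (x : ℤ))⌋₊
  have hlt : ∀ j x, f j x < n := fun j x => by
    refine (Nat.floor_lt (mul_nonneg hn'.le (Int.fract_nonneg _))).2 ?_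
    have := Int.fract_lt_one (j * q * (x : ℤ))
    nlinarith
  obtain ⟨j, hj, j', hj', hne, e⟩ := Finset.exists_ne_map_eq_of_card_lt_of_maps_to
    (s := Finset.range M) (t := Fintype.piFinset fun _ : Λ => Finset.range n) (f := f)
    (by simpa using hM) fun j _ => by simpa using hlt j
  have aux : ∀ j j' : ℕ, j' < j → j < M → f j = f j' →
      ∃ d : ℕ, 0 < d ∧ d < M ∧ ∀ x ∈ Λ, ∃ k : ℤ, |d * q * x - k| ≤ 1 / n := by
    intro j j' h1 h2 e
    refine ⟨j - j', by omega, by omega, fun x hx => ⟨⌊j * q * x⌋ - ⌊j' * q * x⌋, ?_⟩⟩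
    have e1 : ⌊n * Int.fract (j * q * x)⌋₊ = ⌊n * Int.fract (j' * q * x)⌋₊ := congrFun e ⟨x, hx⟩
    have a1 := Nat.floor_le (mul_nonneg hn'.le (Int.fract_nonneg (j * q * x)))
    have a2 := Nat.lt_floor_add_one (n * Int.fract (j * q * x))
    have a3 := Nat.floor_le (mul_nonneg hn'.le (Int.fract_nonneg (j' * q * x)))
    have a4 := Nat.lt_floor_add_one (n * Int.fract (j' * q * x))
    rw [e1] at a1 a2
    have e2 : ((j - j' : ℕ) : ℝ) * q * x - ((⌊j * q * x⌋ - ⌊j' * q * x⌋ : ℤ) : ℝ) =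
        Int.fract (j * q * x) - Int.fract (j' * q * x) := by
      rw [Nat.cast_sub h1.le, Int.fract, Int.fract]; push_cast; ring
    rw [e2, le_div_iff₀ hn', ← abs_of_pos hn', ← abs_mul, abs_le]
    constructor <;> nlinarith
  rcases lt_or_gt_of_ne hne with h | h
  · exact aux j' j h (Finset.mem_range.1 hj') e.symm
  · exact aux j j' h (Finset.mem_range.1 hj) e

/-- a short cyclic group with a long generator: the short elements lie in a proper subgroup -/
theorem Char.exists_dvd {G : Type} [Group G] (ℓ : Len G) (c : G) (r : ℕ) (hN : 0 < orderOf c)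
    (hc : r * orderOf c < ℓ.len c) :
    ∃ d : ℕ, 2 ≤ d ∧ d ≤ orderOf c ∧ ∀ m : ℤ, ℓ.len (c ^ m) ≤ r → (d : ℤ) ∣ m := by
  classical
  have hgap : ∃ k < orderOf c, ∀ m : ℤ, ℓ.len (c ^ m) ≤ r * (k + 1) → ℓ.len (c ^ m) ≤ r * k := by
    by_contra hcon
    push Not at hcon
    choose! g hg1 hg2 using hcon
    have hN' : (orderOf c : ℤ) ≠ 0 := by omega
    have e : ∀ k, c ^ (g k % orderOf c).toNat = c ^ g k := fun k => by
      rw [← zpow_natCast, Int.toNat_of_nonneg (Int.emod_nonneg _ hN'), zpow_mod_orderOf]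
    have h1 : (Finset.range (orderOf c)).card ≤ ((Finset.range (orderOf c)).erase 0).card := by
      refine Finset.card_le_card_of_injOn (fun k => (g k % orderOf c).toNat) (fun k hk => ?_)
        fun k hk k' hk' h => ?_
      · have hk' := Finset.mem_range.1 (Finset.mem_coe.1 hk)
        have a1 := Int.emod_lt_of_pos (g k) (show (0 : ℤ) < orderOf c by omega)
        beta_reduce
        refine Finset.mem_coe.2 (Finset.mem_erase.2 ⟨fun h0 => ?_, Finset.mem_range.2 (by omega)⟩)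
        have a2 := hg2 k hk'
        rw [← e, h0, pow_zero, ℓ.len_one] at a2
        omega
      · have a1 := hg1 k (Finset.mem_range.1 (Finset.mem_coe.1 hk))
        have a2 := hg2 k (Finset.mem_range.1 (Finset.mem_coe.1 hk))
        have a3 := hg1 k' (Finset.mem_range.1 (Finset.mem_coe.1 hk'))
        have a4 := hg2 k' (Finset.mem_range.1 (Finset.mem_coe.1 hk'))
        have a5 : c ^ g k = c ^ g k' := by rw [← e, ← e]; exact congrArg (c ^ ·) h
        rw [a5] at a1 a2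
        have b1 := Nat.lt_of_mul_lt_mul_left (a2.trans_le a3)
        have b2 := Nat.lt_of_mul_lt_mul_left (a4.trans_le a1)
        omega
    rw [Finset.card_erase_of_mem (Finset.mem_range.2 hN), Finset.card_range] at h1
    omega
  obtain ⟨k, hk, hgap⟩ := hgap
  let H : AddSubgroup ℤ :=
    { carrier := {m | ∀ x : ℤ, ℓ.len (c ^ x) ≤ r * k ↔ ℓ.len (c ^ (x + m)) ≤ r * k}
      add_mem' := fun {a b} ha hb x => by rw [← add_assoc, ← hb, ← ha]
      zero_mem' := fun x => by rw [add_zero]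
      neg_mem' := fun {a} ha x => by rw [ha (x + -a), neg_add_cancel_right] }
  have hH : ∀ m : ℤ, ℓ.len (c ^ m) ≤ r → m ∈ H := by
    intro m hm x
    constructor
    · intro hx
      refine hgap _ ?_
      have := ℓ.len_mul (c ^ x) (c ^ m)
      rw [_root_.zpow_add, mul_add]; omega
    · intro hx
      refine hgap _ ?_
      have := ℓ.len_mul (c ^ (x + m)) (c ^ m)⁻¹
      rw [ℓ.len_inv, ← _root_.zpow_sub, add_sub_cancel_right] at this
      rw [mul_add]; omega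
  have h1 : (1 : ℤ) ∉ H := fun h => by
    have := (h 0).1 (by simp [ℓ.len_one])
    rw [zero_add, zpow_one] at this
    have := Nat.mul_le_mul_left r hk.le
    omega
  obtain ⟨a, ha⟩ := Int.subgroup_cyclic H
  have hdvd : ∀ m ∈ H, (a.natAbs : ℤ) ∣ m := by
    intro m hm
    rw [ha, AddSubgroup.mem_closure_singleton] at hm
    obtain ⟨n, rfl⟩ := hm
    exact Int.natAbs_dvd.2 (Dvd.intro_left n rfl)
  have h2 : a.natAbs ∣ orderOf c := by
    have := hdvd (orderOf c) (hH _ (by simp [ℓ.len_one]))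
    exact_mod_cast this
  have h3 : a.natAbs ≠ 1 := fun h => h1 (by
    rw [ha, AddSubgroup.mem_closure_singleton]
    rcases Int.natAbs_eq_iff.1 h with rfl | rfl
    · exact ⟨1, by simp⟩
    · exact ⟨-1, by simp⟩)
  have h4 := Nat.pos_of_dvd_of_pos h2 hN
  exact ⟨a.natAbs, by omega, Nat.le_of_dvd hN h2, fun m hm => hdvd m (hH m hm)⟩

theorem exists_char {G : Type} [Group G] (ℓ : Len G) (c : G) (ϱ : G → ℝ) (h : ℝ) (hh : 0 < h)
    (r b : ℕ) (hb : ℓ.D * r < b) (ϱ_nonneg : ∀ g, 0 ≤ ϱ g) (ϱ_one : ϱ 1 = 0)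
    (ϱ_inv : ∀ g, ϱ g⁻¹ = ϱ g) (ϱ_mul : ∀ g g', ϱ (g * g') ≤ ϱ g + ϱ g')
    (hF : ∀ g, ϱ g < h → ℓ.len g ≤ r)
    (hc : ¬ IsOfFinOrder c ∨ 4 * r * ((13 * b) ^ b + 1) < ℓ.len c) :
    ∃ ϑ : ℝ, (∀ m : ℤ, c ^ m = 1 → ee (ϑ * m) = 1) ∧
      1 / ((13 * (b : ℝ)) ^ b + 1) ≤ ‖1 - ee ϑ‖ ∧
      ∀ m : ℤ, b * ϱ (c ^ m) < h → ‖ee (ϑ * m) - 1‖ ≤ 1 / 2 := by
  have hb0 : 0 < b := (Nat.zero_le _).trans_lt hb
  have hb1 : (1 : ℝ) ≤ b := by exact_mod_cast hb0
  set M : ℕ := (13 * b) ^ b + 1 with hM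
  have hM' : (13 * (b : ℝ)) ^ b + 1 = M := by rw [hM]; push_cast; ring
  have hM0 : (0 : ℝ) < M := by rw [hM]; positivity
  have hM1 : (1 : ℝ) ≤ M := by exact_mod_cast Nat.succ_le_of_lt (by exact_mod_cast hM0)
  have hδ : 1 / (M : ℝ) ≤ 4 * (1 / (2 * M)) := by
    rw [← mul_div_assoc, div_le_div_iff₀ hM0 (by positivity)]; nlinarith
  rw [hM']
  by_cases hN : 0 < orderOf c ∧ orderOf c < M
  · have h1 : r * orderOf c < ℓ.len c := by
      rcases hc with hc | hc
      · exact absurd (orderOf_pos_iff.1 hN.1) hc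
      · refine lt_of_le_of_lt ?_ hc
        exact Nat.mul_le_mul (by omega) hN.2.le
    obtain ⟨d, h2, h3, h4⟩ := Char.exists_dvd ℓ c r hN.1 h1
    have d2 : (2 : ℝ) ≤ d := by exact_mod_cast h2
    have dM : (d : ℝ) ≤ M := by exact_mod_cast h3.trans hN.2.le
    have key : ∀ m : ℤ, ℓ.len (c ^ m) ≤ r → ee (1 / d * m) = 1 := by
      intro m hm
      obtain ⟨k, rfl⟩ := h4 m hm
      rw [← ee_int k]
      congr 1
      push_cast
      field_simp
    refine ⟨1 / d, fun m hm => key m (by rw [hm, ℓ.len_one]; exact Nat.zero_le _),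
      hδ.trans (Char.le_norm (by positivity) ?_ ?_), fun m hm => ?_⟩
    · exact one_div_le_one_div_of_le (by positivity) (by linarith)
    · have a1 : 1 / (d : ℝ) ≤ 1 / 2 := one_div_le_one_div_of_le (by norm_num) d2
      have a2 : 1 / (2 * M : ℝ) ≤ 1 / 2 := one_div_le_one_div_of_le (by norm_num) (by linarith)
      linarith
    · rw [key m (hF _ (by nlinarith [ϱ_nonneg (c ^ m)]))]
      norm_num
  obtain ⟨q, hq1, hq2, hq3⟩ : ∃ q : ℝ, 1 / (2 * M) ≤ q ∧ q ≤ 1 / M ∧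
      ∀ m : ℤ, c ^ m = 1 → ∃ k : ℤ, q * m = k := by
    rcases Nat.eq_zero_or_pos (orderOf c) with h0 | h0
    · refine ⟨1 / M, one_div_le_one_div_of_le hM0 (by linarith), le_rfl, fun m hm => ⟨0, ?_⟩⟩
      have := orderOf_dvd_iff_zpow_eq_one.2 hm
      rw [h0] at this
      simp [zero_dvd_iff.1 this]
    · have h1 : M ≤ orderOf c := not_lt.1 fun h => hN ⟨h0, h⟩
      have hN0 : (0 : ℝ) < orderOf c := by exact_mod_cast h0
      have hMp : 0 < M := Nat.succ_pos _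
      have a1 : orderOf c / M * M ≤ orderOf c := Nat.div_mul_le_self _ _
      have a2 : orderOf c ≤ orderOf c / M * (2 * M) := by
        have b1 := Nat.div_add_mod (orderOf c) M
        have b2 := Nat.mod_lt (orderOf c) hMp
        have b3 : 1 ≤ orderOf c / M := (Nat.one_le_div_iff hMp).2 h1
        nlinarith
      refine ⟨(orderOf c / M : ℕ) / orderOf c, ?_, ?_, fun m hm => ?_⟩
      · rw [div_le_div_iff₀ (by positivity) hN0, one_mul]; exact_mod_cast a2
      · rw [div_le_div_iff₀ hN0 hM0, one_mul]; exact_mod_cast a1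
      · obtain ⟨k, rfl⟩ := orderOf_dvd_iff_zpow_eq_one.2 hm
        refine ⟨(orderOf c / M : ℕ) * k, ?_⟩
        rw [Int.cast_mul, Int.cast_mul, Int.cast_natCast, Int.cast_natCast]
        field_simp
  obtain ⟨Λ, hΛ, hspan⟩ := Char.exists_span ℓ c ϱ h hh r b hb ϱ_one ϱ_mul hF
  obtain ⟨d, d0, dM, hd⟩ := Char.exists_approx Λ q (13 * b) M (by omega)
    (Nat.lt_succ_of_le (Nat.pow_le_pow_right (by omega) hΛ))
  have d1 : (1 : ℝ) ≤ d := by exact_mod_cast d0
  have d2 : (d : ℝ) + 1 ≤ M := by exact_mod_cast dM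
  have hq0 : 0 ≤ q := le_trans (by positivity) hq1
  have hchar : ∀ m : ℤ, c ^ m = 1 → ee (d * q * m) = 1 := by
    intro m hm
    obtain ⟨k, hk⟩ := hq3 m hm
    rw [mul_assoc, hk, ← ee_int (d * k)]
    congr 1; push_cast; ring
  refine ⟨d * q, hchar, hδ.trans (Char.le_norm (by positivity) (by nlinarith) ?_), fun m hm => ?_⟩
  · have a1 : (d : ℝ) * q ≤ (M - 1) * (1 / M) := by gcongr; linarith
    have a2 : ((M : ℝ) - 1) * (1 / M) = 1 - 1 / M := by field_simp
    have a3 : 1 / (2 * M : ℝ) ≤ 1 / M := one_div_le_one_div_of_le hM0 (by linarith)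
    linarith
  · obtain ⟨ε, hε, e⟩ := hspan m hm
    choose! k hk using hd
    have e1 := hchar (m - ∑ x ∈ Λ, ε x * x) (by rw [_root_.zpow_sub, e, mul_inv_cancel])
    have e2 : (d : ℝ) * q * m = d * q * ((m - ∑ x ∈ Λ, ε x * x : ℤ) : ℝ) +
        (((∑ x ∈ Λ, ε x * k x : ℤ) : ℝ) + ∑ x ∈ Λ, (ε x : ℝ) * (d * q * x - k x)) := by
      push_cast
      rw [← Finset.sum_add_distrib, mul_sub, Finset.mul_sum, sub_add, ← Finset.sum_sub_distrib,
        Finset.sum_eq_zero fun x _ => by ring, sub_zero]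
    rw [e2, ee_add, ee_add, e1, ee_int, one_mul, one_mul]
    refine (Char.norm_ee_sub_le _).trans ?_
    have a1 : |∑ x ∈ Λ, (ε x : ℝ) * (d * q * x - k x)| ≤ ∑ x ∈ Λ, 1 / ((13 * b : ℕ) : ℝ) := by
      refine (Finset.abs_sum_le_sum_abs _ _).trans (Finset.sum_le_sum fun x hx => ?_)
      have b1 : |(ε x : ℝ)| ≤ 1 := by exact_mod_cast hε x
      rw [abs_mul]
      exact (mul_le_of_le_one_left (abs_nonneg _) b1).trans (hk x hx)
    have a2 : (Λ.card : ℝ) ≤ b := by exact_mod_cast hΛ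
    have a3 : ∑ x ∈ Λ, 1 / ((13 * b : ℕ) : ℝ) ≤ 1 / 13 := by
      rw [Finset.sum_const, nsmul_eq_mul, mul_one_div, div_le_div_iff₀ (by positivity) (by norm_num)]
      push_cast; linarith
    have a4 := Real.pi_lt_d2
    have a5 := Real.pi_pos
    nlinarith [abs_nonneg (∑ x ∈ Λ, (ε x : ℝ) * (d * q * x - k x))]

end Crest.Agent.R192
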