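import Crest.Agent.R192.SimplexAux

/-! Row 192: the simplex, its faces and its cyclic symmetry. -/

set_option autoImplicit false

namespace Crest.Agent.R192

open Crest.AlgebraR.L1 MeasureTheory Matrix
open scoped ContDiff BoundedContinuousFunction

variable {d : ℕ}

theorem mem_simplex (y : V d) : y ∈ simplex d ↔ (∀ i, 0 ≤ y i ∧ y i ≤ 1) ∧ Monotone y := by
  constructor
  · intro h
    have hm := Sx.mono_of_mem h
    refine ⟨fun i => ⟨?_, ?_⟩, fun i j hij => ?_⟩
    · have := hm (Nat.zero_le (i + 1))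
      rwa [Sx.tl_zero, Sx.tl_succ] at this
    · have := hm (show (i : ℕ) + 1 ≤ d + 1 by omega)
      rwa [Sx.tl_succ, Sx.tl_big _ _ (Nat.lt_succ_self d)] at this
    · have := hm (show (i : ℕ) + 1 ≤ j + 1 from Nat.succ_le_succ hij)
      rwa [Sx.tl_succ, Sx.tl_succ] at this
  · rintro ⟨h1, h2⟩
    rw [Sx.mem_iff]
    intro k hk
    rcases k with _ | k
    · rw [Sx.tl_zero]
      by_cases hd : 0 < d
      · rw [Sx.tl_succ' _ _ hd]
        exact (h1 _).1
      · rw [Sx.tl_big _ _ (by omega)]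
        exact zero_le_one
    · rw [Sx.tl_succ' _ _ (show k < d by omega)]
      by_cases hd : k + 1 < d
      · rw [Sx.tl_succ' _ _ hd]
        exact h2 (Fin.mk_le_mk.2 (Nat.le_succ k))
      · rw [Sx.tl_big _ _ (by omega)]
        exact (h1 _).2

theorem isCompact_simplex (d : ℕ) : IsCompact (simplex d) := by
  refine (isCompact_Icc (a := (0 : V d)) (b := 1)).of_isClosed_subset ?_ fun y hy => ?_
  · have : simplex d = ⋂ k, ⋂ (_ : k ≤ d), {y : V d | Sx.tl 1 y k ≤ Sx.tl 1 y (k + 1)} := by
      ext y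
      simp [Sx.mem_iff]
    rw [this]
    exact isClosed_iInter fun k => isClosed_iInter fun _ =>
      isClosed_le (Sx.continuous_tl 1 k) (Sx.continuous_tl 1 (k + 1))
  · have := ((mem_simplex y).1 hy).1
    exact ⟨fun i => (this i).1, fun i => (this i).2⟩

theorem measurableSet_simplex (d : ℕ) : MeasurableSet (simplex d) := by
  exact (isCompact_simplex d).measurableSet

theorem volume_simplex_pos (d : ℕ) : 0 < (volume (simplex d)).toReal := by
  refine ENNReal.toReal_pos (ne_of_gt ?_) (isCompact_simplex d).measure_lt_top.ne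
  have hU : IsOpen (⋂ k ∈ Finset.range (d + 1), {y : V d | Sx.tl 1 y k < Sx.tl 1 y (k + 1)}) :=
    isOpen_biInter_finset fun k _ =>
      isOpen_lt (Sx.continuous_tl 1 k) (Sx.continuous_tl 1 (k + 1))
  refine (hU.measure_pos volume ⟨fun j => ((j : ℝ) + 1) / (d + 1), ?_⟩).trans_le
    (measure_mono fun y hy => ?_)
  · have key : ∀ k ≤ d + 1, Sx.tl 1 (fun j : Fin d => ((j : ℝ) + 1) / (d + 1)) k =
        (k : ℝ) / (d + 1) := by
      intro k hk
      rcases k with _ | k
      · simp
      by_cases h : k < d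
      · rw [Sx.tl_succ' _ _ h]
        simp
      · rw [Sx.tl_big _ _ (by omega), show k = d by omega]
        push_cast
        rw [div_self (by positivity)]
    simp only [Set.mem_iInter, Set.mem_ofPred_eq, Finset.mem_range]
    intro k hk
    rw [key k (by omega), key (k + 1) (by omega)]
    exact div_lt_div_of_pos_right (by simp) (by positivity)
  · simp only [Set.mem_iInter, Set.mem_ofPred_eq, Finset.mem_range] at hy
    exact (Sx.mem_iff y).2 fun k hk => (hy k (by omega)).le

theorem norm_gemb_le {y : V d} (hy : y ∈ simplex d) : ‖gemb d y‖ ≤ 1 := by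
  rw [gemb_apply, pi_norm_le_iff_of_nonneg zero_le_one]
  intro i
  refine Fin.cases ?_ (fun j => ?_) i
  · simp
  · have := ((mem_simplex y).1 hy).1 j
    rw [Fin.cons_succ, Real.norm_of_nonneg this.1]
    exact this.2

theorem fy_succ (i : Fin (d + 1)) (y : V d) :
    fy i.succ y = Fin.insertNth (α := fun _ => ℝ) i (ext (gemb d y) i.succ) y := by
  funext j
  rw [Sx.fy_apply, ← Sx.tl_succ 1 (Fin.insertNth (α := fun _ => ℝ) i _ y) j, Sx.tl_insertNth,
    Sx.ext_gemb, Fin.val_succ, Nat.add_sub_cancel]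
  split_ifs with h1 h2 h3 h4 h5 <;> first | rfl | omega | (congr 1 <;> omega)

theorem fy_castSucc (i : Fin (d + 1)) (y : V d) :
    fy i.castSucc y = Fin.insertNth (α := fun _ => ℝ) i (ext (gemb d y) i.castSucc) y := by
  funext j
  rw [Sx.fy_apply, ← Sx.tl_succ 1 (Fin.insertNth (α := fun _ => ℝ) i _ y) j, Sx.tl_insertNth,
    Sx.ext_gemb, Fin.val_castSucc, Nat.add_sub_cancel]
  split_ifs with h1 h2 h3 h4 h5 <;> first | rfl | omega | (congr 1 <;> omega)

theorem gemb_fy (p : Fin (d + 2)) (y : V d) : gemb (d + 1) (fy p y) = faceθ p (gemb d y) := by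
  have h0 : faceθ p (gemb d y) 0 = 0 := by
    rw [faceθ, Sx.ext_gemb, Sx.predAbove_val]
    simp
  rw [gemb_apply, fy]
  conv_lhs => rw [← h0]
  exact Fin.cons_self_tail _

theorem gemb_cy (y : V d) :
    gemb d (cy y) = fun i => rotθ (gemb d y) i - rotθ (gemb d y) 0 := by
  funext i
  rw [gemb_apply d (cy y)]
  refine Fin.cases ?_ (fun j => ?_) i
  · simp
  · rfl

/-- fundamental theorem of calculus along a coordinate of the simplex -/
theorem integral_simplex_fderiv (F : V (d + 1) → ℝ) (hF : ContDiff ℝ 1 F) (i : Fin (d + 1)) :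
    ∫ y in simplex (d + 1), fderiv ℝ F y (ev i) =
      (∫ y in simplex d, F (fy i.succ y)) - ∫ y in simplex d, F (fy i.castSucc y) := by
  have hcF : Continuous fun y => fderiv ℝ F y (ev i) :=
    (hF.continuous_fderiv (by simp)).clm_apply continuous_const
  have hint : Integrable ((simplex (d + 1)).indicator fun y => fderiv ℝ F y (ev i)) :=
    (integrable_indicator_iff (measurableSet_simplex _)).2
      (hcF.continuousOn.integrableOn_compact (isCompact_simplex _))
  have hmp := (volume_preserving_piFinSuccAbove (fun _ : Fin (d + 1) => ℝ) i).symm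
  have hins : ∀ (y : V d) (t : ℝ), Fin.insertNth (α := fun _ => ℝ) i t y =
      Fin.insertNth (α := fun _ => ℝ) i 0 y + t • ev i := by
    intro y t
    funext j
    refine Fin.succAboveCases i ?_ (fun j => ?_) j
    · simp
    · simp [Fin.succAbove_ne]
  have hder : ∀ (y : V d) (t : ℝ), HasDerivAt (fun t => F (Fin.insertNth (α := fun _ => ℝ) i t y))
      (fderiv ℝ F (Fin.insertNth (α := fun _ => ℝ) i t y) (ev i)) t := by
    intro y t
    have h1 : HasDerivAt (fun t => Fin.insertNth (α := fun _ => ℝ) i t y) (ev i) t := by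
      rw [funext (hins y)]
      simpa using ((hasDerivAt_id t).smul_const (ev i)).const_add
        (Fin.insertNth (α := fun _ => ℝ) i 0 y)
    exact (hF.differentiable (by simp) _).hasFDerivAt.comp_hasDerivAt t h1
  have hcy : ∀ p : Fin (d + 2), Continuous fun y : V d => F (fy p y) := fun p =>
    hF.continuous.comp (continuous_pi fun j => by
      simp only [Sx.fy_apply]
      exact Sx.continuous_tl _ _)
  rw [← integral_sub ((hcy _).continuousOn.integrableOn_compact (isCompact_simplex _))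
    ((hcy _).continuousOn.integrableOn_compact (isCompact_simplex _)),
    ← integral_indicator (measurableSet_simplex _), ← integral_indicator (measurableSet_simplex _),
    ← hmp.integral_comp' ((simplex (d + 1)).indicator fun y => fderiv ℝ F y (ev i))]
  have hint2 := (hmp.integrable_comp_emb (MeasurableEquiv.measurableEmbedding _)).2 hint
  refine (integral_prod_symm _ hint2).trans (integral_congr_ae (.of_forall fun y => ?_))
  have e : ∀ t : ℝ, (MeasurableEquiv.piFinSuccAbove (fun _ : Fin (d + 1) => ℝ) i).symm (t, y) =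
      Fin.insertNth (α := fun _ => ℝ) i t y := fun t => rfl
  simp only [Function.comp_apply, e]
  by_cases hy : y ∈ simplex d
  · have hle : Sx.tl 1 y i ≤ Sx.tl 1 y (i + 1) := (Sx.mem_iff y).1 hy i (by omega)
    have h2 := intervalIntegral.integral_eq_sub_of_hasDerivAt (a := Sx.tl 1 y i)
      (b := Sx.tl 1 y (i + 1)) (fun t _ => hder y t)
      (Continuous.intervalIntegrable (hcF.comp (by rw [funext (hins y)]; fun_prop)) _ _)
    rw [Set.indicator_of_mem hy, fy_succ, fy_castSucc, Sx.ext_gemb, Sx.ext_gemb, Fin.val_succ,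
      Fin.val_castSucc, ← h2, intervalIntegral.integral_of_le hle,
      ← integral_Icc_eq_integral_Ioc, ← integral_indicator measurableSet_Icc]
    refine integral_congr_ae (.of_forall fun t => ?_)
    by_cases ht : t ∈ Set.Icc (Sx.tl 1 y i) (Sx.tl 1 y (i + 1))
    · simp only [Set.indicator_of_mem ht]
      rw [Set.indicator_of_mem ((Sx.insertNth_mem i t y).2 ⟨hy, ht⟩)]
    · simp only [Set.indicator_of_notMem ht]
      rw [Set.indicator_of_notMem fun h => ht ((Sx.insertNth_mem i t y).1 h).2]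
  · rw [Set.indicator_of_notMem hy]
    refine (integral_congr_ae (.of_forall fun t => ?_)).trans (integral_zero _ _)
    exact Set.indicator_of_notMem (fun h => hy ((Sx.insertNth_mem i t y).1 h).1) _

/-- linear part of a face map -/
noncomputable def Lf (p : Fin (d + 2)) : Matrix (Fin (d + 1)) (Fin d) ℝ :=
  Matrix.of fun i j => fy p (ev j) i - fy p 0 i

/-- linear part of the rotation -/
noncomputable def Lc (d : ℕ) : Matrix (Fin d) (Fin d) ℝ :=
  Matrix.of fun i j => cy (ev j) i - cy 0 i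

theorem Sx.Lf_mulVec (p : Fin (d + 2)) (u : V d) (i : Fin (d + 1)) :
    (Lf p *ᵥ u) i = Sx.tl 0 u (if (p : ℕ) < i + 1 then i else i + 1) := by
  rw [← Sx.sum_tl_ev, mulVec, dotProduct]
  refine Finset.sum_congr rfl fun j _ => ?_
  rw [Lf, of_apply, Sx.fy_apply, Sx.fy_apply, Sx.tl_one_eq (ev j), add_sub_cancel_right]

theorem Sx.tl_Lf (p : Fin (d + 2)) (u : V d) (k : ℕ) :
    Sx.tl 0 (Lf p *ᵥ u) k = Sx.tl 0 u (if (p : ℕ) < k then k - 1 else k) := by
  have hp := p.2
  rcases k with _ | k
  · simp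
  by_cases hk : k < d + 1
  · rw [Sx.tl_succ' _ _ hk, Sx.Lf_mulVec, Nat.add_sub_cancel]
  · rw [Sx.tl_big _ _ (by omega), Sx.tl_big _ _ (by split_ifs <;> omega)]

theorem Sx.Lc_apply' (i j : Fin d) :
    Lc d i j = Sx.tl 0 (ev j) (i + 2) - Sx.tl 0 (ev j) 1 := by
  rw [Lc, of_apply, Sx.cy_apply, Sx.cy_apply, Sx.tl_one_eq (ev j), Sx.tl_one_eq (ev j) 1]
  ring

theorem Sx.Lc_apply (i j : Fin d) :
    Lc d i j = (if (i : ℕ) + 2 = j + 1 then 1 else 0) - if 1 = (j : ℕ) + 1 then 1 else 0 := by
  rw [Sx.Lc_apply', Sx.tl_ev, Sx.tl_ev]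

theorem Sx.Lc_mulVec (u : V d) (i : Fin d) :
    (Lc d *ᵥ u) i = Sx.tl 0 u (i + 2) - Sx.tl 0 u 1 := by
  rw [← Sx.sum_tl_ev u (i + 2), ← Sx.sum_tl_ev u 1, ← Finset.sum_sub_distrib, mulVec, dotProduct]
  refine Finset.sum_congr rfl fun j _ => ?_
  rw [Sx.Lc_apply', sub_mul]

theorem Sx.tl_Lc (u : V d) {k : ℕ} (hk : k ≤ d) :
    Sx.tl 0 (Lc d *ᵥ u) k = Sx.tl 0 u (k + 1) - Sx.tl 0 u 1 := by
  rcases k with _ | k
  · simp
  · rw [Sx.tl_succ' _ _ (show k < d by omega), Sx.Lc_mulVec]

theorem fy_eq (p : Fin (d + 2)) (u : V d) : fy p u = Lf p *ᵥ u + fy p 0 := by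
  funext i
  rw [Pi.add_apply, Sx.Lf_mulVec, Sx.fy_apply, Sx.fy_apply, Sx.tl_one_eq]

theorem cy_eq (u : V d) : cy u = Lc d *ᵥ u + cy 0 := by
  funext i
  rw [Pi.add_apply, Sx.Lc_mulVec, Sx.cy_apply, Sx.cy_apply, Sx.tl_one_eq u, Sx.tl_one_eq u 1]
  ring

theorem Lf_omega (p : Fin (d + 2)) : (Lf p)ᵀ * omega (d + 1) * Lf p = omega d := by
  ext a b
  rw [Sx.entry_eq, Sx.entry_eq' (omega d), Sx.omega_form, Sx.omega_form,
    ← Sx.sum_face (fun s t => Sx.tl 0 (ev a) s * Sx.tl 0 (ev b) t -
      Sx.tl 0 (ev a) t * Sx.tl 0 (ev b) s) (fun s => sub_self _) (show (p : ℕ) ≤ d + 1 by omega)]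
  simp only [Sx.tl_Lf, Nat.add_sub_cancel]

theorem Lc_omega (d : ℕ) : (Lc d)ᵀ * omega d * Lc d = omega d := by
  ext a b
  rw [Sx.entry_eq, Sx.entry_eq' (omega d), Sx.omega_form, Sx.omega_form, Finset.sum_range_succ,
    Finset.sum_range_succ', Sx.tl_big _ _ (Nat.lt_succ_self d), Sx.tl_big _ _ (Nat.lt_succ_self d),
    Finset.sum_congr rfl fun k hk => by
      have hk' := Finset.mem_range.1 hk
      rw [Sx.tl_Lc _ (show k + 1 ≤ d by omega), Sx.tl_Lc _ (show k + 1 ≤ d by omega),
        Sx.tl_Lc _ hk'.le, Sx.tl_Lc _ hk'.le],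
    Sx.sum_rot, Sx.tl_big _ _ (Nat.lt_succ_self d), Sx.tl_big _ _ (Nat.lt_succ_self d)]
  simp only [Sx.tl_zero]
  ring

theorem det_Lc (d : ℕ) : (Lc d).det = (-1) ^ d := by
  rcases d with _ | n
  · simp
  rw [Matrix.det_succ_row _ (Fin.last n), Finset.sum_eq_single 0]
  · have : (Lc (n + 1)).submatrix (Fin.last n).succAbove (0 : Fin (n + 1)).succAbove = 1 := by
      ext i j
      simp [Sx.Lc_apply, Matrix.one_apply, Fin.ext_iff]
    rw [this, det_one, Sx.Lc_apply, if_neg (by simp)]
    simp [pow_succ]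
  · intro j _ hj
    have h1 := j.2
    have h2 : (j : ℕ) ≠ 0 := fun h => hj (Fin.ext h)
    rw [Sx.Lc_apply, if_neg (by simp; omega), if_neg (by omega)]
    simp
  · simp

theorem integral_simplex_cy (f : V d → ℝ) (hf : Continuous f) :
    ∫ y in simplex d, f (cy y) = ∫ y in simplex d, f y := by
  have hdet : (Lc d).det ≠ 0 := by
    rw [det_Lc]
    exact pow_ne_zero _ (by norm_num)
  have h1 : MeasurePreserving (Matrix.toLin' (Lc d)) volume volume := by
    refine ⟨(LinearMap.continuous_of_finiteDimensional _).measurable, ?_⟩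
    rw [Real.map_matrix_volume_pi_eq_smul_volume_pi hdet, det_Lc]
    simp
  have e : (cy : V d → V d) = (fun y => y + cy 0) ∘ Matrix.toLin' (Lc d) := by
    funext y
    rw [cy_eq y]
    rfl
  have h2 : MeasurePreserving (cy : V d → V d) volume volume := by
    rw [e]
    exact (measurePreserving_add_right volume _).comp h1
  have h3 : MeasurableEmbedding (cy : V d → V d) := by
    refine Continuous.measurableEmbedding ?_ ?_
    · rw [e]
      exact (continuous_add_const _).comp (LinearMap.continuous_of_finiteDimensional _)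
    · rw [e]
      refine (add_left_injective _).comp ?_
      exact Matrix.mulVec_injective_iff_isUnit.2 ((Matrix.isUnit_iff_isUnit_det _).2 hdet.isUnit)
  rw [← h2.setIntegral_preimage_emb h3 f (simplex d)]
  congr 2
  ext y
  have key : ∀ k ≤ d, Sx.tl 1 (cy y) k = Sx.tl 1 y (k + 1) - Sx.tl 1 y 1 := by
    intro k hk
    rcases k with _ | k
    · simp
    · rw [Sx.tl_succ' _ _ (show k < d by omega), Sx.cy_apply]
  simp only [Set.mem_preimage, Sx.mem_iff]
  constructor
  · intro h k hk
    rw [key k hk]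
    rcases hk.lt_or_eq with hk | rfl
    · rw [key (k + 1) hk]
      linarith [h (k + 1) hk]
    · have := h 0 (Nat.zero_le _)
      rw [Sx.tl_zero, zero_add] at this
      rw [Sx.tl_big _ _ (Nat.lt_succ_self k), Sx.tl_big _ _ (Nat.lt_succ_self k)]
      linarith
  · intro h k hk
    rcases k with _ | k
    · have := h d le_rfl
      rw [key d le_rfl, Sx.tl_big _ _ (Nat.lt_succ_self d),
        Sx.tl_big _ _ (Nat.lt_succ_self d)] at this
      rw [Sx.tl_zero, zero_add]
      linarith
    · have := h k (by omega)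
      rw [key k (by omega), key (k + 1) hk] at this
      linarith

end Crest.Agent.R192
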