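import Crest.Agent.R192.TwoPt
import Crest.Agent.R192.Simplex

/-! Row 192: the normalised connection of a two-point function. -/

set_option autoImplicit false

namespace Crest.Agent.R192

open Crest.AlgebraR.L1 MeasureTheory Matrix
open scoped ContDiff BoundedContinuousFunction

variable {n : ℕ}

namespace ConnAux

theorem ext_eq (θ : V (n + 1)) (k : Fin (n + 2)) :
    ext θ k = θ ((Fin.snoc id 0 : Fin (n + 2) → Fin (n + 1)) k) + ext 0 k := by
  refine Fin.lastCases ?_ (fun i => ?_) k <;> simp [ext]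

theorem diff_snd {W : TwoPt n} (h : Smooth2 W) (θ : V (n + 1)) : Differentiable ℝ (W θ) :=
  (ContDiff.comp (f := fun θ' => (θ, θ')) h (contDiff_const.prodMk contDiff_id)).differentiable
    (by simp)

/-- chain rule for reparametrisations that read off coordinates of `ext` -/
theorem beta_comp {m : ℕ} {W : TwoPt m} {W' : TwoPt n} (h : Smooth2 W)
    (τ : Fin (m + 1) → Fin (n + 2))
    (hW : ∀ θ θ', W (fun i => ext θ (τ i)) (fun i => ext θ' (τ i)) = W' θ θ') (θ u : V (n + 1)) :
    beta W' θ u = beta W (fun i => ext θ (τ i))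
      ((fun i => ext u (τ i)) - fun i => ext (0 : V (n + 1)) (τ i)) := by
  set L : V (n + 1) →L[ℝ] V (m + 1) := ContinuousLinearMap.pi fun i =>
    ContinuousLinearMap.proj ((Fin.snoc id 0 : Fin (n + 2) → Fin (n + 1)) (τ i)) with hL
  have hA : ∀ θ' : V (n + 1), (fun i => ext θ' (τ i))
      = L θ' + fun i => ext (0 : V (n + 1)) (τ i) := by
    intro θ'
    funext i
    rw [ext_eq]
    rfl
  have h1 : HasFDerivAt (fun θ' : V (n + 1) => fun i => ext θ' (τ i)) L θ := by
    rw [funext hA]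
    exact L.hasFDerivAt.add_const _
  have h2 := (diff_snd h (fun i => ext θ (τ i)) (fun i => ext θ (τ i))).hasFDerivAt.comp θ h1
  have h3 : W' θ = W (fun i => ext θ (τ i)) ∘ fun θ' : V (n + 1) => fun i => ext θ' (τ i) := by
    funext θ'
    exact (hW θ θ').symm
  rw [beta, h3, h2.fderiv, hA u, add_sub_cancel_right]
  rfl

theorem UU_comp {m : ℕ} {W : TwoPt m} {W' : TwoPt n} (h : Smooth2 W)
    (τ : Fin (m + 1) → Fin (n + 2))
    (hW : ∀ θ θ', W (fun i => ext θ (τ i)) (fun i => ext θ' (τ i)) = W' θ θ') (θ : V (n + 1)) :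
    UU W' θ = UU W fun i => ext θ (τ i) := by
  rw [UU, beta_comp h τ hW, UU]
  congr 1
  funext i
  rw [Pi.sub_apply, ext_eq]
  simp

theorem beta_shift {W : TwoPt n} (hr : RotInv W) (θ : V (n + 1)) (t : ℝ) :
    beta W (fun i => θ i - t) = beta W θ := by
  have h1 : W (fun i => θ i - t) = fun θ' => W θ (θ' + fun _ => t) := by
    funext θ'
    rw [← hr _ _ t]
    simp only [sub_add_cancel]
    rfl
  rw [beta, h1, fderiv_comp_add_right, beta]
  congr 1
  funext i
  simp

theorem bg_eq (W : TwoPt n) (y u : V n) : bg W y u = rinv (UU W (gemb n y)) *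
    (beta W (gemb n y) (gemb n u) - UU W (gemb n y) * beta (stdW n) (gemb n y) (gemb n u)) := rfl

theorem gemb_ev (i : Fin n) : gemb n (ev i) = ev i.succ := by
  rw [gemb_apply]
  funext k
  refine Fin.cases ?_ (fun l => ?_) k
  · simp
  · simp [Pi.single_apply]

theorem beta_congr {W W' : TwoPt n} (hW : ∀ θ θ', ‖θ‖ < 2 → ‖θ'‖ < 2 → W θ θ' = W' θ θ')
    {θ : V (n + 1)} (hθ : ‖θ‖ < 2) : beta W θ = beta W' θ := by
  refine Filter.EventuallyEq.fderiv_eq ?_
  filter_upwards [(isOpen_lt continuous_norm continuous_const).mem_nhds hθ] with θ' hθ'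
  exact hW θ θ' hθ hθ'

end ConnAux

open ConnAux

theorem rinv_smooth : ContDiff ℝ ∞ rinv := by
  have h1 : ContDiff ℝ ∞ fun x : ℝ => Real.smoothTransition (4 * x - 1) :=
    Real.smoothTransition.contDiff.comp ((contDiff_const.mul contDiff_id).sub contDiff_const)
  refine ((contDiff_id.mul h1).add (contDiff_const.sub h1)).inv fun x => ne_of_gt ?_
  simp only [id]
  rcases le_or_gt x (1 / 4) with hx | hx
  · rw [Real.smoothTransition.zero_of_nonpos (by linarith)]
    norm_num
  · have h2 := Real.smoothTransition.nonneg (4 * x - 1)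
    have h3 := Real.smoothTransition.le_one (4 * x - 1)
    nlinarith

theorem rinv_eq {x : ℝ} (hx : 1 / 2 ≤ x) : rinv x = x⁻¹ := by
  rw [rinv, Real.smoothTransition.one_of_one_le (by linarith)]
  simp

theorem bg_smooth {W : TwoPt n} (h : Smooth2 W) : ContDiff ℝ ∞ (bg W) := by
  have hg : ContDiff ℝ ∞ (gemb n) := (gemb n).contDiff
  have hU := h.contDiff_UU.comp hg
  exact ((rinv_smooth.comp hU).smul ((h.contDiff_beta.comp hg).sub
    (hU.smul ((stdW_smooth n).contDiff_beta.comp hg)))).clm_comp contDiff_const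

theorem bg_face {W : TwoPt (n + 1)} {W' : TwoPt n} (h : Smooth2 W) (p : Fin (n + 2))
    (hW : ∀ θ θ', W (faceθ p θ) (faceθ p θ') = W' θ θ') (y u : V n) :
    bg W' y u = bg W (fy p y) (fy p u - fy p 0) := by
  rw [bg_eq, bg_eq, map_sub, gemb_fy, gemb_fy, gemb_fy, map_zero,
    UU_comp h (fun i => p.predAbove i.castSucc) hW, beta_comp h (fun i => p.predAbove i.castSucc) hW,
    beta_comp (stdW_smooth (n + 1)) (fun i => p.predAbove i.castSucc) (stdW_face p)]
  rfl

theorem bg_cyc {W W' : TwoPt n} (h : Smooth2 W) (hr : RotInv W)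
    (hW : ∀ θ θ', W (rotθ θ) (rotθ θ') = W' θ θ') (y u : V n) :
    bg W' y u = bg W (cy y) (cy u - cy 0) := by
  have e : gemb n (cy u - cy 0) = (rotθ (gemb n u) - rotθ 0) -
      (rotθ (gemb n u) 0 - rotθ (0 : V (n + 1)) 0) • (1 : V (n + 1)) := by
    rw [map_sub, gemb_cy, gemb_cy, map_zero]
    funext i
    simp only [Pi.sub_apply, Pi.smul_apply, Pi.one_apply, smul_eq_mul]
    ring
  have hU : UU W (gemb n (cy y)) = UU W (rotθ (gemb n y)) := by
    rw [gemb_cy, UU, beta_shift hr, UU]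
  rw [bg_eq, bg_eq, e, hU, gemb_cy, beta_shift hr, beta_shift (stdW_rotInv n),
    UU_comp h Fin.succ hW, beta_comp h Fin.succ hW,
    beta_comp (stdW_smooth n) Fin.succ stdW_cyc, map_sub _ _ (_ • _), map_sub _ _ (_ • _), map_smul,
    map_smul]
  have h1 := UU_stdW (rotθ (gemb n y))
  rw [UU] at h1
  rw [h1]
  change rinv (UU W (rotθ (gemb n y))) * (beta W (rotθ (gemb n y)) (rotθ (gemb n u) - rotθ 0) -
    UU W (rotθ (gemb n y)) * beta (stdW n) (rotθ (gemb n y)) (rotθ (gemb n u) - rotθ 0)) =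
    rinv (UU W (rotθ (gemb n y))) * (beta W (rotθ (gemb n y)) (rotθ (gemb n u) - rotθ 0) -
      _ • UU W (rotθ (gemb n y)) - _)
  simp only [smul_eq_mul]
  ring

theorem bg_congr {W W' : TwoPt n} (hW : ∀ θ θ', ‖θ‖ < 2 → ‖θ'‖ < 2 → W θ θ' = W' θ θ')
    {y : V n} (hy : y ∈ simplex n) : bg W y = bg W' y ∧ curv (bg W) y = curv (bg W') y := by
  have h1 : bg W =ᶠ[nhds y] bg W' := by
    have hy2 : ‖gemb n y‖ < 2 := by linarith [norm_gemb_le hy]
    filter_upwards [(isOpen_lt (gemb n).continuous.norm continuous_const).mem_nhds hy2] with y' hy'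
    simp only [bg, UU, beta_congr hW hy']
  exact ⟨h1.eq_of_nhds, by simp only [curv, h1.fderiv_eq]⟩

theorem bg_apply {W : TwoPt n} {y : V n} (hU : 1 / 2 ≤ UU W (gemb n y)) (i : Fin n) :
    bg W y (ev i) = (UU W (gemb n y))⁻¹ * beta W (gemb n y) (ev i.succ) -
      beta (stdW n) (gemb n y) (ev i.succ) := by
  have : UU W (gemb n y) ≠ 0 := by linarith
  rw [bg_eq, rinv_eq hU, gemb_ev]
  field_simp

theorem curv_bg {W : TwoPt n} (h : Smooth2 W) {y : V n} (hU : 1 / 2 < UU W (gemb n y)) :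
    omega n + curv (bg W) y = (UU W (gemb n y))⁻¹ • Mb W (gemb n y) -
      (vecMulVec (fun i : Fin n => fderiv ℝ (UU W) (gemb n y) (ev i.succ) / UU W (gemb n y))
          (fun i : Fin n => beta W (gemb n y) (ev i.succ) / UU W (gemb n y)) -
        vecMulVec (fun i : Fin n => beta W (gemb n y) (ev i.succ) / UU W (gemb n y))
          (fun i : Fin n => fderiv ℝ (UU W) (gemb n y) (ev i.succ) / UU W (gemb n y))) := by
  have hne : UU W (gemb n y) ≠ 0 := by linarith
  have h1 : bg W =ᶠ[nhds y] fun y' =>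
      ((UU W (gemb n y'))⁻¹ • beta W (gemb n y') - beta (stdW n) (gemb n y')).comp (gemb n) := by
    filter_upwards [(isOpen_lt continuous_const
      (h.contDiff_UU.continuous.comp (gemb n).continuous)).mem_nhds hU] with y' hy'
    have hy : 1 / 2 < UU W (gemb n y') := hy'
    have : UU W (gemb n y') ≠ 0 := by linarith
    rw [bg, rinv_eq hy.le, smul_sub, smul_smul, inv_mul_cancel₀ this, one_smul]
  have dU := (h.contDiff_UU.differentiable (by simp) (gemb n y)).hasFDerivAt
  have dB := (h.contDiff_beta.differentiable (by simp) (gemb n y)).hasFDerivAt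
  have dS := ((stdW_smooth n).contDiff_beta.differentiable (by simp) (gemb n y)).hasFDerivAt
  have d1 := (((hasDerivAt_inv hne).comp_hasFDerivAt (gemb n y) dU).smul dB).sub dS
  have d2 := ((ContinuousLinearMap.compL ℝ (V n) (V (n + 1)) ℝ).flip (gemb n)).hasFDerivAt.comp y
    (d1.comp y (gemb n).hasFDerivAt)
  have d3 := (d2.congr_of_eventuallyEq h1).fderiv
  ext i j
  have a1 := fderiv_beta_antisymm h (gemb n y) (ev i.succ) (ev j.succ)
  have a2 := fderiv_beta_antisymm (stdW_smooth n) (gemb n y) (ev i.succ) (ev j.succ)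
  have a3 := congrFun (congrFun (Mb_stdW (gemb n y)) i) j
  simp only [Mb, Matrix.of_apply] at a3
  simp only [curv, d3, Matrix.add_apply, Matrix.sub_apply, Matrix.smul_apply, Matrix.of_apply, Mb,
    vecMulVec_apply, ContinuousLinearMap.comp_apply, ContinuousLinearMap.flip_apply,
    ContinuousLinearMap.compL_apply, gemb_ev, _root_.sub_apply, _root_.add_apply,
    _root_.smul_apply,
    ContinuousLinearMap.smulRight_apply, smul_eq_mul, Function.comp_apply]
  rw [← a1, ← a3, ← a2]
  field_simp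
  ring

end Crest.Agent.R192
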