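import Crest.Agent.R192.Cost

/-! Row 192: cost of the antiderivative form on quasi-periodic functions with few active blocks. -/

set_option autoImplicit false

namespace Crest.Agent.R192

open Crest.AlgebraR.L1 MeasureTheory Matrix
open scoped ContDiff BoundedContinuousFunction

namespace CostY

section alg

variable {ι : Type} [Fintype ι]

/-- real linear combination of complex numbers -/
noncomputable def cz (u : ι → ℝ) (z : ι → ℂ) : ℂ := ∑ i, (u i : ℂ) * z i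

theorem cz_re (u : ι → ℝ) (z : ι → ℂ) : (cz u z).re = (fun i => (z i).re) ⬝ᵥ u := by
  simp [cz, dotProduct, mul_comm]

theorem cz_im (u : ι → ℝ) (z : ι → ℂ) : (cz u z).im = (fun i => (z i).im) ⬝ᵥ u := by
  simp [cz, dotProduct, mul_comm]

theorem form_vecMulVec (x u : ι → ℝ) : u ⬝ᵥ vecMulVec x x *ᵥ u = (x ⬝ᵥ u) ^ 2 := by
  rw [vecMulVec_mulVec, op_smul_eq_smul, dotProduct_smul, smul_eq_mul, dotProduct_comm u x, sq]

theorem psd_vecMulVec (x : ι → ℝ) : (vecMulVec x x).PosSemidef := by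
  simpa using posSemidef_vecMulVec_self_star x

theorem form_nonneg {Γ : Matrix ι ι ℝ} (h : Γ.PosSemidef) (u : ι → ℝ) : 0 ≤ u ⬝ᵥ Γ *ᵥ u := by
  simpa using h.dotProduct_mulVec_nonneg u

variable [DecidableEq ι]

theorem add_real {Γ : Matrix ι ι ℝ} (hΓ : Γ.PosSemidef) (x : ι → ℝ) {w : ℝ} (hw : 0 ≤ w)
    (h : ∀ u, (x ⬝ᵥ u) ^ 2 ≤ u ⬝ᵥ Γ *ᵥ u) :
    ∃ Γ' : Matrix ι ι ℝ, Γ'.PosSemidef ∧ RelDet Γ' Γ (1 + w) ∧
      ∀ u, u ⬝ᵥ Γ' *ᵥ u = u ⬝ᵥ Γ *ᵥ u + w * (x ⬝ᵥ u) ^ 2 := by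
  have e : ∀ u : ι → ℝ, ((Real.sqrt w • x) ⬝ᵥ u) ^ 2 = w * (x ⬝ᵥ u) ^ 2 := by
    intro u
    rw [smul_dotProduct, smul_eq_mul, mul_pow, Real.sq_sqrt hw]
  refine ⟨Γ + vecMulVec (Real.sqrt w • x) (Real.sqrt w • x), hΓ.add (psd_vecMulVec _),
    RelDet.rank_one hΓ _ hw fun u => ?_, fun u => ?_⟩
  · rw [e]
    exact mul_le_mul_of_nonneg_left (h u) hw
  · rw [add_mulVec, dotProduct_add, form_vecMulVec, e]

theorem add_complex {Γ : Matrix ι ι ℝ} (hΓ : Γ.PosSemidef) (z : ι → ℂ) {w : ℝ} (hw : 0 ≤ w)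
    (h : ∀ u, ‖cz u z‖ ^ 2 ≤ u ⬝ᵥ Γ *ᵥ u) :
    ∃ Γ' : Matrix ι ι ℝ, Γ'.PosSemidef ∧ RelDet Γ' Γ ((1 + w) ^ 2) ∧
      ∀ u, u ⬝ᵥ Γ' *ᵥ u = u ⬝ᵥ Γ *ᵥ u + w * ‖cz u z‖ ^ 2 := by
  have e : ∀ u, ‖cz u z‖ ^ 2
      = ((fun i => (z i).re) ⬝ᵥ u) ^ 2 + ((fun i => (z i).im) ⬝ᵥ u) ^ 2 := by
    intro u
    rw [Complex.sq_norm, Complex.normSq_apply, cz_re, cz_im]
    ring
  obtain ⟨Γ1, h1, r1, f1⟩ := add_real hΓ (fun i => (z i).re) hw fun u => by
    have := h u
    rw [e] at this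
    nlinarith [sq_nonneg ((fun i => (z i).im) ⬝ᵥ u)]
  obtain ⟨Γ2, h2, r2, f2⟩ := add_real h1 (fun i => (z i).im) hw fun u => by
    have := h u
    rw [e] at this
    rw [f1]
    have h3 := mul_nonneg hw (sq_nonneg ((fun i => (z i).re) ⬝ᵥ u))
    nlinarith [sq_nonneg ((fun i => (z i).re) ⬝ᵥ u)]
  refine ⟨Γ2, h2, ?_, fun u => ?_⟩
  · rw [sq]
    exact r2.trans r1 (by linarith)
  · rw [f2, f1, e]
    ring

theorem last_le (Z : ℕ → ℂ) (T : Finset ℕ) (h0 : Z 0 = 0) (n : ℕ)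
    (hT : ∀ k < n, k ∉ T → Z (k + 1) = Z k) :
    ‖Z n‖ ^ 2 ≤ ∑ k ∈ (Finset.range n).filter (· ∈ T), ‖Z (k + 1)‖ ^ 2 := by
  induction n with
  | zero => simp [h0]
  | succ n ih =>
    have ih' := ih fun k hk => hT k (by omega)
    rw [Finset.range_add_one, Finset.filter_insert]
    split_ifs with hn
    · rw [Finset.sum_insert (by simp)]
      have : 0 ≤ ∑ k ∈ (Finset.range n).filter (· ∈ T), ‖Z (k + 1)‖ ^ 2 :=
        Finset.sum_nonneg fun _ _ => sq_nonneg _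
      linarith
    · rw [hT n (by omega) hn]
      exact ih'

theorem add_label {Γ : Matrix ι ι ℝ} (hΓ : Γ.PosSemidef) (z : ℕ → ι → ℂ) (T : Finset ℕ) {w : ℝ}
    (hw : 2 ≤ w) (h0 : ∀ u, cz u (z 0) = 0) (n : ℕ)
    (hT : ∀ k < n, k ∉ T → ∀ u, cz u (z (k + 1)) = cz u (z k))
    (hT' : ∀ k < n, ∀ u, 2 * ‖cz u (z (k + 1)) - cz u (z k)‖ ^ 2 ≤ u ⬝ᵥ Γ *ᵥ u) :
    ∃ Γ' : Matrix ι ι ℝ, Γ'.PosSemidef ∧
      RelDet Γ' Γ ((1 + w) ^ (2 * ((Finset.range n).filter (· ∈ T)).card)) ∧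
      ∀ u, u ⬝ᵥ Γ' *ᵥ u = u ⬝ᵥ Γ *ᵥ u +
        w * ∑ k ∈ (Finset.range n).filter (· ∈ T), ‖cz u (z (k + 1))‖ ^ 2 := by
  induction n with
  | zero => exact ⟨Γ, hΓ, by simpa using RelDet.refl Γ, by simp⟩
  | succ n ih =>
    obtain ⟨Γ1, h1, r1, f1⟩ := ih (fun k hk => hT k (by omega)) (fun k hk => hT' k (by omega))
    rw [Finset.range_add_one, Finset.filter_insert]
    split_ifs with hn
    · obtain ⟨Γ2, h2, r2, f2⟩ := add_complex h1 (z (n + 1)) (by linarith : 0 ≤ w) fun u => by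
        have a1 := last_le (fun k => cz u (z k)) T (h0 u) n fun k hk hk' => hT k (by omega) hk' u
        have a2 := hT' n (by omega) u
        have a3 : ‖cz u (z (n + 1))‖ ≤ ‖cz u (z n)‖ + ‖cz u (z (n + 1)) - cz u (z n)‖ := by
          have := norm_add_le (cz u (z n)) (cz u (z (n + 1)) - cz u (z n))
          rwa [add_sub_cancel] at this
        have a4 := pow_le_pow_left₀ (norm_nonneg _) a3 2
        have a5 : 0 ≤ ∑ k ∈ (Finset.range n).filter (· ∈ T), ‖cz u (z (k + 1))‖ ^ 2 :=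
          Finset.sum_nonneg fun _ _ => sq_nonneg _
        rw [f1]
        nlinarith [sq_nonneg (‖cz u (z n)‖ - ‖cz u (z (n + 1)) - cz u (z n)‖)]
      refine ⟨Γ2, h2, ?_, fun u => ?_⟩
      · rw [Finset.card_insert_of_notMem (by simp), mul_add, mul_one, pow_add, mul_comm]
        exact r2.trans r1 (by positivity)
      · rw [Finset.sum_insert (by simp), f2, f1]
        ring
    · exact ⟨Γ1, h1, r1, f1⟩

theorem add_labels {L : Type} (s : Finset L) {Γ : Matrix ι ι ℝ} (hΓ : Γ.PosSemidef)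
    (z : L → ℕ → ι → ℂ) (T : L → Finset ℕ) {w : ℝ}
    (hw : 2 ≤ w) (h0 : ∀ l ∈ s, ∀ u, cz u (z l 0) = 0) (n : ℕ)
    (hT : ∀ l ∈ s, ∀ k < n, k ∉ T l → ∀ u, cz u (z l (k + 1)) = cz u (z l k))
    (hT' : ∀ l ∈ s, ∀ k < n, ∀ u, 2 * ‖cz u (z l (k + 1)) - cz u (z l k)‖ ^ 2 ≤ u ⬝ᵥ Γ *ᵥ u) :
    ∃ Γ' : Matrix ι ι ℝ, Γ'.PosSemidef ∧
      RelDet Γ' Γ ((1 + w) ^ (2 * ∑ l ∈ s, ((Finset.range n).filter (· ∈ T l)).card)) ∧
      ∀ u, u ⬝ᵥ Γ' *ᵥ u = u ⬝ᵥ Γ *ᵥ u +
        w * ∑ l ∈ s, ∑ k ∈ (Finset.range n).filter (· ∈ T l), ‖cz u (z l (k + 1))‖ ^ 2 := by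
  classical
  induction s using Finset.induction_on with
  | empty => exact ⟨Γ, hΓ, by simpa using RelDet.refl Γ, by simp⟩
  | insert a s ha ih =>
    obtain ⟨Γ1, h1, r1, f1⟩ := ih (fun l hl => h0 l (Finset.mem_insert_of_mem hl))
      (fun l hl => hT l (Finset.mem_insert_of_mem hl))
      (fun l hl => hT' l (Finset.mem_insert_of_mem hl))
    have ham := Finset.mem_insert_self a s
    obtain ⟨Γ2, h2, r2, f2⟩ := add_label h1 (z a) (T a) hw (h0 a ham) n (hT a ham)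
      fun k hk u => by
        have a1 := hT' a ham k hk u
        have a5 : 0 ≤ ∑ l ∈ s, ∑ k ∈ (Finset.range n).filter (· ∈ T l),
            ‖cz u (z l (k + 1))‖ ^ 2 :=
          Finset.sum_nonneg fun _ _ => Finset.sum_nonneg fun _ _ => sq_nonneg _
        rw [f1]
        nlinarith
    refine ⟨Γ2, h2, ?_, fun u => ?_⟩
    · rw [Finset.sum_insert ha, mul_add, pow_add]
      exact r2.trans r1 (by positivity)
    · rw [Finset.sum_insert ha, f2, f1]
      ring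

end alg

section ana

/-- the primitive -/
noncomputable def P (f : ℝ → ℂ) (x : ℝ) : ℂ := ∫ t in (0 : ℝ)..x, f t

/-- the real inner product on `[α, β]` -/
noncomputable def G (α β : ℝ) (f g : ℝ → ℂ) : ℝ :=
  ∫ φ in α..β, ((starRingEnd ℂ) (f φ) * g φ).re

/-- the squared norm on `[α, β]` -/
noncomputable def n2 (α β : ℝ) (f : ℝ → ℂ) : ℝ := ∫ φ in α..β, ‖f φ‖ ^ 2

theorem continuous_P {f : ℝ → ℂ} (hf : Continuous f) : Continuous (P f) :=
  intervalIntegral.continuous_primitive (fun a b => hf.intervalIntegrable a b) 0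

theorem P_sub {f : ℝ → ℂ} (hf : Continuous f) (x y : ℝ) : P f y - P f x = ∫ t in x..y, f t :=
  intervalIntegral.integral_interval_sub_left (hf.intervalIntegrable _ _)
    (hf.intervalIntegrable _ _)

theorem G_self (α β : ℝ) (f : ℝ → ℂ) : G α β f f = n2 α β f := by
  unfold G n2
  congr 1
  funext φ
  rw [Complex.conj_mul', ← Complex.ofReal_pow, Complex.ofReal_re]

theorem n2_nonneg {α β : ℝ} (h : α ≤ β) (f : ℝ → ℂ) : 0 ≤ n2 α β f :=
  intervalIntegral.integral_nonneg h fun _ _ => sq_nonneg _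

theorem cs {α β : ℝ} (h : α < β) {f : ℝ → ℂ} (hf : Continuous f) :
    (∫ t in α..β, ‖f t‖) ^ 2 ≤ (β - α) * n2 α β f := by
  set I := ∫ t in α..β, ‖f t‖ with hI
  have hd : 0 < β - α := by linarith
  set m := I / (β - α) with hm
  have h1 : 0 ≤ ∫ t in α..β, (‖f t‖ - m) ^ 2 :=
    intervalIntegral.integral_nonneg h.le fun _ _ => sq_nonneg _
  have e : ∀ t, (‖f t‖ - m) ^ 2 = ‖f t‖ ^ 2 - 2 * m * ‖f t‖ + m ^ 2 := fun t => by ring
  simp only [e] at h1
  have c1 : Continuous fun t => ‖f t‖ ^ 2 := by fun_prop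
  have c2 : Continuous fun t => 2 * m * ‖f t‖ := by fun_prop
  have c3 : Continuous fun t => ‖f t‖ ^ 2 - 2 * m * ‖f t‖ := c1.sub c2
  rw [intervalIntegral.integral_add (c3.intervalIntegrable _ _)
    (continuous_const.intervalIntegrable _ _),
    intervalIntegral.integral_sub (c1.intervalIntegrable _ _) (c2.intervalIntegrable _ _),
    intervalIntegral.integral_const_mul, intervalIntegral.integral_const, smul_eq_mul, ← hI] at h1
  have h2 : I = m * (β - α) := by rw [hm]; field_simp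
  unfold n2
  rw [h2] at h1 ⊢
  nlinarith

theorem norm_int_sq_le {α β x y : ℝ} (h : α < β) (hx : α ≤ x) (hxy : x ≤ y) (hy : y ≤ β)
    {f : ℝ → ℂ} (hf : Continuous f) : ‖P f y - P f x‖ ^ 2 ≤ (β - α) * n2 α β f := by
  rw [P_sub hf]
  refine le_trans (pow_le_pow_left₀ (norm_nonneg _) ?_ 2) (cs h hf)
  refine (intervalIntegral.norm_integral_le_integral_norm hxy).trans ?_
  exact intervalIntegral.integral_mono_interval hx hxy hy
    (Filter.Eventually.of_forall fun _ => norm_nonneg _) (hf.norm.intervalIntegrable _ _)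

theorem block {α β : ℝ} (h : α < β) {f g : ℝ → ℂ} (hf : Continuous f) (hg : Continuous g) :
    2 * |G α β f (P g)| ≤ (β - α) * n2 α β f + 2 * ‖P g β‖ ^ 2 + 2 * ((β - α) * n2 α β g) := by
  have hd : 0 < β - α := by linarith
  set K := 2 * ‖P g β‖ ^ 2 + 2 * ((β - α) * n2 α β g) with hK
  have hP := continuous_P hg
  have c0 : Continuous fun φ => ((starRingEnd ℂ) (f φ) * P g φ).re := by fun_prop
  have c1 : Continuous fun φ => (β - α) / 2 * ‖f φ‖ ^ 2 := by fun_prop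
  have h1 : |G α β f (P g)| ≤ ∫ φ in α..β, ((β - α) / 2 * ‖f φ‖ ^ 2 + K / (2 * (β - α))) := by
    unfold G
    refine (intervalIntegral.abs_integral_le_integral_abs h.le).trans ?_
    refine intervalIntegral.integral_mono_on h.le (c0.abs.intervalIntegrable _ _)
      ((c1.add continuous_const).intervalIntegrable _ _) fun φ hφ => ?_
    have a1 := norm_int_sq_le h hφ.1 hφ.2 le_rfl hg
    have a2 : ‖P g φ‖ ≤ ‖P g β‖ + ‖P g β - P g φ‖ := by
      have := norm_sub_le (P g β) (P g β - P g φ)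
      rwa [sub_sub_cancel] at this
    have a3 := pow_le_pow_left₀ (norm_nonneg _) a2 2
    have a4 : ‖P g φ‖ ^ 2 ≤ K := by
      rw [hK]
      nlinarith [sq_nonneg (‖P g β‖ - ‖P g β - P g φ‖)]
    have a5 : |((starRingEnd ℂ) (f φ) * P g φ).re| ≤ ‖f φ‖ * ‖P g φ‖ := by
      refine (Complex.abs_re_le_norm _).trans (le_of_eq ?_)
      rw [norm_mul, Complex.norm_conj]
    refine a5.trans ?_
    have a6 : ‖P g φ‖ ^ 2 / (2 * (β - α)) ≤ K / (2 * (β - α)) :=
      div_le_div_of_nonneg_right a4 (by linarith)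
    have a7 : ‖f φ‖ * ‖P g φ‖ ≤ (β - α) / 2 * ‖f φ‖ ^ 2 + ‖P g φ‖ ^ 2 / (2 * (β - α)) := by
      have : (β - α) / 2 * ‖f φ‖ ^ 2 + ‖P g φ‖ ^ 2 / (2 * (β - α)) - ‖f φ‖ * ‖P g φ‖
          = ((β - α) * ‖f φ‖ - ‖P g φ‖) ^ 2 / (2 * (β - α)) := by
        field_simp
        ring
      have h2 : 0 ≤ ((β - α) * ‖f φ‖ - ‖P g φ‖) ^ 2 / (2 * (β - α)) := by positivity
      linarith
    linarith
  rw [intervalIntegral.integral_add (c1.intervalIntegrable _ _)
    (continuous_const.intervalIntegrable _ _), intervalIntegral.integral_const_mul,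
    intervalIntegral.integral_const, smul_eq_mul] at h1
  have e : (β - α) * (K / (2 * (β - α))) = K / 2 := by field_simp
  rw [e] at h1
  unfold n2 at hK ⊢
  linarith

theorem sum_blocks {B : ℕ} (hB : 0 < B) {F : ℝ → ℝ} (hF : Continuous F) :
    ∑ k ∈ Finset.range B, ∫ φ in ((k : ℝ) / B)..(((k + 1 : ℕ) : ℝ) / B), F φ
      = ∫ φ in (0 : ℝ)..1, F φ := by
  have hB' : (B : ℝ) ≠ 0 := by positivity
  have := intervalIntegral.sum_integral_adjacent_intervals (f := F) (μ := volume)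
    (a := fun k : ℕ => (k : ℝ) / B) (n := B) fun k _ => hF.intervalIntegrable _ _
  simpa [hB'] using this

theorem label {B : ℕ} (hB : 0 < B) {f g : ℝ → ℂ} (hf : Continuous f) (hg : Continuous g)
    (T : Finset ℕ)
    (hT : ∀ k < B, k ∉ T → ∀ φ ∈ Set.Icc ((k : ℝ) / B) (((k + 1 : ℕ) : ℝ) / B), f φ = 0) :
    2 * |G 0 1 f (P g)| ≤ 1 / B * n2 0 1 f + 2 / B * n2 0 1 g +
      2 * ∑ k ∈ (Finset.range B).filter (· ∈ T), ‖P g (((k + 1 : ℕ) : ℝ) / B)‖ ^ 2 := by
  have hB' : (0 : ℝ) < B := by positivity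
  have hP := continuous_P hg
  have c0 : Continuous fun φ => ((starRingEnd ℂ) (f φ) * P g φ).re := by fun_prop
  have c1 : Continuous fun φ => ‖f φ‖ ^ 2 := by fun_prop
  have c2 : Continuous fun φ => ‖g φ‖ ^ 2 := by fun_prop
  have e0 : G 0 1 f (P g) = ∑ k ∈ Finset.range B, G ((k : ℝ) / B) (((k + 1 : ℕ) : ℝ) / B) f (P g) :=
    (sum_blocks hB c0).symm
  have e1 : n2 0 1 f = ∑ k ∈ Finset.range B, n2 ((k : ℝ) / B) (((k + 1 : ℕ) : ℝ) / B) f :=
    (sum_blocks hB c1).symm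
  have e2 : n2 0 1 g = ∑ k ∈ Finset.range B, n2 ((k : ℝ) / B) (((k + 1 : ℕ) : ℝ) / B) g :=
    (sum_blocks hB c2).symm
  rw [e0, e1, e2, Finset.sum_filter, Finset.mul_sum, Finset.mul_sum, Finset.mul_sum,
    ← Finset.sum_add_distrib, ← Finset.sum_add_distrib]
  refine (mul_le_mul_of_nonneg_left (Finset.abs_sum_le_sum_abs _ _) zero_le_two).trans ?_
  rw [Finset.mul_sum]
  refine Finset.sum_le_sum fun k hk => ?_
  have hd : ((k + 1 : ℕ) : ℝ) / B - (k : ℝ) / B = 1 / B := by push_cast; ring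
  have hd' : (0 : ℝ) < 1 / B := by positivity
  have hlt : (k : ℝ) / B < ((k + 1 : ℕ) : ℝ) / B := by linarith
  split_ifs with hkT
  · have := block hlt hf hg
    rw [hd] at this
    have e3 : (2 : ℝ) / B = 2 * (1 / B) := by ring
    rw [e3]
    linarith
  · have : G ((k : ℝ) / B) (((k + 1 : ℕ) : ℝ) / B) f (P g) = 0 := by
      unfold G
      rw [intervalIntegral.integral_congr (g := fun _ => 0), intervalIntegral.integral_zero]
      intro φ hφ
      rw [Set.uIcc_of_le hlt.le] at hφ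
      simp [hT k (Finset.mem_range.1 hk) hkT φ hφ]
    rw [this]
    have a1 := n2_nonneg hlt.le f
    have a2 := n2_nonneg hlt.le g
    simp only [abs_zero, mul_zero, add_zero]
    positivity

theorem shift {g : ℝ → ℂ} (hg : Continuous g) {χ : ℂ} (hq : ∀ φ, g (φ + 1) = χ * g φ) (φ : ℝ) :
    ∫ t in (0 : ℝ)..1, g (φ + t) = P g 1 - (1 - χ) * P g φ := by
  rw [intervalIntegral.integral_comp_add_left, add_zero, ← P_sub hg]
  have h1 : P g (φ + 1) - P g 1 = χ * P g φ := by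
    rw [P_sub hg]
    have := intervalIntegral.integral_comp_add_right (a := 0) (b := φ) g 1
    rw [zero_add] at this
    rw [← this]
    simp only [hq]
    rw [intervalIntegral.integral_const_mul]
    rfl
  linear_combination h1

variable {ι : Type} [Fintype ι]

/-- linear combination of functions -/
noncomputable def cmb (u : ι → ℝ) (f : ι → ℝ → ℂ) (φ : ℝ) : ℂ := cz u fun i => f i φ

theorem continuous_cmb (u : ι → ℝ) {f : ι → ℝ → ℂ} (hf : ∀ i, Continuous (f i)) :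
    Continuous (cmb u f) := by
  unfold cmb cz
  fun_prop

theorem P_cmb (u : ι → ℝ) {f : ι → ℝ → ℂ} (hf : ∀ i, Continuous (f i)) :
    P (cmb u f) = cmb u fun i => P (f i) := by
  funext x
  unfold P cmb cz
  have c0 : ∀ i, Continuous fun t => (u i : ℂ) * f i t := fun i => continuous_const.mul (hf i)
  rw [intervalIntegral.integral_finsetSum fun i _ => (c0 i).intervalIntegrable _ _]
  simp only [intervalIntegral.integral_const_mul]

theorem re_bilin (c : ℂ) (u v : ι → ℝ) (x y : ι → ℂ) :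
    ∑ i, u i * ∑ j, (c * (starRingEnd ℂ) (x i) * y j).re * v j
      = (c * (starRingEnd ℂ) (cz u x) * cz v y).re := by
  unfold cz
  rw [map_sum, Finset.mul_sum _ _ c, Finset.sum_mul_sum, Complex.re_sum]
  refine Finset.sum_congr rfl fun i _ => ?_
  rw [Complex.re_sum, Finset.mul_sum]
  refine Finset.sum_congr rfl fun j _ => ?_
  rw [show c * (starRingEnd ℂ) ((u i : ℂ) * x i) * ((v j : ℂ) * y j)
    = ((u i * v j : ℝ) : ℂ) * (c * (starRingEnd ℂ) (x i) * y j) by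
      rw [map_mul, Complex.conj_ofReal]; push_cast; ring, Complex.re_ofReal_mul]
  ring

theorem G_bilin (α β : ℝ) (u v : ι → ℝ) {f g : ι → ℝ → ℂ} (hf : ∀ i, Continuous (f i))
    (hg : ∀ i, Continuous (g i)) :
    ∑ i, u i * ∑ j, G α β (f i) (g j) * v j = G α β (cmb u f) (cmb v g) := by
  unfold G
  have e : ∀ φ, ((starRingEnd ℂ) (cmb u f φ) * cmb v g φ).re
      = ∑ i, u i * ∑ j, ((starRingEnd ℂ) (f i φ) * g j φ).re * v j := by
    intro φ
    have := re_bilin 1 u v (fun i => f i φ) fun i => g i φ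
    simp only [one_mul] at this
    exact this.symm
  simp only [e]
  have c0 : ∀ i j, Continuous fun φ => ((starRingEnd ℂ) (f i φ) * g j φ).re * v j := by
    intro i j
    have := hf i
    have := hg j
    fun_prop
  have c1 : ∀ i, Continuous fun φ => u i * ∑ j, ((starRingEnd ℂ) (f i φ) * g j φ).re * v j :=
    fun i => continuous_const.mul (continuous_finsetSum _ fun j _ => c0 i j)
  rw [intervalIntegral.integral_finsetSum fun i _ => (c1 i).intervalIntegrable _ _]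
  refine Finset.sum_congr rfl fun i _ => ?_
  rw [intervalIntegral.integral_const_mul,
    intervalIntegral.integral_finsetSum fun j _ => (c0 i j).intervalIntegrable _ _]
  simp only [intervalIntegral.integral_mul_const]

theorem entry {L : Type} (s : Finset L) (f g : L → ℝ → ℂ) (hf : ∀ l ∈ s, Continuous (f l))
    (hg : ∀ l ∈ s, Continuous (g l)) (χ : L → ℂ) (hne : ∀ l ∈ s, χ l ≠ 1)
    (hq : ∀ l ∈ s, ∀ φ, g l (φ + 1) = χ l * g l φ) :
    ∫ φ in (0 : ℝ)..1, ∫ t in (0 : ℝ)..1,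
      ∑ l ∈ s, ((1 - χ l)⁻¹ * (starRingEnd ℂ) (f l φ) * g l (φ + t)).re
      = ∑ l ∈ s, (((1 - χ l)⁻¹ * (starRingEnd ℂ) (P (f l) 1) * P (g l) 1).re
          - G 0 1 (f l) (P (g l))) := by
  have e : ∀ φ, ∫ t in (0 : ℝ)..1,
      ∑ l ∈ s, ((1 - χ l)⁻¹ * (starRingEnd ℂ) (f l φ) * g l (φ + t)).re
      = ∑ l ∈ s, (((1 - χ l)⁻¹ * (starRingEnd ℂ) (f l φ) * P (g l) 1).re
          - ((starRingEnd ℂ) (f l φ) * P (g l) φ).re) := by
    intro φ
    have c0 : ∀ l ∈ s, Continuous fun t =>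
        (1 - χ l)⁻¹ * (starRingEnd ℂ) (f l φ) * g l (φ + t) := by
      intro l hl
      have := hg l hl
      fun_prop
    have c0' : ∀ l ∈ s, Continuous fun t =>
        ((1 - χ l)⁻¹ * (starRingEnd ℂ) (f l φ) * g l (φ + t)).re :=
      fun l hl => Complex.continuous_re.comp (c0 l hl)
    rw [intervalIntegral.integral_finsetSum fun l hl => (c0' l hl).intervalIntegrable _ _]
    refine Finset.sum_congr rfl fun l hl => ?_
    have h1 := intervalIntegral.intervalIntegral_re ((c0 l hl).intervalIntegrable (μ := volume) 0 1)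
    simp only [RCLike.re_to_complex] at h1
    rw [h1, intervalIntegral.integral_const_mul, shift (hg l hl) (hq l hl), ← Complex.sub_re]
    congr 1
    have : 1 - χ l ≠ 0 := sub_ne_zero.2 (hne l hl).symm
    field_simp
  simp only [e]
  have c1 : ∀ l ∈ s, Continuous fun φ => (1 - χ l)⁻¹ * (starRingEnd ℂ) (f l φ) * P (g l) 1 := by
    intro l hl
    have := hf l hl
    fun_prop
  have c2 : ∀ l ∈ s, Continuous fun φ => ((starRingEnd ℂ) (f l φ) * P (g l) φ).re := by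
    intro l hl
    have := hf l hl
    have := continuous_P (hg l hl)
    fun_prop
  have c1' : ∀ l ∈ s, Continuous fun φ =>
      ((1 - χ l)⁻¹ * (starRingEnd ℂ) (f l φ) * P (g l) 1).re :=
    fun l hl => Complex.continuous_re.comp (c1 l hl)
  have c3 : ∀ l ∈ s, Continuous fun φ => ((1 - χ l)⁻¹ * (starRingEnd ℂ) (f l φ) * P (g l) 1).re
      - ((starRingEnd ℂ) (f l φ) * P (g l) φ).re := fun l hl => (c1' l hl).sub (c2 l hl)
  rw [intervalIntegral.integral_finsetSum fun l hl => (c3 l hl).intervalIntegrable _ _]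
  refine Finset.sum_congr rfl fun l hl => ?_
  rw [intervalIntegral.integral_sub
    ((c1' l hl).intervalIntegrable _ _) ((c2 l hl).intervalIntegrable _ _)]
  have h1 := intervalIntegral.intervalIntegral_re ((c1 l hl).intervalIntegrable (μ := volume) 0 1)
  simp only [RCLike.re_to_complex] at h1
  congr 1
  rw [h1, intervalIntegral.integral_mul_const, intervalIntegral.integral_const_mul,
    intervalIntegral.intervalIntegral_conj]
  rfl

theorem form_sum {L : Type} (s : Finset L) (M : L → ι → ι → ℝ) (N : Matrix ι ι ℝ)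
    (hN : ∀ i j, N i j = ∑ l ∈ s, M l i j) (u v : ι → ℝ) :
    u ⬝ᵥ N *ᵥ v = ∑ l ∈ s, ∑ i, u i * ∑ j, M l i j * v j := by
  simp only [dotProduct, mulVec, hN, Finset.sum_mul]
  rw [Finset.sum_comm (s := s)]
  refine Finset.sum_congr rfl fun i _ => ?_
  rw [Finset.sum_comm, Finset.mul_sum]

end ana

end CostY

open CostY in
theorem cost_prefix {ι L : Type} [Fintype ι] [DecidableEq ι] (s : Finset L)
    (U : L → ι → ℝ → ℂ) (hU : ∀ l ∈ s, ∀ i, Continuous (U l i)) (χ : L → ℂ) (a : ℝ) (ha0 : 0 ≤ a)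
    (hne : ∀ l ∈ s, χ l ≠ 1) (ha : ∀ l ∈ s, ‖(1 - χ l)⁻¹‖ ≤ a)
    (hq : ∀ l ∈ s, ∀ i φ, U l i (φ + 1) = χ l * U l i φ)
    (B : ℕ) (hB : 0 < B) (A : L → Finset (Fin B))
    (hA : ∀ l ∈ s, ∀ b, b ∉ A l → ∀ φ ∈ Set.Icc (((b : ℕ) : ℝ) / B) ((((b : ℕ) : ℝ) + 1) / B),
      ∀ i, U l i φ = 0)
    (m : ℕ) (hm : ∑ l ∈ s, (A l).card ≤ m) (N : Matrix ι ι ℝ)
    (hN : ∀ i j, N i j = ∫ φ in (0 : ℝ)..1, ∫ t in (0 : ℝ)..1,
      ∑ l ∈ s, ((1 - χ l)⁻¹ * (starRingEnd ℂ) (U l i φ) * U l j (φ + t)).re) :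
    Cost (N - Nᵀ) (fun i => 3 / B * ∑ l ∈ s, ∫ φ in (0 : ℝ)..1, ‖U l i φ‖ ^ 2)
      ((10 * (1 + a)) ^ (4 * m)) := by
  have hB' : (0 : ℝ) < B := by positivity
  -- the Gram matrix
  let Γ0 : Matrix ι ι ℝ := Matrix.of fun i j => ∑ l ∈ s, 3 / B * G 0 1 (U l i) (U l j)
  have hΓ0f : ∀ u, u ⬝ᵥ Γ0 *ᵥ u = 3 / B * ∑ l ∈ s, n2 0 1 (cmb u (U l)) := by
    intro u
    rw [form_sum s (fun l i j => 3 / B * G 0 1 (U l i) (U l j)) Γ0 (fun _ _ => rfl),
      Finset.mul_sum]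
    refine Finset.sum_congr rfl fun l hl => ?_
    rw [← G_self, ← G_bilin 0 1 u u (hU l hl) (hU l hl), Finset.mul_sum]
    refine Finset.sum_congr rfl fun i _ => ?_
    rw [mul_left_comm, Finset.mul_sum _ _ ((3 : ℝ) / B)]
    simp only [mul_assoc]
  have hn : ∀ l u, 0 ≤ n2 0 1 (cmb u (U l)) := fun l u => n2_nonneg zero_le_one _
  have hΓ0 : Γ0.PosSemidef := by
    refine PosSemidef.of_dotProduct_mulVec_nonneg ?_ fun u => ?_
    · ext i j
      simp only [conjTranspose_apply, star_trivial, Γ0, Matrix.of_apply]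
      refine Finset.sum_congr rfl fun l _ => ?_
      congr 1
      unfold G
      congr 1
      funext φ
      simp only [Complex.mul_re, Complex.conj_re, Complex.conj_im]
      ring
    · rw [star_trivial, hΓ0f]
      exact mul_nonneg (by positivity) (Finset.sum_nonneg fun l _ => hn l u)
  -- the active blocks
  let T : L → Finset ℕ := fun l => (A l).map Fin.valEmbedding
  have hTc : ∀ l, ((Finset.range B).filter (· ∈ T l)).card ≤ (A l).card := by
    intro l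
    rw [← Finset.card_map Fin.valEmbedding]
    exact Finset.card_le_card fun k hk => (Finset.mem_filter.1 hk).2
  have hz : ∀ l ∈ s, ∀ u, ∀ k < B, k ∉ T l →
      ∀ φ ∈ Set.Icc ((k : ℝ) / B) (((k + 1 : ℕ) : ℝ) / B), cmb u (U l) φ = 0 := by
    intro l hl u k hk hkT φ hφ
    have h1 : (⟨k, hk⟩ : Fin B) ∉ A l := fun h => hkT (Finset.mem_map.2 ⟨_, h, rfl⟩)
    have h2 := hA l hl _ h1 φ (by simpa using hφ)
    simp [cmb, cz, h2]
  let z : L → ℕ → ι → ℂ := fun l k i => P (U l i) ((k : ℝ) / B)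
  have hzP : ∀ l ∈ s, ∀ k u, cz u (z l k) = P (cmb u (U l)) ((k : ℝ) / B) := by
    intro l hl k u
    rw [P_cmb u (hU l hl)]
    rfl
  have hlt : ∀ k : ℕ, (k : ℝ) / B < ((k + 1 : ℕ) : ℝ) / B := fun k =>
    div_lt_div_of_pos_right (by push_cast; linarith) hB'
  have h0 : ∀ l ∈ s, ∀ u, cz u (z l 0) = 0 := by
    intro l hl u
    rw [hzP l hl]
    simp [P]
  have hT : ∀ l ∈ s, ∀ k < B, k ∉ T l → ∀ u, cz u (z l (k + 1)) = cz u (z l k) := by
    intro l hl k hk hkT u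
    rw [hzP l hl, hzP l hl, ← sub_eq_zero, P_sub (continuous_cmb u (hU l hl)),
      intervalIntegral.integral_congr (g := fun _ => 0), intervalIntegral.integral_zero]
    intro φ hφ
    rw [Set.uIcc_of_le (hlt k).le] at hφ
    exact hz l hl u k hk hkT φ hφ
  have hT' : ∀ l ∈ s, ∀ k < B, ∀ u,
      2 * ‖cz u (z l (k + 1)) - cz u (z l k)‖ ^ 2 ≤ u ⬝ᵥ Γ0 *ᵥ u := by
    intro l hl k hk u
    have hc := continuous_cmb u (hU l hl)
    rw [hzP l hl, hzP l hl, hΓ0f]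
    have a1 := norm_int_sq_le (hlt k) le_rfl (hlt k).le le_rfl hc
    have hd : ((k + 1 : ℕ) : ℝ) / B - (k : ℝ) / B = 1 / B := by push_cast; ring
    rw [hd] at a1
    have a2 : n2 ((k : ℝ) / B) (((k + 1 : ℕ) : ℝ) / B) (cmb u (U l)) ≤ n2 0 1 (cmb u (U l)) := by
      refine intervalIntegral.integral_mono_interval (by positivity) (hlt k).le ?_
        (Filter.Eventually.of_forall fun _ => sq_nonneg _)
        ((hc.norm.pow 2).intervalIntegrable _ _)
      rw [div_le_one hB']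
      exact_mod_cast hk
    have a3 : n2 0 1 (cmb u (U l)) ≤ ∑ l ∈ s, n2 0 1 (cmb u (U l)) :=
      Finset.single_le_sum (f := fun l => n2 0 1 (cmb u (U l))) (fun l _ => hn l u) hl
    have a4 : (0 : ℝ) < 1 / B := by positivity
    have a5 := hn l u
    have e3 : (3 : ℝ) / B = 3 * (1 / B) := by ring
    rw [e3]
    nlinarith
  obtain ⟨Γ, hΓ, hr, hf⟩ := add_labels s hΓ0 z T (w := 2 * (1 + a)) (by linarith) h0 B hT hT'
  refine Cost.mono (b := fun i => 3 / B * ∑ l ∈ s, ∫ φ in (0 : ℝ)..1, ‖U l i φ‖ ^ 2)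
    ⟨Γ0, Γ, hΓ0, hΓ, fun i => le_of_eq ?_, fun u v => ?_, hr⟩ (fun _ => le_rfl) ?_
  · simp only [Γ0, Matrix.of_apply, G_self]
    rw [Finset.mul_sum]
    rfl
  · have hN' : ∀ u v : ι → ℝ, u ⬝ᵥ N *ᵥ v = ∑ l ∈ s,
        (((1 - χ l)⁻¹ * (starRingEnd ℂ) (P (cmb u (U l)) 1) * P (cmb v (U l)) 1).re
          - G 0 1 (cmb u (U l)) (P (cmb v (U l)))) := by
      intro u v
      rw [form_sum s (fun l i j =>
        ((1 - χ l)⁻¹ * (starRingEnd ℂ) (P (U l i) 1) * P (U l j) 1).re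
          - G 0 1 (U l i) (P (U l j))) N (fun i j => by
          rw [hN, entry s (fun l => U l i) (fun l => U l j) (fun l hl => hU l hl i)
            (fun l hl => hU l hl j) χ hne fun l hl => hq l hl j])]
      refine Finset.sum_congr rfl fun l hl => ?_
      simp only [sub_mul, Finset.sum_sub_distrib, mul_sub]
      rw [re_bilin, G_bilin 0 1 u v (hU l hl) fun j => continuous_P (hU l hl j),
        P_cmb u (hU l hl), P_cmb v (hU l hl)]
      rfl
    have e1 : u ⬝ᵥ (N - Nᵀ) *ᵥ v = u ⬝ᵥ N *ᵥ v - v ⬝ᵥ N *ᵥ u := by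
      rw [sub_mulVec, dotProduct_sub, mulVec_transpose, dotProduct_comm u (v ᵥ* N),
        ← dotProduct_mulVec]
    rw [e1, hN', hN', hf, hf, hΓ0f, hΓ0f, ← Finset.sum_sub_distrib]
    simp only [Finset.mul_sum s]
    rw [← Finset.sum_add_distrib, ← Finset.sum_add_distrib, ← Finset.sum_add_distrib]
    refine Finset.sum_le_sum fun l hl => ?_
    have hcu := continuous_cmb u (hU l hl)
    have hcv := continuous_cmb v (hU l hl)
    have b1 := label hB hcu hcv (T l) (hz l hl u)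
    have b2 := label hB hcv hcu (T l) (hz l hl v)
    have b3 := last_le (fun k => cz u (z l k)) (T l) (h0 l hl u) B fun k hk hk' => hT l hl k hk hk' u
    have b4 := last_le (fun k => cz v (z l k)) (T l) (h0 l hl v) B fun k hk hk' => hT l hl k hk hk' v
    simp only [hzP l hl, div_self hB'.ne'] at b3 b4 ⊢
    have b5 : ∀ x y : ℂ, |((1 - χ l)⁻¹ * (starRingEnd ℂ) x * y).re| ≤ a * (‖x‖ * ‖y‖) := by
      intro x y
      refine (Complex.abs_re_le_norm _).trans ?_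
      rw [norm_mul, norm_mul, Complex.norm_conj, mul_assoc]
      exact mul_le_mul_of_nonneg_right (ha l hl) (by positivity)
    have b6 := abs_le.1 (b5 (P (cmb u (U l)) 1) (P (cmb v (U l)) 1))
    have b7 := abs_le.1 (b5 (P (cmb v (U l)) 1) (P (cmb u (U l)) 1))
    have b8 := neg_abs_le (G 0 1 (cmb u (U l)) (P (cmb v (U l))))
    have b9 := le_abs_self (G 0 1 (cmb v (U l)) (P (cmb u (U l))))
    have c1 := mul_le_mul_of_nonneg_left b3 ha0
    have c2 := mul_le_mul_of_nonneg_left b4 ha0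
    have c3 := mul_nonneg ha0 (sq_nonneg (‖P (cmb u (U l)) 1‖ - ‖P (cmb v (U l)) 1‖))
    have e3 : (3 : ℝ) / B = 1 / B + 2 / B := by ring
    rw [e3]
    nlinarith
  · have h1 : ∑ l ∈ s, ((Finset.range B).filter (· ∈ T l)).card ≤ m :=
      (Finset.sum_le_sum fun l _ => hTc l).trans hm
    calc (1 + 2 * (1 + a)) ^ (2 * ∑ l ∈ s, ((Finset.range B).filter (· ∈ T l)).card)
        ≤ (10 * (1 + a)) ^ (2 * ∑ l ∈ s, ((Finset.range B).filter (· ∈ T l)).card) :=
          pow_le_pow_left₀ (by linarith) (by linarith) _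
      _ ≤ (10 * (1 + a)) ^ (4 * m) := pow_le_pow_right₀ (by linarith) (by omega)

end Crest.Agent.R192
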