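import Mathlib
import Crest.Prelude.Def_L1GroupAlgebra

/-! Row 192 (ℓ¹-Bass): shared definitions.  See the `ideas` table (row 192, helper98).

Picture: `c : G`, points `x 0, …, x n`, breakpoints `θ 0 ≤ … ≤ θ n ≤ θ 0 + 1`; the step path sits at
`c ^ m * x i` during the time interval `[θ i + m, θ (i+1) + m]`. -/

set_option autoImplicit false

namespace Crest.Agent.R192

open Crest.AlgebraR.L1 MeasureTheory Matrix
open scoped ContDiff BoundedContinuousFunction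

/-! ### Groups with a length function; the statements -/

/-- A length function with finite balls of exponential growth. -/
structure Len (G : Type) [Group G] where
  len : G → ℕ
  len_one : len 1 = 0
  len_inv : ∀ g, len g⁻¹ = len g
  len_mul : ∀ g h, len (g * h) ≤ len g + len h
  D : ℕ
  ball : ℕ → Finset G
  mem_ball : ∀ r g, g ∈ ball r ↔ len g ≤ r
  card_ball : ∀ r, (ball r).card ≤ 2 ^ (D * r)

/-- `c` has infinite order, or all its conjugates are longer than `L0`. -/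
def Adm {G : Type} [Group G] (ℓ : Len G) (L0 : ℕ) (c : G) : Prop :=
  ¬ IsOfFinOrder c ∨ ∀ h : G, L0 < ℓ.len (h⁻¹ * c * h)

def ConjInv {G : Type} [Group G] (C : Set G) : Prop := ∀ c ∈ C, ∀ h : G, h * c * h⁻¹ ∈ C

/-- exponentially weighted summability -/
def WSum {G : Type} [Group G] (ℓ : Len G) (γ : ℝ) {q : ℕ} (e : Fin q → Fin q → G → ℂ) : Prop :=
  ∀ i j, Summable fun x => ‖e i j x‖ * Real.exp (γ * ℓ.len x)

/-- exponentially weighted norm -/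
noncomputable def wnorm {G : Type} [Group G] (ℓ : Len G) (γ : ℝ) {q : ℕ}
    (e : Fin q → Fin q → G → ℂ) : ℝ :=
  ∑ i, ∑ j, ∑' x, ‖e i j x‖ * Real.exp (γ * ℓ.len x)

/-- The core theorem. -/
def MainStmt : Prop :=
  ∀ (G : Type) [Group G] (ℓ : Len G) (q : ℕ) (e : Fin q → Fin q → G → ℂ) (γ : ℝ), 0 < γ →
    IsL1IdempotentMatrix e → WSum ℓ γ e →
    ∃ L0 : ℕ, ∀ C : Set G, ConjInv C → (∀ c ∈ C, Adm ℓ L0 c) → classTrace e C = 0

/-- The statement S0292. -/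
def BassStmt : Prop :=
  ∀ (G : Type) [Group G] (q : ℕ), 1 ≤ q → ∀ e : Fin q → Fin q → G → ℂ, IsL1IdempotentMatrix e →
    Set.Finite {C : ConjClasses G | classTrace e C.carrier ≠ 0} ∧
      ∀ g : G, ¬ IsOfFinOrder g → classTrace e (ConjClasses.mk g).carrier = 0

/-! ### Periodic tuples -/

section tuples
variable {G : Type} [Group G] {n : ℕ}

/-- the point before `x i` on the periodic path -/
def prev (c : G) (x : Fin (n + 1) → G) (i : Fin (n + 1)) : G :=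
  (Fin.cons (c⁻¹ * x (Fin.last n)) x : Fin (n + 2) → G) i.castSucc

/-- length of the jump at the breakpoint `θ i` -/
def slen (ℓ : Len G) (c : G) (x : Fin (n + 1) → G) (i : Fin (n + 1)) : ℕ :=
  ℓ.len ((prev c x i)⁻¹ * x i)

/-- total length of one period -/
def tlen (ℓ : Len G) (c : G) (x : Fin (n + 1) → G) : ℕ := ∑ i, slen ℓ c x i

/-- cyclic rotation `(x 1, …, x n, c * x 0)` -/
def rotx (c : G) (x : Fin (n + 1) → G) : Fin (n + 1) → G :=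
  fun i => (Fin.snoc x (c * x 0) : Fin (n + 2) → G) i.succ

end tuples

/-! ### Breakpoints, simplices -/

abbrev V (d : ℕ) := Fin d → ℝ

/-- basis vector -/
abbrev ev {d : ℕ} (i : Fin d) : V d := Pi.single i 1

/-- `(θ 0, …, θ n, θ 0 + 1)` -/
def ext {n : ℕ} (θ : V (n + 1)) : V (n + 2) := Fin.snoc θ (θ 0 + 1)

/-- `(θ 1, …, θ n, θ 0 + 1)` -/
def rotθ {n : ℕ} (θ : V (n + 1)) : V (n + 1) := fun i => ext θ i.succ

/-- the face where the point number `p` is visited for zero time (`θ p = θ (p+1)`) -/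
def faceθ {n : ℕ} (p : Fin (n + 2)) (θ : V (n + 1)) : V (n + 2) :=
  fun i => ext θ (p.predAbove i.castSucc)

def cell (n : ℕ) : Set (V (n + 1)) := {θ | Monotone (ext θ)}

/-- gauge `θ 0 = 0` -/
noncomputable def gemb (d : ℕ) : V d →L[ℝ] V (d + 1) :=
  ContinuousLinearMap.pi fun i : Fin (d + 1) =>
    Fin.cases (0 : V d →L[ℝ] ℝ) (fun j => ContinuousLinearMap.proj j) i

theorem gemb_apply (d : ℕ) (y : V d) : gemb d y = Fin.cons 0 y := by
  funext i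
  refine Fin.cases ?_ (fun j => ?_) i <;> simp [gemb]

/-- `0 ≤ y 0 ≤ … ≤ y (d-1) ≤ 1` -/
def simplex (d : ℕ) : Set (V d) := {y | gemb d y ∈ cell d}

/-- gauge fixed face map (affine) -/
noncomputable def fy {d : ℕ} (p : Fin (d + 2)) (y : V d) : V (d + 1) :=
  Fin.tail (faceθ p (gemb d y))

/-- gauge fixed rotation (affine) -/
noncomputable def cy {d : ℕ} (y : V d) : V d :=
  fun i => rotθ (gemb d y) i.succ - rotθ (gemb d y) 0

/-! ### Pfaffians and determinant costs -/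

/-- curvature of the standard connection -/
def omega (d : ℕ) : Matrix (Fin d) (Fin d) ℝ :=
  Matrix.of fun i j => (if (i : ℕ) = j + 1 then 1 else 0) - (if (j : ℕ) = i + 1 then 1 else 0)

def sl0 {j : ℕ} (a : Fin (j + 1)) : Fin (2 * j + 2) := ⟨2 * a, by omega⟩
def sl1 {j : ℕ} (a : Fin (j + 1)) : Fin (2 * j + 2) := ⟨2 * a + 1, by omega⟩

/-- `2^k k!` times the Pfaffian, `k = j + 1` -/
noncomputable def pfP (j : ℕ) (M : Matrix (Fin (2 * j + 2)) (Fin (2 * j + 2)) ℝ) : ℝ :=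
  ∑ σ : Equiv.Perm (Fin (2 * j + 2)),
    ((Equiv.Perm.sign σ : ℤ) : ℝ) * ∏ a : Fin (j + 1), M (σ (sl0 a)) (σ (sl1 a))

/-- exterior derivative of a 1-form, as a matrix -/
noncomputable def curv {d : ℕ} (b : V d → V d →L[ℝ] ℝ) (y : V d) : Matrix (Fin d) (Fin d) ℝ :=
  Matrix.of fun i j => fderiv ℝ b y (ev i) (ev j) - fderiv ℝ b y (ev j) (ev i)

section cost
variable {ι : Type} [Fintype ι] [DecidableEq ι]

/-- the bilinear form `M` is dominated by the quadratic form `Γ` -/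
def Dom (M Γ : Matrix ι ι ℝ) : Prop :=
  ∀ u v : ι → ℝ, 2 * (u ⬝ᵥ M *ᵥ v) ≤ u ⬝ᵥ Γ *ᵥ u + v ⬝ᵥ Γ *ᵥ v

/-- `det (Γ + Δ) ≤ F * det (Γ0 + Δ)` for all positive definite `Δ` -/
def RelDet (Γ Γ0 : Matrix ι ι ℝ) (F : ℝ) : Prop :=
  ∀ Δ : Matrix ι ι ℝ, Δ.PosDef → (Γ + Δ).det ≤ F * (Γ0 + Δ).det

/-- `M` has row costs `b` and an overall determinant factor `F` -/
def Cost (M : Matrix ι ι ℝ) (b : ι → ℝ) (F : ℝ) : Prop :=
  ∃ Γ0 Γ : Matrix ι ι ℝ, Γ0.PosSemidef ∧ Γ.PosSemidef ∧ (∀ i, Γ0 i i ≤ b i) ∧ Dom M Γ ∧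
    RelDet Γ Γ0 F

end cost

/-! ### Two-point functions and connections -/

abbrev TwoPt (n : ℕ) := V (n + 1) → V (n + 1) → ℝ

section twopt
variable {n : ℕ}

def Smooth2 (W : TwoPt n) : Prop :=
  ContDiff ℝ ∞ fun p : V (n + 1) × V (n + 1) => W p.1 p.2

def RotInv (W : TwoPt n) : Prop :=
  ∀ (θ θ' : V (n + 1)) (t : ℝ), W (fun i => θ i + t) (fun i => θ' i + t) = W θ θ'

/-- the 1-form of a two-point function -/
noncomputable def beta (W : TwoPt n) (θ : V (n + 1)) : V (n + 1) →L[ℝ] ℝ := fderiv ℝ (W θ) θ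

/-- its value on the rotation field -/
noncomputable def UU (W : TwoPt n) (θ : V (n + 1)) : ℝ := beta W θ 1

/-- mixed second derivative on the diagonal -/
noncomputable def hess (W : TwoPt n) (θ u v : V (n + 1)) : ℝ :=
  fderiv ℝ (fun θ₁ => fderiv ℝ (W θ₁) θ v) θ u

/-- gauge fixed curvature matrix of `beta W` -/
noncomputable def Mb (W : TwoPt n) (θ : V (n + 1)) : Matrix (Fin n) (Fin n) ℝ :=
  Matrix.of fun i j => hess W θ (ev i.succ) (ev j.succ) - hess W θ (ev j.succ) (ev i.succ)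

/-- the standard two-point function -/
noncomputable def stdW (n : ℕ) : TwoPt n := fun θ θ' =>
  ∑ i : Fin (n + 1), (ext θ i.succ - ext θ i.castSucc) *
    ((ext θ' i.castSucc - ext θ i.castSucc) + (ext θ' i.succ - ext θ i.succ)) / 2

/-- a smooth function equal to `x⁻¹` for `x ≥ 1/2` -/
noncomputable def rinv (x : ℝ) : ℝ :=
  (x * Real.smoothTransition (4 * x - 1) + (1 - Real.smoothTransition (4 * x - 1)))⁻¹

/-- gauge fixed difference between the normalised connection and the standard one -/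
noncomputable def bg (W : TwoPt n) (y : V n) : V n →L[ℝ] ℝ :=
  (rinv (UU W (gemb n y)) •
    (beta W (gemb n y) - UU W (gemb n y) • beta (stdW n) (gemb n y))).comp (gemb n)

/-- two-point function obtained by integrating over two times `φ`, `φ + s` -/
noncomputable def tp (h : (V (n + 1) × ℝ) × (V (n + 1) × ℝ) → ℝ) (δ : ℝ) : TwoPt n :=
  fun θ θ' => ∫ φ in (0 : ℝ)..1, ∫ s in (0 : ℝ)..δ, h ((θ, φ), (θ', φ + s))

end twopt

/-- action on noise configurations -/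
def act {G Λ S : Type} [Group G] [MulAction G Λ] (h : G) (w : Λ → S) : Λ → S :=
  fun l => w (h⁻¹ • l)

/-- symmetries of a random family of two-point functions -/
structure Fam {G : Type} [Group G] (C : Set G) {Λ S : Type} [MulAction G Λ] (n : ℕ)
    (W : G → (Fin (n + 1) → G) → (Λ → S) → TwoPt n) : Prop where
  smooth : ∀ c ∈ C, ∀ x w, Smooth2 (W c x w)
  rotInv : ∀ c ∈ C, ∀ x w, RotInv (W c x w)
  equiv : ∀ c ∈ C, ∀ x w (h : G), W (h * c * h⁻¹) (fun i => h * x i) (act h w) = W c x w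
  cyc : ∀ c ∈ C, ∀ x w θ θ', W c (rotx c x) w (rotθ θ) (rotθ θ') = W c x w θ θ'
  fin : ∀ c ∈ C, ∀ x, ∃ F : Finset Λ, ∀ w w', (∀ l ∈ F, w l = w' l) →
    ∀ θ θ', ‖θ‖ < 2 → ‖θ'‖ < 2 → W c x w θ θ' = W c x w' θ θ'

/-- crude entry bounds at a point `θ`; `s i` = jump lengths, `T` = mean jump length -/
structure Ent {n : ℕ} (W : TwoPt n) (θ : V (n + 1)) (s : Fin (n + 1) → ℝ) (T K : ℝ) : Prop where
  one_le : 1 ≤ UU W θ
  beta_le : ∀ i, |beta W θ (ev i)| ≤ K * ((1 + T) * (1 + s i))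
  hess_le : ∀ i j, |hess W θ (ev i) (ev j)| ≤ K * ((1 + T) * (1 + s i)) * ((1 + T) * (1 + s j))

/-! ### Occupation measures -/

/-- a monotone step from `0` to `1` inside `[0, 1]` -/
structure Step (K : ℝ → ℝ) : Prop where
  zero : ∀ x, x ≤ 0 → K x = 0
  one : ∀ x, 1 ≤ x → K x = 1
  mono : Monotone K

/-- primitive of the smooth transition -/
noncomputable def sigP (x : ℝ) : ℝ := ∫ t in (0 : ℝ)..x, Real.smoothTransition t

/-- distribution function of (uniform law on `[0, δ]`) * (smooth bump on `[0, δ0]`) -/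
noncomputable def kerK (δ0 δ x : ℝ) : ℝ := δ0 / δ * (sigP (x / δ0) - sigP ((x - δ) / δ0))

/-- periodisation of `|f|` -/
noncomputable def per (f : ℝ → ℝ) (x : ℝ) : ℝ := ∑ᶠ m : ℤ, |f (x - m)|

section occ
variable {G : Type} [Group G] {n : ℕ}

/-- occupation measure of the path in the time window before `φ` -/
noncomputable def occ (K : ℝ → ℝ) (c : G) (x : Fin (n + 1) → G) (θ : V (n + 1)) (φ : ℝ) :
    G →₀ ℝ :=
  ∑ᶠ m : ℤ, ∑ i : Fin (n + 1),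
    Finsupp.single (c ^ m * x i) (K (φ - m - ext θ i.castSucc) - K (φ - m - ext θ i.succ))

/-- integral of `ξ` against a finitely supported signed measure -/
noncomputable abbrev pr {E : Type} [AddCommGroup E] [Module ℝ E] (ξ : G → E) (μ : G →₀ ℝ) : E :=
  Finsupp.linearCombination ℝ ξ μ

noncomputable def fld {E : Type} [AddCommGroup E] [Module ℝ E] (K : ℝ → ℝ) (c : G)
    (x : Fin (n + 1) → G) (ξ : G → E) (p : V (n + 1) × ℝ) : E :=
  pr ξ (occ K c x p.1 p.2)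

/-- translation of a measure -/
noncomputable abbrev tr (h : G) (μ : G →₀ ℝ) : G →₀ ℝ := Finsupp.mapDomain (fun g => h * g) μ

noncomputable abbrev mass (μ : G →₀ ℝ) : ℝ := pr (fun _ => (1 : ℝ)) μ

def IsProb (μ : G →₀ ℝ) : Prop := (∀ g, 0 ≤ μ g) ∧ mass μ = 1

/-- mean distance to `z` -/
noncomputable def mdist (ℓ : Len G) (z : G) (μ : G →₀ ℝ) : ℝ :=
  pr (fun x => (ℓ.len (x⁻¹ * z) : ℝ)) μ

variable [TopologicalSpace G] [DiscreteTopology G]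

/-- `z ↦ d(x, z) - d(1, z)` -/
noncomputable def xiD (ℓ : Len G) (x : G) : G →ᵇ ℝ :=
  BoundedContinuousFunction.ofNormedAddCommGroupDiscrete
    (fun z => (ℓ.len (x⁻¹ * z) : ℝ) - ℓ.len z) (ℓ.len x) (fun z => by
      have h1 := ℓ.len_mul x⁻¹ z
      have h2 := ℓ.len_mul x (x⁻¹ * z)
      rw [ℓ.len_inv] at h1
      rw [mul_inv_cancel_left] at h2
      have h1' : (ℓ.len (x⁻¹ * z) : ℝ) ≤ ℓ.len x + ℓ.len z := by exact_mod_cast h1
      have h2' : (ℓ.len z : ℝ) ≤ ℓ.len x + ℓ.len (x⁻¹ * z) := by exact_mod_cast h2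
      rw [Real.norm_eq_abs, abs_le]
      constructor <;> linarith)

theorem xiD_apply (ℓ : Len G) (x z : G) : xiD ℓ x z = (ℓ.len (x⁻¹ * z) : ℝ) - ℓ.len z := rfl

/-- `z ↦ (1 - d(x, z) / R)₊` -/
noncomputable def bump (ℓ : Len G) (R : ℕ) (x : G) : G →ᵇ ℝ :=
  BoundedContinuousFunction.ofNormedAddCommGroupDiscrete
    (fun z => max 0 (1 - (ℓ.len (x⁻¹ * z) : ℝ) / R)) 1 (fun z => by
      have h : 0 ≤ (ℓ.len (x⁻¹ * z) : ℝ) / R := by positivity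
      rw [Real.norm_eq_abs, abs_of_nonneg (le_max_left _ _)]
      exact max_le zero_le_one (by linarith))

theorem bump_apply (ℓ : Len G) (R : ℕ) (x z : G) :
    bump ℓ R x z = max 0 (1 - (ℓ.len (x⁻¹ * z) : ℝ) / R) := rfl

/-- the feature vector of a measure -/
noncomputable abbrev feat (ℓ : Len G) (R : ℕ) (μ : G →₀ ℝ) : G →ᵇ ℝ := pr (bump ℓ R) μ

/-- The soft minimum of the mean distances. -/
structure Gibbs (ℓ : Len G) where
  Φ : (G →ᵇ ℝ) → ℝ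
  lam : ℝ
  C0 : ℝ
  lam_pos : 0 < lam
  C0_nonneg : 0 ≤ C0
  smooth : ContDiff ℝ ∞ Φ
  grad_le : ∀ h ν, |fderiv ℝ Φ h ν| ≤ ‖ν‖
  hess_nonpos : ∀ h ν, fderiv ℝ (fderiv ℝ Φ) h ν ν ≤ 0
  hess_le : ∀ h ν, -fderiv ℝ (fderiv ℝ Φ) h ν ν ≤ lam * ‖ν‖ ^ 2
  inv : ∀ (g : G) (μ : G →₀ ℝ), mass μ = 1 → Φ (pr (xiD ℓ) (tr g μ)) = Φ (pr (xiD ℓ) μ)
  nonneg : ∀ μ, IsProb μ → 0 ≤ Φ (pr (xiD ℓ) μ)
  le_mdist : ∀ μ, IsProb μ → ∀ z, Φ (pr (xiD ℓ) μ) ≤ C0 + mdist ℓ z μ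
  exists_mdist : ∀ μ, IsProb μ → ∀ L : ℝ, Φ (pr (xiD ℓ) μ) < L → ∃ z, mdist ℓ z μ < 2 * L

/-- Random labels with quasi-periodic amplitudes; all constants are controlled by `Z`. -/
structure Labels (ℓ : Len G) (R L0 : ℕ) (Z : ℝ) where
  Λ : Type
  S : Type
  L : Type
  [iΛ : MulAction G Λ]
  [iL : MulAction G L]
  [iS : Fintype S]
  [mS : MeasurableSpace S]
  [dS : DiscreteMeasurableSpace S]
  P : Measure (Λ → S)
  prob : IsProbabilityMeasure P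
  inv : ∀ h : G, MeasurePreserving (act h) P P
  cls : L → G
  chi : L → ℂ
  Y : (Λ → S) → L → (G →ᵇ ℝ) → ℂ
  Act : (Λ → S) → L → (G →₀ ℝ) → Prop
  cls_smul : ∀ (h : G) l, cls (h • l) = h * cls l * h⁻¹
  chi_smul : ∀ (h : G) l, chi (h • l) = chi l
  norm_chi : ∀ l, ‖chi l‖ = 1
  chi_far : ∀ l, Adm ℓ L0 (cls l) → Real.exp (-Z) ≤ ‖1 - chi l‖
  smooth : ∀ w l μ, ContDiffAt ℝ ∞ (Y w l) (feat ℓ R μ)
  fin : ∀ (c : G) (X : Finset G), ∃ (F : Finset L) (F' : Finset Λ), (∀ l ∈ F, cls l = c) ∧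
    ∀ μ : G →₀ ℝ, μ.support ⊆ X →
      (∀ w l, cls l = c → l ∉ F → Y w l (feat ℓ R μ) = 0) ∧
      ∀ w w', (∀ a ∈ F', w a = w' a) → ∀ l ∈ F, Y w l (feat ℓ R μ) = Y w' l (feat ℓ R μ)
  quasi : ∀ w l μ, Y w l (feat ℓ R (tr (cls l) μ)) = chi l * Y w l (feat ℓ R μ)
  equiv : ∀ (h : G) l, ∃ u : ℂ, ‖u‖ = 1 ∧
    ∀ w μ, Y (act h w) (h • l) (feat ℓ R (tr h μ)) = u * Y w l (feat ℓ R μ)
  norm_le : ∀ w l μ, IsProb μ → ‖Y w l (feat ℓ R μ)‖ ≤ 1
  fderiv_le : ∀ w l μ, IsProb μ → ‖fderiv ℝ (Y w l) (feat ℓ R μ)‖ ≤ Z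
  inactive : ∀ w l μ, IsProb μ → ¬ Act w l μ →
    Y w l (feat ℓ R μ) = 0 ∧ fderiv ℝ (Y w l) (feat ℓ R μ) = 0
  mult : ∀ w (c : G) (s : Finset L) (μ : L → G →₀ ℝ),
    (∀ l ∈ s, cls l = c ∧ IsProb (μ l) ∧ Act w l (μ l)) →
    (∀ l ∈ s, ∀ l' ∈ s, ‖feat ℓ R (μ l) - feat ℓ R (μ l')‖ ≤ 1 / Z) → (s.card : ℝ) ≤ Z
  lower : ∀ᵐ w ∂P, ∀ c, Adm ℓ L0 c → ∀ μ, IsProb μ → ∀ x, 9 / 10 ≤ feat ℓ R μ x →
    ∃ l, cls l = c ∧ 1 / 3 ≤ ‖Y w l (feat ℓ R μ)‖

attribute [instance] Labels.iΛ Labels.iL Labels.iS Labels.mS Labels.dS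

/-- time average of the soft minimum -/
noncomputable def avgΦ {ℓ : Len G} (Γ : Gibbs ℓ) (K : ℝ → ℝ) (c : G) (x : Fin (n + 1) → G)
    (θ : V (n + 1)) : ℝ :=
  ∫ φ in (0 : ℝ)..1, Γ.Φ (fld K c x (xiD ℓ) (θ, φ))

/-- energy two-point function at scale `δ` -/
noncomputable def WE {ℓ : Len G} (Γ : Gibbs ℓ) (δ0 δ : ℝ) (c : G) (x : Fin (n + 1) → G) :
    TwoPt n :=
  tp (fun p => -Γ.Φ ((1 / 2 : ℝ) • fld (kerK δ0 δ) c x (xiD ℓ) p.1 +
    (1 / 2 : ℝ) • fld (kerK δ0 δ) c x (xiD ℓ) p.2)) δ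

/-- label two-point function -/
noncomputable def WY {ℓ : Len G} {R L0 : ℕ} {Z : ℝ} (𝓛 : Labels ℓ R L0 Z) (K : ℝ → ℝ) (c : G)
    (x : Fin (n + 1) → G) (w : 𝓛.Λ → 𝓛.S) : TwoPt n :=
  tp (fun p => ∑ᶠ l ∈ {l | 𝓛.cls l = c},
    ((1 - 𝓛.chi l)⁻¹ * (starRingEnd ℂ) (𝓛.Y w l (fld K c x (bump ℓ R) p.1)) *
      𝓛.Y w l (fld K c x (bump ℓ R) p.2)).re) 1

/-- the full two-point function: `A` dyadic energy scales, the standard part, the labels -/
noncomputable def Wtot {ℓ : Len G} (Γ : Gibbs ℓ) {R L0 : ℕ} {Z : ℝ} (𝓛 : Labels ℓ R L0 Z)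
    (δ0 : ℝ) (A : ℕ) (L : ℝ) (n : ℕ) (c : G) (x : Fin (n + 1) → G) (w : 𝓛.Λ → 𝓛.S) : TwoPt n :=
  fun θ θ' => L⁻¹ * (∑ a ∈ Finset.range A, WE Γ δ0 (2 ^ a * δ0) c x θ θ' +
      avgΦ Γ (kerK δ0 δ0) c x θ * stdW n θ θ') +
    9 * WY 𝓛 (kerK δ0 (2 ^ A * δ0)) c x w θ θ'

end occ

end Crest.Agent.R192
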