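import Crest.Agent.R192.Cost

/-! Row 192: auxiliary calculus and linear algebra for the energy two-point function. -/

set_option autoImplicit false

namespace Crest.Agent.R192

open MeasureTheory Matrix
open scoped ContDiff

namespace EnAux

section calculus
variable {X E : Type} [NormedAddCommGroup X] [NormedSpace ℝ X] [NormedAddCommGroup E]
  [NormedSpace ℝ E] {Φ : E → ℝ} {f : X → E}

theorem smooth_mid (hΦ : ContDiff ℝ ∞ Φ) (hf : ContDiff ℝ ∞ f) :
    ContDiff ℝ ∞ fun p : X × X => -Φ ((1 / 2 : ℝ) • f p.1 + (1 / 2 : ℝ) • f p.2) :=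
  (hΦ.comp (((hf.comp contDiff_fst).const_smul _).add ((hf.comp contDiff_snd).const_smul _))).neg

theorem d2 (hΦ : ContDiff ℝ ∞ Φ) (hf : ContDiff ℝ ∞ f) (p q v : X) :
    fderiv ℝ (fun q => -Φ ((1 / 2 : ℝ) • f p + (1 / 2 : ℝ) • f q)) q v =
      -fderiv ℝ Φ ((1 / 2 : ℝ) • f p + (1 / 2 : ℝ) • f q) ((1 / 2 : ℝ) • fderiv ℝ f q v) := by
  have h1 := ((hf.differentiable (by simp) q).hasFDerivAt.const_smul (1 / 2 : ℝ)).const_add
    ((1 / 2 : ℝ) • f p)
  have h2 := ((hΦ.differentiable (by simp) _).hasFDerivAt.comp q h1).neg.fderiv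
  exact (DFunLike.congr_fun h2 v).trans rfl

theorem d12 (hΦ : ContDiff ℝ ∞ Φ) (hf : ContDiff ℝ ∞ f) (p q u v : X) :
    fderiv ℝ (fun p => fderiv ℝ (fun q => -Φ ((1 / 2 : ℝ) • f p + (1 / 2 : ℝ) • f q)) q v) p u =
      (1 / 4 : ℝ) * -fderiv ℝ (fderiv ℝ Φ) ((1 / 2 : ℝ) • f p + (1 / 2 : ℝ) • f q)
        (fderiv ℝ f p u) (fderiv ℝ f q v) := by
  simp only [d2 hΦ hf]
  have h1 := ((hf.differentiable (by simp) p).hasFDerivAt.const_smul (1 / 2 : ℝ)).add_const
    ((1 / 2 : ℝ) • f q)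
  have h0 : Differentiable ℝ (fderiv ℝ Φ) :=
    (hΦ.fderiv_right (m := ∞) (by simp)).differentiable (by simp)
  have h2 := ((((h0 _).hasFDerivAt.comp p h1).clm_apply
    (hasFDerivAt_const ((1 / 2 : ℝ) • fderiv ℝ f q v) p))).neg.fderiv
  refine (DFunLike.congr_fun h2 u).trans ?_
  simp
  ring

theorem symm2 (hΦ : ContDiff ℝ ∞ Φ) (y a b : E) :
    fderiv ℝ (fderiv ℝ Φ) y a b = fderiv ℝ (fderiv ℝ Φ) y b a :=
  (hΦ.contDiffAt.isSymmSndFDerivAt (by
    rw [minSmoothness_of_isRCLikeNormedField]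
    exact WithTop.coe_le_coe.2 (le_top : (2 : ℕ∞) ≤ ⊤))).eq a b

/-- minus the Hessian -/
noncomputable def negHess (Φ : E → ℝ) (y : E) : E →L[ℝ] E →L[ℝ] ℝ := -fderiv ℝ (fderiv ℝ Φ) y

theorem negHess_cont (hΦ : ContDiff ℝ ∞ Φ) : Continuous (negHess Φ) :=
  ((hΦ.fderiv_right (m := ∞) (by simp)).continuous_fderiv (by simp)).neg

end calculus

section bilin
variable {E : Type} [NormedAddCommGroup E] [NormedSpace ℝ E] {B : E →L[ℝ] E →L[ℝ] ℝ}

theorem two_mul_le (hs : ∀ a b, B a b = B b a) (hp : ∀ a, 0 ≤ B a a) (a b : E) :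
    2 * B a b ≤ B a a + B b b := by
  have h := hp (a - b)
  simp only [map_sub, _root_.sub_apply] at h
  linarith [hs a b]

theorem abs_bilin_le (hs : ∀ a b, B a b = B b a) (hp : ∀ a, 0 ≤ B a a) {lam : ℝ} (hl : 0 ≤ lam)
    (hb : ∀ a, B a a ≤ lam * ‖a‖ ^ 2) (a b : E) : |B a b| ≤ lam * ‖a‖ * ‖b‖ := by
  have h1 : ∀ t : ℝ, 0 ≤ B a a * (t * t) + 2 * B a b * t + B b b := fun t => by
    have h := hp (t • a + b)
    simp only [map_add, map_smul, _root_.add_apply, _root_.smul_apply, smul_eq_mul] at h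
    rw [hs b a] at h
    linarith
  have h2 := discrim_le_zero h1
  rw [discrim] at h2
  refine abs_le.2 (abs_le_of_sq_le_sq' ?_ (by positivity))
  calc (B a b) ^ 2 ≤ B a a * B b b := by nlinarith
    _ ≤ (lam * ‖a‖ ^ 2) * (lam * ‖b‖ ^ 2) := mul_le_mul (hb a) (hb b) (hp b) (by positivity)
    _ = _ := by ring

variable {ι : Type} [Fintype ι]

theorem form (B : E →L[ℝ] E →L[ℝ] ℝ) (a b : ι → E) (u v : ι → ℝ) :
    u ⬝ᵥ (Matrix.of fun i j => B (a i) (b j)) *ᵥ v = B (∑ i, u i • a i) (∑ j, v j • b j) := by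
  simp only [dotProduct, mulVec, of_apply, map_sum, map_smul, _root_.sum_apply,
    _root_.smul_apply, smul_eq_mul, Finset.mul_sum]
  rw [Finset.sum_comm]
  exact Finset.sum_congr rfl fun i _ => Finset.sum_congr rfl fun j _ => by ring

theorem dom_gram (hs : ∀ a b, B a b = B b a) (hp : ∀ a, 0 ≤ B a a) (a b : ι → E) :
    Dom (Matrix.of fun i j => 1 / 4 * B (a i) (b j) - 1 / 4 * B (a j) (b i))
      (Matrix.of fun i j => 1 / 4 * (B (a i) (a j) + B (b i) (b j))) := by
  intro u v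
  have e1 : (Matrix.of fun i j => 1 / 4 * B (a i) (b j) - 1 / 4 * B (a j) (b i)) =
      (1 / 4 : ℝ) • ((Matrix.of fun i j => B (a i) (b j)) - Matrix.of fun i j => B (b i) (a j)) := by
    ext i j
    simp only [of_apply, Matrix.smul_apply, Matrix.sub_apply, smul_eq_mul, hs (a j) (b i)]
    ring
  have e2 : (Matrix.of fun i j => 1 / 4 * (B (a i) (a j) + B (b i) (b j))) =
      (1 / 4 : ℝ) • ((Matrix.of fun i j => B (a i) (a j)) + Matrix.of fun i j => B (b i) (b j)) := by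
    ext i j
    simp only [of_apply, Matrix.smul_apply, Matrix.add_apply, smul_eq_mul]
  rw [e1, e2]
  simp only [smul_mulVec, sub_mulVec, add_mulVec, dotProduct_smul, dotProduct_sub, dotProduct_add,
    form, smul_eq_mul]
  have h1 := two_mul_le hs hp (∑ i, u i • a i) (∑ j, v j • b j)
  have h2 := two_mul_le hs hp (-∑ i, u i • b i) (∑ j, v j • a j)
  simp only [map_neg, _root_.neg_apply, neg_neg] at h2
  linarith

end bilin

section integral
variable {ι Ω : Type} [Fintype ι] [MeasurableSpace Ω] {μ : Measure Ω}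

theorem form_integral (F : Ω → Matrix ι ι ℝ) (hF : ∀ i j, Integrable (fun p => F p i j) μ)
    (u v : ι → ℝ) : Integrable (fun p => u ⬝ᵥ F p *ᵥ v) μ ∧
      u ⬝ᵥ (Matrix.of fun i j => ∫ p, F p i j ∂μ) *ᵥ v = ∫ p, u ⬝ᵥ F p *ᵥ v ∂μ := by
  simp only [dotProduct, mulVec, of_apply]
  have h1 : ∀ i, Integrable (fun p => ∑ j, F p i j * v j) μ := fun i =>
    integrable_finsetSum _ fun j _ => (hF i j).mul_const _
  refine ⟨integrable_finsetSum _ fun i _ => (h1 i).const_mul _, ?_⟩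
  rw [integral_finsetSum _ fun i _ => (h1 i).const_mul _]
  refine Finset.sum_congr rfl fun i _ => ?_
  rw [integral_const_mul, integral_finsetSum _ fun j _ => (hF i j).mul_const _]
  simp only [integral_mul_const]

variable [DecidableEq ι]

theorem cost_integral (M F : Ω → Matrix ι ι ℝ) (hM : ∀ i j, Integrable (fun p => M p i j) μ)
    (hF : ∀ i j, Integrable (fun p => F p i j) μ) (hs : ∀ p i j, F p i j = F p j i)
    (hd : ∀ p, Dom (M p) (F p)) {b : ι → ℝ} (hb : ∀ i, ∫ p, F p i i ∂μ ≤ b i) :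
    Cost (Matrix.of fun i j => ∫ p, M p i j ∂μ) b 1 := by
  have hdom : Dom (Matrix.of fun i j => ∫ p, M p i j ∂μ) (Matrix.of fun i j => ∫ p, F p i j ∂μ) := by
    intro u v
    obtain ⟨i1, e1⟩ := form_integral M hM u v
    obtain ⟨i2, e2⟩ := form_integral F hF u u
    obtain ⟨i3, e3⟩ := form_integral F hF v v
    rw [e1, e2, e3, ← integral_const_mul, ← integral_add i2 i3]
    exact integral_mono (i1.const_mul 2) (i2.add i3) fun p => hd p u v
  refine Cost.of_gram (PosSemidef.of_dotProduct_mulVec_nonneg ?_ fun u => ?_) hdom hb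
  · ext i j
    simp only [conjTranspose_apply, of_apply, star_trivial, hs _ j i]
  · have := hdom u 0
    simpa using this

end integral

/-- the measure on the box `[0,1] × [0,δ]` -/
noncomputable def box (δ : ℝ) : Measure (ℝ × ℝ) :=
  (volume.restrict (Set.Ioc (0 : ℝ) 1)).prod (volume.restrict (Set.Ioc 0 δ))

theorem integrable_box (δ : ℝ) {f : ℝ × ℝ → ℝ} (hf : Continuous f) : Integrable f (box δ) := by
  rw [box, Measure.prod_restrict]
  exact (hf.continuousOn.integrableOn_compact (isCompact_Icc.prod isCompact_Icc)).mono_set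
    (Set.prod_mono Set.Ioc_subset_Icc_self Set.Ioc_subset_Icc_self)

theorem integral_box {δ : ℝ} (h : 0 ≤ δ) {f : ℝ × ℝ → ℝ} (hf : Continuous f) :
    ∫ p, f p ∂(box δ) = ∫ φ in (0 : ℝ)..1, ∫ s in (0 : ℝ)..δ, f (φ, s) := by
  simp only [intervalIntegral.integral_of_le h, intervalIntegral.integral_of_le zero_le_one]
  exact integral_prod f (integrable_box δ hf)

theorem integral_box' {δ : ℝ} (h : 0 ≤ δ) {f : ℝ × ℝ → ℝ} (hf : Continuous f) :
    ∫ p, f p ∂(box δ) = ∫ s in (0 : ℝ)..δ, ∫ φ in (0 : ℝ)..1, f (φ, s) := by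
  simp only [intervalIntegral.integral_of_le h, intervalIntegral.integral_of_le zero_le_one]
  exact integral_prod_symm f (integrable_box δ hf)

end EnAux

end Crest.Agent.R192
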