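import Crest.Agent.R192.TP
import Crest.Agent.R192.OccCalc
import Crest.Agent.R192.Net
import Crest.Agent.R192.Cost
import Crest.Agent.R192.Avg
import Crest.Agent.R192.EnergyAux

/-! Row 192: the energy two-point function at one scale. -/

set_option autoImplicit false

namespace Crest.Agent.R192

open Crest.AlgebraR.L1 MeasureTheory Matrix
open scoped ContDiff BoundedContinuousFunction

variable {G : Type} [Group G] [TopologicalSpace G] [DiscreteTopology G] {n : ℕ} {ℓ : Len G}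
  (Γ : Gibbs ℓ) {δ0 δ : ℝ}

namespace EnAux

theorem mid_tr {μ μ' : G →₀ ℝ} (hμ : mass μ = 1) (hμ' : mass μ' = 1) (g : G) :
    Γ.Φ ((1 / 2 : ℝ) • pr (xiD ℓ) (tr g μ) + (1 / 2 : ℝ) • pr (xiD ℓ) (tr g μ')) =
      Γ.Φ ((1 / 2 : ℝ) • pr (xiD ℓ) μ + (1 / 2 : ℝ) • pr (xiD ℓ) μ') := by
  have h := Γ.inv g ((1 / 2 : ℝ) • μ + (1 / 2 : ℝ) • μ') (by
    simp only [mass, pr] at hμ hμ' ⊢
    rw [map_add, map_smul, map_smul, hμ, hμ']
    norm_num)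
  simpa only [tr, pr, Finsupp.mapDomain_add, Finsupp.mapDomain_smul, map_add, map_smul] using h

theorem timeInv {K : ℝ → ℝ} (hK : Step K) (c : G) (x : Fin (n + 1) → G) :
    TimeInv fun p : (V (n + 1) × ℝ) × (V (n + 1) × ℝ) =>
      -Γ.Φ ((1 / 2 : ℝ) • fld K c x (xiD ℓ) p.1 + (1 / 2 : ℝ) • fld K c x (xiD ℓ) p.2) where
  rot1 θ φ t q := by simp only [fld, occ_rot]
  rot2 p θ φ t := by simp only [fld, occ_rot]
  per θ φ θ' φ' := by
    simp only [fld, occ_add_one hK]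
    rw [mid_tr Γ (mass_occ hK c x θ φ) (mass_occ hK c x θ' φ')]

theorem fld_smooth' (h0 : 0 < δ0) (h : 0 < δ) (h1 : δ + δ0 ≤ 1) (c : G) (x : Fin (n + 1) → G) :
    ContDiff ℝ ∞ (fld (kerK δ0 δ) c x (xiD ℓ)) :=
  fld_smooth (kerK_step h0 h h1) (kerK_smooth δ0 δ) c x _

/-- minus the Hessian of `Φ` at the midpoint -/
noncomputable def BB (δ0 δ : ℝ) (c : G) (x : Fin (n + 1) → G) (θ : V (n + 1)) (p : ℝ × ℝ) :=
  negHess Γ.Φ ((1 / 2 : ℝ) • fld (kerK δ0 δ) c x (xiD ℓ) (θ, p.1) +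
    (1 / 2 : ℝ) • fld (kerK δ0 δ) c x (xiD ℓ) (θ, p.1 + p.2))

/-- variation of the field -/
noncomputable def aa (ℓ : Len G) (δ0 δ : ℝ) (c : G) (x : Fin (n + 1) → G) (θ u : V (n + 1))
    (φ : ℝ) : G →ᵇ ℝ :=
  fderiv ℝ (fld (kerK δ0 δ) c x (xiD ℓ)) (θ, φ) (u, 0)

theorem BB_symm (c : G) (x : Fin (n + 1) → G) (θ : V (n + 1)) (p : ℝ × ℝ) (a b : G →ᵇ ℝ) :
    BB Γ δ0 δ c x θ p a b = BB Γ δ0 δ c x θ p b a :=
  congrArg Neg.neg (symm2 Γ.smooth _ a b)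

theorem BB_nonneg (c : G) (x : Fin (n + 1) → G) (θ : V (n + 1)) (p : ℝ × ℝ) (a : G →ᵇ ℝ) :
    0 ≤ BB Γ δ0 δ c x θ p a a :=
  neg_nonneg.2 (Γ.hess_nonpos _ a)

theorem BB_le (c : G) (x : Fin (n + 1) → G) (θ : V (n + 1)) (p : ℝ × ℝ) (a : G →ᵇ ℝ) :
    BB Γ δ0 δ c x θ p a a ≤ Γ.lam * ‖a‖ ^ 2 :=
  Γ.hess_le _ a

theorem BB_cont (h0 : 0 < δ0) (h : 0 < δ) (h1 : δ + δ0 ≤ 1) (c : G) (x : Fin (n + 1) → G)
    (θ : V (n + 1)) : Continuous (BB Γ δ0 δ c x θ) := by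
  have h2 := (fld_smooth' (ℓ := ℓ) h0 h h1 c x).continuous
  have h3 := negHess_cont Γ.smooth
  unfold BB
  fun_prop

theorem aa_cont (h0 : 0 < δ0) (h : 0 < δ) (h1 : δ + δ0 ≤ 1) (c : G) (x : Fin (n + 1) → G)
    (θ u : V (n + 1)) : Continuous (aa ℓ δ0 δ c x θ u) := by
  have h2 := (fld_smooth' (ℓ := ℓ) h0 h h1 c x).continuous_fderiv (by simp)
  unfold aa
  fun_prop

theorem aa_le (h0 : 0 < δ0) (h : 0 < δ) (h1 : δ + δ0 ≤ 1) (c : G) (x : Fin (n + 1) → G)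
    (θ : V (n + 1)) (i : Fin (n + 1)) (φ : ℝ) :
    ‖aa ℓ δ0 δ c x θ (ev i) φ‖ ≤ slen ℓ c x i * per (deriv (kerK δ0 δ)) (φ - θ i) :=
  norm_fderiv_fld_le (kerK_step h0 h h1) (kerK_smooth δ0 δ) ℓ c x _ (norm_xiD_sub_le ℓ) θ φ i

theorem aa_le' (h0 : 0 < δ0) (h : 0 < δ) (h1 : δ + δ0 ≤ 1) (c : G) (x : Fin (n + 1) → G)
    (θ : V (n + 1)) (i : Fin (n + 1)) (φ : ℝ) :
    ‖aa ℓ δ0 δ c x θ (ev i) φ‖ ≤ slen ℓ c x i * (1 / δ) :=
  (aa_le h0 h h1 c x θ i φ).trans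
    (mul_le_mul_of_nonneg_left (per_deriv_le h0 h h1 _) (Nat.cast_nonneg _))

theorem hess_eq (h0 : 0 < δ0) (h : 0 < δ) (h1 : δ + δ0 ≤ 1) (c : G) (x : Fin (n + 1) → G)
    (θ u v : V (n + 1)) : hess (WE Γ δ0 δ c x) θ u v = ∫ p, 1 / 4 * BB Γ δ0 δ c x θ p
      (aa ℓ δ0 δ c x θ u p.1) (aa ℓ δ0 δ c x θ v (p.1 + p.2)) ∂(box δ) := by
  have h2 := fld_smooth' (ℓ := ℓ) h0 h h1 c x
  have h3 := BB_cont Γ h0 h h1 c x θ
  have h4 := aa_cont (ℓ := ℓ) h0 h h1 c x θ u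
  have h5 := aa_cont (ℓ := ℓ) h0 h h1 c x θ v
  rw [integral_box h.le (by fun_prop), WE, hess_tp (smooth_mid Γ.smooth h2)]
  simp only [d12 Γ.smooth h2]
  rfl

theorem int_per (h0 : 0 < δ0) (h : 0 < δ) (h1 : δ + δ0 ≤ 1) (t : ℝ) :
    ∫ p, per (deriv (kerK δ0 δ)) (p.1 - t) ∂(box δ) = δ := by
  have h2 := per_deriv_continuous h0 h h1
  rw [integral_box' h.le (by fun_prop)]
  simp only [sub_eq_add_neg, integral_per_deriv h0 h h1]
  simp

theorem int_per' (h0 : 0 < δ0) (h : 0 < δ) (h1 : δ + δ0 ≤ 1) (t : ℝ) :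
    ∫ p, per (deriv (kerK δ0 δ)) (p.1 + p.2 - t) ∂(box δ) = δ := by
  have h2 := per_deriv_continuous h0 h h1
  rw [integral_box' h.le (by fun_prop)]
  simp only [add_sub_assoc, integral_per_deriv h0 h h1]
  simp

end EnAux

open EnAux

theorem WE_smooth (h0 : 0 < δ0) (h : 0 < δ) (h1 : δ + δ0 ≤ 1) (c : G) (x : Fin (n + 1) → G) :
    Smooth2 (WE Γ δ0 δ c x) := by
  exact tp_smooth (smooth_mid Γ.smooth (fld_smooth' h0 h h1 c x)) δ

theorem WE_rotInv (h0 : 0 < δ0) (h : 0 < δ) (h1 : δ + δ0 ≤ 1) (c : G) (x : Fin (n + 1) → G) :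
    RotInv (WE Γ δ0 δ c x) := by
  exact tp_rotInv (timeInv Γ (kerK_step h0 h h1) c x) δ

theorem WE_conj (h0 : 0 < δ0) (h : 0 < δ) (h1 : δ + δ0 ≤ 1) (c g : G) (x : Fin (n + 1) → G) :
    WE Γ δ0 δ (g * c * g⁻¹) (fun i => g * x i) = WE Γ δ0 δ c x := by
  have hK := kerK_step h0 h h1
  funext θ θ'
  simp only [WE, tp, fld, occ_conj hK, mid_tr Γ (mass_occ hK c x _ _) (mass_occ hK c x _ _)]

theorem WE_cyc (h0 : 0 < δ0) (h : 0 < δ) (h1 : δ + δ0 ≤ 1) (c : G) (x : Fin (n + 1) → G)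
    (θ θ' : V (n + 1)) : WE Γ δ0 δ c (rotx c x) (rotθ θ) (rotθ θ') = WE Γ δ0 δ c x θ θ' := by
  simp only [WE, tp, fld, occ_cyc (kerK_step h0 h h1)]

theorem WE_face (c : G) (x : Fin (n + 2) → G) (p : Fin (n + 2)) (θ θ' : V (n + 1)) :
    WE Γ δ0 δ c x (faceθ p θ) (faceθ p θ') = WE Γ δ0 δ c (fun i => x (p.succAbove i)) θ θ' := by
  simp only [WE, tp, fld, occ_face]

theorem WE_UU (h0 : 0 < δ0) (h : 0 < δ) (h1 : 2 * δ + δ0 ≤ 1) (c : G) (x : Fin (n + 1) → G)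
    (θ : V (n + 1)) : UU (WE Γ δ0 δ c x) θ =
      avgΦ Γ (kerK δ0 (2 * δ)) c x θ - avgΦ Γ (kerK δ0 δ) c x θ := by
  have h2 : δ + δ0 ≤ 1 := by linarith
  have h3 : 0 < 2 * δ := by linarith
  have c1 := (phi_fld_smooth Γ h0 h h2 c x).continuous
  have c2 := (phi_fld_smooth Γ h0 h3 h1 c x).continuous
  rw [WE, UU_tp (smooth_mid Γ.smooth (fld_smooth' h0 h h2 c x))
    (timeInv Γ (kerK_step h0 h h2) c x), ← avg_shift Γ (kerK_step h0 h3 h1) c x θ δ, avgΦ,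
    ← intervalIntegral.integral_sub
      ((c2.comp' (f := fun φ : ℝ => (θ, φ + δ)) (by fun_prop)).intervalIntegrable 0 1)
      ((c1.comp' (f := fun φ : ℝ => (θ, φ)) (by fun_prop)).intervalIntegrable 0 1)]
  refine intervalIntegral.integral_congr fun φ _ => ?_
  simp only [fld, pr, occ_two_mul h0 h h1, map_add, map_smul, ← add_smul]
  norm_num
  ring

theorem WE_beta_le (h0 : 0 < δ0) (h : 0 < δ) (h1 : δ + δ0 ≤ 1) (c : G) (x : Fin (n + 1) → G)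
    (θ : V (n + 1)) (i : Fin (n + 1)) : |beta (WE Γ δ0 δ c x) θ (ev i)| ≤ slen ℓ c x i := by
  have h2 := fld_smooth' (ℓ := ℓ) h0 h h1 c x
  rw [WE, beta_tp (smooth_mid Γ.smooth h2), ← Real.norm_eq_abs]
  simp only [d2 Γ.smooth h2]
  refine (intervalIntegral.norm_integral_le_of_norm_le_const (C := slen ℓ c x i)
    fun φ _ => ?_).trans_eq (by simp)
  refine (intervalIntegral.norm_integral_le_of_norm_le_const (C := slen ℓ c x i * (1 / δ))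
    fun s _ => ?_).trans_eq (by rw [sub_zero, abs_of_pos h]; field_simp)
  rw [norm_neg, Real.norm_eq_abs]
  refine (Γ.grad_le _ _).trans ?_
  have h3 := aa_le' (ℓ := ℓ) h0 h h1 c x θ i (φ + s)
  rw [norm_smul, Real.norm_of_nonneg (by norm_num)]
  unfold aa at h3
  linarith [norm_nonneg (fderiv ℝ (fld (kerK δ0 δ) c x (xiD ℓ)) (θ, φ + s) (ev i, 0))]

theorem WE_hess_le (h0 : 0 < δ0) (h : 0 < δ) (h1 : δ + δ0 ≤ 1) (c : G) (x : Fin (n + 1) → G)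
    (θ : V (n + 1)) (i j : Fin (n + 1)) :
    |hess (WE Γ δ0 δ c x) θ (ev i) (ev j)| ≤ Γ.lam * slen ℓ c x i * slen ℓ c x j := by
  have h2 := per_deriv_continuous h0 h h1
  have hl := Γ.lam_pos.le
  rw [hess_eq Γ h0 h h1, ← Real.norm_eq_abs]
  refine (norm_integral_le_of_norm_le (g := fun p : ℝ × ℝ => Γ.lam * slen ℓ c x i *
    slen ℓ c x j / δ * per (deriv (kerK δ0 δ)) (p.1 - θ i)) (integrable_box δ (by fun_prop))
    (Filter.Eventually.of_forall fun p => ?_)).trans_eq ?_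
  · have h3 := abs_bilin_le (BB_symm Γ (δ0 := δ0) (δ := δ) c x θ p) (BB_nonneg Γ c x θ p) hl
      (BB_le Γ c x θ p) (aa ℓ δ0 δ c x θ (ev i) p.1) (aa ℓ δ0 δ c x θ (ev j) (p.1 + p.2))
    have h4 := mul_le_mul (mul_le_mul_of_nonneg_left (aa_le (ℓ := ℓ) h0 h h1 c x θ i p.1) hl)
      (aa_le' (ℓ := ℓ) h0 h h1 c x θ j (p.1 + p.2)) (norm_nonneg _)
      (mul_nonneg hl (mul_nonneg (Nat.cast_nonneg _) (per_nonneg _ _)))
    rw [norm_mul, Real.norm_of_nonneg (by norm_num), Real.norm_eq_abs]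
    refine (mul_le_of_le_one_left (abs_nonneg _) (by norm_num)).trans
      (h3.trans (h4.trans_eq (by ring)))
  · rw [integral_const_mul, int_per h0 h h1]
    field_simp

theorem WE_cost (h0 : 0 < δ0) (h : 0 < δ) (h1 : δ + δ0 ≤ 1) (c : G) (x : Fin (n + 1) → G)
    (θ : V (n + 1)) :
    Cost (Mb (WE Γ δ0 δ c x) θ) (fun i => Γ.lam * (slen ℓ c x i.succ : ℝ) ^ 2) 1 := by
  have h2 := per_deriv_continuous h0 h h1
  have h3 := BB_cont Γ h0 h h1 c x θ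
  have h4 := fun u => aa_cont (ℓ := ℓ) h0 h h1 c x θ u
  have hl := Γ.lam_pos.le
  have key := cost_integral (μ := box δ) (b := fun i : Fin n => Γ.lam * (slen ℓ c x i.succ : ℝ) ^ 2)
    _ _ (fun i j => integrable_box δ (by simp only [of_apply]; fun_prop))
    (fun i j => integrable_box δ (by simp only [of_apply]; fun_prop))
    (fun p i j => by simp only [of_apply, BB_symm Γ c x θ p (aa ℓ δ0 δ c x θ (ev i.succ) _)])
    (fun p : ℝ × ℝ => dom_gram (BB_symm Γ (δ0 := δ0) (δ := δ) c x θ p) (BB_nonneg Γ c x θ p)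
      (fun i : Fin n => aa ℓ δ0 δ c x θ (ev i.succ) p.1)
      (fun i : Fin n => aa ℓ δ0 δ c x θ (ev i.succ) (p.1 + p.2))) ?_
  · convert key using 1
    ext i j
    simp only [Mb, of_apply, hess_eq Γ h0 h h1]
    rw [integral_sub (integrable_box δ (by fun_prop)) (integrable_box δ (by fun_prop))]
  · intro i
    have hb : ∀ p φ, BB Γ δ0 δ c x θ p (aa ℓ δ0 δ c x θ (ev i.succ) φ)
        (aa ℓ δ0 δ c x θ (ev i.succ) φ) ≤ Γ.lam * (slen ℓ c x i.succ : ℝ) ^ 2 / δ *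
          per (deriv (kerK δ0 δ)) (φ - θ i.succ) := fun p φ => by
      refine (BB_le Γ c x θ p _).trans ?_
      have h5 := mul_le_mul (aa_le (ℓ := ℓ) h0 h h1 c x θ i.succ φ)
        (aa_le' (ℓ := ℓ) h0 h h1 c x θ i.succ φ) (norm_nonneg _)
        (mul_nonneg (Nat.cast_nonneg _) (per_nonneg _ _))
      rw [sq]
      exact (mul_le_mul_of_nonneg_left h5 hl).trans_eq (by ring)
    simp only [of_apply]
    refine (integral_mono (g := fun p : ℝ × ℝ => Γ.lam * (slen ℓ c x i.succ : ℝ) ^ 2 / δ / 4 *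
      (per (deriv (kerK δ0 δ)) (p.1 - θ i.succ) + per (deriv (kerK δ0 δ)) (p.1 + p.2 - θ i.succ)))
      (integrable_box δ (by fun_prop)) (integrable_box δ (by fun_prop)) fun p => ?_).trans ?_
    · have h5 := add_le_add (hb p p.1) (hb p (p.1 + p.2))
      dsimp only
      linarith
    · rw [integral_const_mul, integral_add (integrable_box δ (by fun_prop))
        (integrable_box δ (by fun_prop)), int_per h0 h h1, int_per' h0 h h1]
      have h5 : 0 ≤ Γ.lam * (slen ℓ c x i.succ : ℝ) ^ 2 := by positivity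
      have h6 : Γ.lam * (slen ℓ c x i.succ : ℝ) ^ 2 / δ / 4 * (δ + δ) =
          Γ.lam * (slen ℓ c x i.succ : ℝ) ^ 2 / 2 := by field_simp; ring
      linarith

end Crest.Agent.R192
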