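import Crest.Agent.R192.Defs

/-! Row 192: Pfaffians. -/

set_option autoImplicit false

namespace Crest.Agent.R192

open Crest.AlgebraR.L1 MeasureTheory Matrix
open scoped ContDiff BoundedContinuousFunction

namespace PfAux

/-- pairs of slots -/
def slE (j : ℕ) : Fin 2 × Fin (j + 1) ≃ Fin (2 * j + 2) where
  toFun p := ⟨2 * p.2 + p.1, by omega⟩
  invFun r := (⟨r % 2, by omega⟩, ⟨r / 2, by omega⟩)
  left_inv p := by
    ext
    · simp only
      omega
    · simp only
      omega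
  right_inv r := by
    ext
    simp only
    omega

theorem slE_zero {j : ℕ} (a : Fin (j + 1)) : slE j (0, a) = sl0 a := rfl
theorem slE_one {j : ℕ} (a : Fin (j + 1)) : slE j (1, a) = sl1 a := rfl

theorem expand {j : ℕ} {ι : Type} [Fintype ι] (x : Fin (2 * j + 2) → ι → ℝ) (M : ι → ι → ℝ) :
    ∏ a : Fin (j + 1), ∑ l, (∑ k, x (sl0 a) k * M k l) * x (sl1 a) l =
      ∑ f : Fin (2 * j + 2) → ι, (∏ i, x i (f i)) * ∏ a, M (f (sl0 a)) (f (sl1 a)) := by
  classical
  have h1 : ∀ a : Fin (j + 1), ∑ l, (∑ k, x (sl0 a) k * M k l) * x (sl1 a) l =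
      ∑ g : Fin 2 → ι, x (sl0 a) (g 0) * x (sl1 a) (g 1) * M (g 0) (g 1) := by
    intro a
    rw [← (piFinTwoEquiv fun _ => ι).symm.sum_comp, Fintype.sum_prod_type, Finset.sum_comm]
    refine Finset.sum_congr rfl fun l _ => ?_
    rw [Finset.sum_mul]
    refine Finset.sum_congr rfl fun k _ => ?_
    simp
    ring
  simp only [h1]
  rw [Finset.prod_univ_sum, Fintype.piFinset_univ]
  symm
  refine Fintype.sum_equiv (((slE j).symm.arrowCongr (Equiv.refl ι)).trans
    ((Equiv.curry _ _ _).trans (Equiv.piComm _))) _ _ fun f => ?_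
  rw [← (slE j).prod_comp, Fintype.prod_prod_type, Fin.prod_univ_two, ← Finset.prod_mul_distrib,
    ← Finset.prod_mul_distrib]
  rfl

/-- normal form of skew matrices -/
theorem normal {ι : Type} [DecidableEq ι] (k : ℕ) : ∀ (M : ι → ι → ℝ) (S : Finset ι),
    (∀ x y, M y x = -M x y) → (∀ x y, x ∉ S → M x y = 0) → S.card ≤ 2 * k + 1 →
    ∃ p q : Fin k → ι → ℝ, ∀ x y, M x y = ∑ a, (p a x * q a y - q a x * p a y) := by
  have key : ∀ (M : ι → ι → ℝ) (S : Finset ι), (∀ x y, M y x = -M x y) →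
      (∀ x y, x ∉ S → M x y = 0) → ∀ x y, M x y ≠ 0 → x ∈ S ∧ y ∈ S.erase x := by
    intro M S h1 h2 x y h
    refine ⟨by_contra fun hx => h (h2 x y hx), Finset.mem_erase.2 ⟨?_, by_contra fun hy => h ?_⟩⟩
    · rintro rfl
      exact h (by linarith [h1 y y])
    · rw [h1, h2 y x hy, neg_zero]
  induction k with
  | zero =>
    intro M S h1 h2 hS
    refine ⟨Fin.elim0, Fin.elim0, fun x y => by_contra fun h => ?_⟩
    obtain ⟨hx, hy⟩ := key M S h1 h2 x y (by simpa using h)
    have h3 := Finset.card_pos.2 ⟨y, hy⟩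
    rw [Finset.card_erase_of_mem hx] at h3
    omega
  | succ k ih =>
    intro M S h1 h2 hS
    by_cases h : ∀ x y, M x y = 0
    · exact ⟨0, 0, fun x y => by simp [h]⟩
    push Not at h
    obtain ⟨u, v, h⟩ := h
    obtain ⟨hu, hv⟩ := key M S h1 h2 u v h
    have huu : M u u = 0 := by linarith [h1 u u]
    have hvv : M v v = 0 := by linarith [h1 v v]
    obtain ⟨p, q, hpq⟩ := ih (fun x y => M x y - (M x v / M u v * M u y - M u x * (M y v / M u v)))
      ((S.erase u).erase v) (fun x y => by rw [h1 x y]; ring) (fun x y hx => by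
        by_cases h3 : x = u
        · rw [h3, huu]
          field_simp
          ring
        by_cases h4 : x = v
        · rw [h4, hvv, h1 y v]
          field_simp
          ring
        have h5 : x ∉ S := by simpa [h3, h4] using hx
        rw [h1 x u, h2 x y h5, h2 x v h5, h2 x u h5]
        ring) (by rw [Finset.card_erase_of_mem hv, Finset.card_erase_of_mem hu]; omega)
    refine ⟨Fin.cons (fun x => M x v / M u v) p, Fin.cons (M u) q, fun x y => ?_⟩
    rw [Fin.sum_univ_succ]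
    simp only [Fin.cons_zero, Fin.cons_succ, ← hpq]
    ring

/-- the standard block matrix -/
def J0 (j : ℕ) : Matrix (Fin 2 × Fin (j + 1)) (Fin 2 × Fin (j + 1)) ℝ :=
  blockDiagonal fun _ => !![0, 1; -1, 0]

def JJ (j : ℕ) : Matrix (Fin (2 * j + 2)) (Fin (2 * j + 2)) ℝ :=
  (J0 j).submatrix (slE j).symm (slE j).symm

theorem det_JJ (j : ℕ) : (JJ j).det = 1 := by
  rw [JJ, det_submatrix_equiv_self, J0, det_blockDiagonal]
  simp

theorem exists_congr (j : ℕ) (M : Matrix (Fin (2 * j + 2)) (Fin (2 * j + 2)) ℝ) (hM : Mᵀ = -M) :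
    ∃ B : Matrix (Fin (2 * j + 2)) (Fin (2 * j + 2)) ℝ, M = Bᵀ * JJ j * B := by
  obtain ⟨p, q, h⟩ := normal (j + 1) M Finset.univ (fun x y => congrFun (congrFun hM x) y)
    (fun x y hx => absurd (Finset.mem_univ x) hx) (by simp)
  refine ⟨Matrix.of fun r => ![p ((slE j).symm r).2, q ((slE j).symm r).2] ((slE j).symm r).1, ?_⟩
  ext x y
  simp only [h, mul_apply, ← (slE j).sum_comp, JJ, submatrix_apply, Equiv.symm_apply_apply,
    transpose_apply, of_apply, Fintype.sum_prod_type, Fin.sum_univ_two, J0, blockDiagonal_apply]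
  simp [Finset.sum_add_distrib, sub_eq_neg_add]

theorem term_nonneg (j : ℕ) (σ : Equiv.Perm (Fin 2 × Fin (j + 1))) :
    0 ≤ ((Equiv.Perm.sign σ : ℤ) : ℝ) * ∏ a, J0 j (σ (0, a)) (σ (1, a)) := by
  by_cases h : ∃ a, J0 j (σ (0, a)) (σ (1, a)) = 0
  · obtain ⟨a, ha⟩ := h
    rw [Finset.prod_eq_zero (Finset.mem_univ a) ha, mul_zero]
  push Not at h
  have h1 : ∀ u v, J0 j u v ≠ 0 → v = (Equiv.swap 0 1 u.1, u.2) := by
    rintro ⟨b, a⟩ ⟨b', a'⟩ huv
    simp only [J0, blockDiagonal_apply] at huv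
    split_ifs at huv with h2
    · subst h2
      fin_cases b <;> fin_cases b' <;> simp_all
    · exact absurd rfl huv
  set s : Fin (j + 1) → Equiv.Perm (Fin 2) :=
    fun a => if (σ (0, a)).1 = 0 then 1 else Equiv.swap 0 1 with hs
  have h2 : ∀ b a, σ (b, a) = (s a b, (σ (0, a)).2) := by
    intro b a
    have h3 := h1 _ _ (h a)
    simp only [hs]
    generalize hu : σ (0, a) = u at h3
    obtain ⟨b', a'⟩ := u
    fin_cases b <;> fin_cases b' <;> simp [hu, h3]
  have h3 : Function.Injective fun a => (σ (0, a)).2 := fun a a' haa => by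
    have h4 : σ ((s a).symm (s a' 0), a) = σ (0, a') := by
      rw [h2, h2 0 a', Equiv.apply_symm_apply]
      exact Prod.ext rfl haa
    exact congrArg Prod.snd (σ.injective h4)
  have h4 : σ = (Equiv.prodCongrRight fun _ => Equiv.ofBijective _
      (Finite.injective_iff_bijective.1 h3)) * Equiv.prodCongrLeft s :=
    Equiv.ext fun x => h2 x.1 x.2
  have h5 : ∀ a, J0 j (σ (0, a)) (σ (1, a)) = ((Equiv.Perm.sign (s a) : ℤ) : ℝ) := by
    intro a
    rw [h2 1 a, h2 0 a]
    simp only [J0, blockDiagonal_apply, if_true, hs]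
    split_ifs <;> simp
  have h6 : Equiv.Perm.sign σ = ∏ a, Equiv.Perm.sign (s a) := by
    rw [h4, map_mul, Equiv.Perm.sign_prodCongrRight, Equiv.Perm.sign_prodCongrLeft,
      Fin.prod_univ_two, Int.units_mul_self, one_mul]
  simp only [h5, h6, Units.coe_prod, Int.cast_prod]
  exact mul_self_nonneg _

theorem pfP_JJ_pos (j : ℕ) : 0 < pfP j (JJ j) := by
  refine Finset.sum_pos' (fun σ _ => ?_) ⟨1, Finset.mem_univ _, ?_⟩
  · have := term_nonneg j ((slE j).symm.permCongr σ)
    rwa [Equiv.Perm.sign_permCongr] at this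
  · simp [JJ, ← slE_zero, ← slE_one, J0]

theorem det_omega_add_two (d : ℕ) : (omega (d + 2)).det = (omega d).det := by
  rw [det_succ_row_zero, Fin.sum_univ_succ, Fin.sum_univ_succ, Finset.sum_eq_zero
    (by intro i _; simp [omega]), show omega (d + 2) 0 0 = 0 by simp [omega], mul_zero, zero_mul,
    det_succ_column_zero, Fin.sum_univ_succ, Finset.sum_eq_zero
    (by intro i _; simp [omega])]
  have : ((omega (d + 2)).submatrix Fin.succ (Fin.succ 0).succAbove).submatrix
      (Fin.succAbove 0) Fin.succ = omega d := by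
    ext i j
    simp [omega]
  rw [this]
  simp [omega]

theorem det_omega (k : ℕ) : (omega (2 * k)).det = 1 := by
  induction k with
  | zero => exact det_fin_zero
  | succ k ih => exact (det_omega_add_two (2 * k)).trans ih

end PfAux

open PfAux

theorem omega_transpose (d : ℕ) : (omega d)ᵀ = -omega d := by
  ext i j
  simp [omega]

theorem pfP_congr (j : ℕ) (M B : Matrix (Fin (2 * j + 2)) (Fin (2 * j + 2)) ℝ) :
    pfP j (Bᵀ * M * B) = B.det * pfP j M := by
  have h1 : ∀ σ : Equiv.Perm (Fin (2 * j + 2)),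
      ∏ a : Fin (j + 1), (Bᵀ * M * B) (σ (sl0 a)) (σ (sl1 a)) =
      ∑ f : Fin (2 * j + 2) → Fin (2 * j + 2),
        (∏ i, B (f i) (σ i)) * ∏ a, M (f (sl0 a)) (f (sl1 a)) := fun σ =>
    expand (fun i k => B k (σ i)) M
  have h2 : ∀ f : Fin (2 * j + 2) → Fin (2 * j + 2), ∑ σ : Equiv.Perm (Fin (2 * j + 2)),
      ((Equiv.Perm.sign σ : ℤ) : ℝ) * ∏ i, B (f i) (σ i) = (B.submatrix f id).det := fun f => by
    rw [← det_transpose, det_apply']
    rfl
  simp only [pfP, h1, Finset.mul_sum, ← mul_assoc]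
  rw [Finset.sum_comm]
  simp only [← Finset.sum_mul, h2]
  symm
  refine Fintype.sum_of_injective (fun σ : Equiv.Perm (Fin (2 * j + 2)) => ⇑σ)
    DFunLike.coe_injective _ _ (fun f hf => ?_) fun σ => ?_
  · have h3 : ¬ Function.Injective f := fun h =>
      hf ⟨Equiv.ofBijective f (Finite.injective_iff_bijective.1 h), rfl⟩
    obtain ⟨u, v, h4, h5⟩ := Function.not_injective_iff.1 h3
    rw [det_zero_of_row_eq h5 (by ext; simp [h4]), zero_mul]
  · rw [det_permute, mul_comm B.det]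

theorem pfP_sq_JJ (j : ℕ) (M : Matrix (Fin (2 * j + 2)) (Fin (2 * j + 2)) ℝ) (hM : Mᵀ = -M) :
    pfP j M ^ 2 = pfP j (JJ j) ^ 2 * M.det := by
  obtain ⟨B, rfl⟩ := exists_congr j M hM
  rw [pfP_congr, det_mul, det_mul, det_transpose, det_JJ]
  ring

theorem pfP_omega_sq (j : ℕ) : pfP j (omega (2 * j + 2)) ^ 2 = pfP j (JJ j) ^ 2 := by
  rw [pfP_sq_JJ j _ (omega_transpose _), det_omega_add_two, det_omega, mul_one]

theorem pfP_omega_ne_zero (j : ℕ) : pfP j (omega (2 * j + 2)) ≠ 0 := by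
  intro h
  have h1 := pfP_omega_sq j
  have h2 := pfP_JJ_pos j
  rw [h] at h1
  nlinarith

theorem pfP_sq (j : ℕ) (M : Matrix (Fin (2 * j + 2)) (Fin (2 * j + 2)) ℝ) (hM : Mᵀ = -M) :
    pfP j M ^ 2 = pfP j (omega (2 * j + 2)) ^ 2 * M.det := by
  rw [pfP_omega_sq, pfP_sq_JJ j M hM]

end Crest.Agent.R192
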