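import Crest.Agent.R192.Conn
import Crest.Agent.R192.Cost
import Crest.Agent.R192.Pf

/-! Row 192: pointwise bounds for the normalised connection. -/

set_option autoImplicit false

namespace Crest.Agent.R192

open Crest.AlgebraR.L1 MeasureTheory Matrix
open scoped ContDiff BoundedContinuousFunction

namespace Gen1Aux

theorem sum_single {n : ℕ} (i : Fin (n + 1)) (f : Fin (n + 1) → ℝ) :
    ∑ k, (ev i : V (n + 1)) k * f k = f i := by
  simp [Pi.single_apply]

theorem abs_dU_le {n : ℕ} {W : TwoPt n} (h : Smooth2 W) (hr : RotInv W) {θ : V (n + 1)}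
    {s : Fin (n + 1) → ℝ} {T K : ℝ} (he : Ent W θ s T K) (i : Fin (n + 1)) :
    |fderiv ℝ (UU W) θ (ev i)| ≤
      2 * (K * ((1 + T) * (1 + s i)) * ∑ k, (1 + T) * (1 + s k)) := by
  have h1 : hess W θ (ev i) 1 = ∑ k, hess W θ (ev i) (ev k) := by
    rw [hess_eq_sum h]
    simp only [Pi.one_apply, mul_one, ← Finset.mul_sum]
    exact sum_single i _
  have h2 : hess W θ 1 (ev i) = ∑ k, hess W θ (ev k) (ev i) := by
    rw [hess_eq_sum h]
    simp only [Pi.one_apply, one_mul]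
    exact Finset.sum_congr rfl fun k _ => sum_single i _
  have h3 : |hess W θ (ev i) 1| ≤ K * ((1 + T) * (1 + s i)) * ∑ k, (1 + T) * (1 + s k) := by
    rw [h1, Finset.mul_sum]
    exact (Finset.abs_sum_le_sum_abs _ _).trans (Finset.sum_le_sum fun k _ => he.hess_le i k)
  have h4 : |hess W θ 1 (ev i)| ≤ K * ((1 + T) * (1 + s i)) * ∑ k, (1 + T) * (1 + s k) := by
    rw [h2, Finset.mul_sum]
    exact (Finset.abs_sum_le_sum_abs _ _).trans
      (Finset.sum_le_sum fun k _ => (he.hess_le k i).trans (le_of_eq (by ring)))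
  rw [fderiv_UU h hr]
  linarith [abs_sub (hess W θ (ev i) 1) (hess W θ 1 (ev i))]

theorem abs_div_le {a U b : ℝ} (hU : 1 ≤ U) (h : |a| ≤ b) : |a / U| ≤ b := by
  rw [abs_div, abs_of_pos (by linarith : 0 < U)]
  exact (div_le_self (abs_nonneg _) hU).trans h

theorem one_add_le {g x : ℝ} (hg : 0 < g) (hg1 : g ≤ 1) : 1 + x ≤ g⁻¹ * Real.exp (g * x) := by
  rw [← div_eq_inv_mul, le_div_iff₀ hg]
  linarith [Real.add_one_le_exp (g * x)]

end Gen1Aux

open Gen1Aux

theorem ent_bound {n : ℕ} {W : TwoPt n} (h : Smooth2 W) (hr : RotInv W) {y : V n}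
    (hy : y ∈ simplex n) {s : Fin (n + 1) → ℝ} {T K : ℝ} (hs : ∀ i, 0 ≤ s i) (hT : 0 ≤ T)
    (hK : 0 ≤ K) (he : Ent W (gemb n y) s T K) :
    (∀ i, |bg W y (ev i)| ≤ 8 * (n + 1) * (1 + K) ^ 2 * ((1 + T) * (1 + ∑ i, s i)) ^ 3) ∧
      ∀ i i', |curv (bg W) y i i'| ≤
        8 * (n + 1) * (1 + K) ^ 2 * ((1 + T) * (1 + ∑ i, s i)) ^ 3 := by
  have hU := he.one_le
  have hS : 0 ≤ ∑ i, s i := Finset.sum_nonneg fun i _ => hs i
  set Q := (1 + T) * (1 + ∑ i, s i) with hQ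
  have hQ1 : 1 ≤ Q := one_le_mul_of_one_le_of_one_le (by linarith) (by linarith)
  have hq : ∀ i, (1 + T) * (1 + s i) ≤ Q := fun i => mul_le_mul_of_nonneg_left
    (by linarith [Finset.single_le_sum (fun i _ => hs i) (Finset.mem_univ i)]) (by linarith)
  have hq0 : ∀ i, 0 ≤ (1 + T) * (1 + s i) := fun i => by have := hs i; positivity
  have hb : ∀ i, |beta W (gemb n y) (ev i) / UU W (gemb n y)| ≤ K * Q := fun i =>
    abs_div_le hU ((he.beta_le i).trans (mul_le_mul_of_nonneg_left (hq i) hK))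
  have hh : ∀ i k, |hess W (gemb n y) (ev i) (ev k)| ≤ K * Q * Q := fun i k =>
    (he.hess_le i k).trans (mul_le_mul (mul_le_mul_of_nonneg_left (hq i) hK) (hq k) (hq0 k)
      (by positivity))
  have hd : ∀ i, |fderiv ℝ (UU W) (gemb n y) (ev i) / UU W (gemb n y)|
      ≤ 2 * (K * Q * ((n + 1) * Q)) := fun i => by
    refine abs_div_le hU ((abs_dU_le h hr he i).trans ?_)
    have h1 : ∑ k, (1 + T) * (1 + s k) ≤ (n + 1) * Q := by
      simpa using Finset.sum_le_card_nsmul Finset.univ _ Q fun k _ => hq k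
    have h2 : 0 ≤ ∑ k, (1 + T) * (1 + s k) := Finset.sum_nonneg fun k _ => hq0 k
    have h3 := hq i
    gcongr
  have hn : (1 : ℝ) ≤ n + 1 := by linarith [Nat.cast_nonneg (α := ℝ) n]
  have q1 : Q ≤ Q ^ 3 := le_self_pow₀ hQ1 (by norm_num)
  have q2 : Q * Q ≤ Q ^ 3 := by rw [← sq]; exact pow_le_pow_right₀ hQ1 (by norm_num)
  have q3 : Q ^ 3 ≤ (n + 1) * Q ^ 3 := le_mul_of_one_le_left (by positivity) hn
  set X := ((n : ℝ) + 1) * Q ^ 3 with hX
  have hX1 : 1 ≤ X := hQ1.trans (q1.trans q3)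
  have e : 8 * ((n : ℝ) + 1) * (1 + K) ^ 2 * Q ^ 3 = 8 * X + 16 * (K * X) + 8 * (K ^ 2 * X) := by
    rw [hX]; ring
  have k1 : K * Q ≤ K * X := mul_le_mul_of_nonneg_left (q1.trans q3) hK
  have k2 : K * Q * Q ≤ K * X := by
    rw [mul_assoc]; exact mul_le_mul_of_nonneg_left (q2.trans q3) hK
  have k3 : 0 ≤ K * X := by positivity
  have k4 : 0 ≤ K ^ 2 * X := by positivity
  rw [e]
  refine ⟨fun i => ?_, fun i k => ?_⟩
  · rw [bg_apply (by linarith), ← div_eq_inv_mul]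
    have h1 := abs_beta_stdW_le hy i.succ
    have h2 := abs_sub (beta W (gemb n y) (ev i.succ) / UU W (gemb n y))
      (beta (stdW n) (gemb n y) (ev i.succ))
    linarith [hb i.succ]
  · have h1 := congrFun (congrFun (curv_bg h (y := y) (by linarith)) i) k
    simp only [Matrix.add_apply, Matrix.sub_apply, Matrix.smul_apply, Mb, Matrix.of_apply,
      vecMulVec_apply, smul_eq_mul, ← div_eq_inv_mul] at h1
    have h2 : |omega n i k| ≤ 1 := by
      simp only [omega, Matrix.of_apply]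
      split_ifs <;> simp
    have h3 := abs_le.1 (abs_div_le hU ((abs_sub _ _).trans
      (add_le_add (hh i.succ k.succ) (hh k.succ i.succ))))
    have hp : ∀ a b, |fderiv ℝ (UU W) (gemb n y) (ev a) / UU W (gemb n y) *
        (beta W (gemb n y) (ev b) / UU W (gemb n y))| ≤ 2 * (K ^ 2 * X) := fun a b => by
      rw [abs_mul]
      refine (mul_le_mul (hd a) (hb b) (abs_nonneg _) (by positivity)).trans (le_of_eq ?_)
      rw [hX]; ring
    have h4 := abs_le.1 (hp i.succ k.succ)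
    have h5 := abs_le.1 (hp k.succ i.succ)
    have h6 := abs_le.1 h2
    rw [abs_le]
    constructor <;> linarith [h3.1, h3.2, h4.1, h4.2, h5.1, h5.2, h6.1, h6.2]

theorem pf_bound {j : ℕ} {W : TwoPt (2 * j + 2)} (h : Smooth2 W) (hr : RotInv W)
    {y : V (2 * j + 2)} {s : Fin (2 * j + 2 + 1) → ℝ} {T K ε F γ : ℝ} (hs : ∀ i, 0 ≤ s i)
    (hT : T = (∑ i, s i) / (2 * j + 2)) (hK : 0 ≤ K) (hε : 0 < ε) (hγ : 0 < γ) (hγ1 : γ ≤ 1)
    (he : Ent W (gemb _ y) s T K)
    (hc : Cost (Mb W (gemb _ y)) (fun i => ε * (1 + T) * (1 + s i.succ) ^ 2) F) :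
    |pfP j (omega (2 * j + 2) + curv (bg W) y)| ≤ |pfP j (omega (2 * j + 2))| *
      (√F * (1 + 4 * K ^ 2 * (2 * j + 3) ^ 3 / ε) * (2 * ε * (4 / γ) ^ 8) ^ (j + 1)) *
      Real.exp (γ * ∑ i, s i) := by
  have hU := he.one_le
  have hS : 0 ≤ ∑ i, s i := Finset.sum_nonneg fun i _ => hs i
  set S := ∑ i, s i with hSdef
  have hj : (0 : ℝ) ≤ j := Nat.cast_nonneg j
  have hST : S = (2 * j + 2) * T := by rw [hT]; field_simp
  have hT0 : 0 ≤ T := by rw [hT]; positivity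
  set θ := gemb (2 * j + 2) y
  set A : ℝ := 4 * K ^ 2 * (2 * j + 3) ^ 2 * (1 + T) ^ 5 / ε with hA
  have hA0 : 0 ≤ A := by positivity
  have hAb : ∀ i : Fin (2 * j + 2 + 1), A * (ε * (1 + T) * (1 + s i) ^ 2) =
      (2 * (K * ((1 + T) * (1 + s i)) * ((1 + T) * ((2 * j + 3) * (1 + T))))) ^ 2 := fun i => by
    rw [hA]; field_simp; ring
  have hsum : ∑ k, (1 + T) * (1 + s k) ≤ (1 + T) * ((2 * j + 3) * (1 + T)) := by
    rw [← Finset.mul_sum, Finset.sum_add_distrib]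
    refine mul_le_mul_of_nonneg_left ?_ (by linarith)
    simp only [Finset.sum_const, Finset.card_univ, Fintype.card_fin, nsmul_eq_mul, mul_one]
    push_cast
    rw [← hSdef, hST]
    nlinarith
  have hq0 : ∀ i, 0 ≤ K * ((1 + T) * (1 + s i)) := fun i => by have := hs i; positivity
  have hone : 1 ≤ (1 + T) * ((2 * j + 3) * (1 + T)) := one_le_mul_of_one_le_of_one_le (by linarith)
    (one_le_mul_of_one_le_of_one_le (by linarith) (by linarith))
  have c1 : Cost ((UU W θ)⁻¹ • Mb W θ) (fun i => ε * (1 + T) * (1 + s i.succ) ^ 2) F :=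
    (hc.smul (inv_pos.2 (by linarith))).mono
      (fun i => mul_le_of_le_one_left (by positivity) (inv_le_one_of_one_le₀ hU)) le_rfl
  have c2 := Cost.rank2 (fun i : Fin (2 * j + 2) => fderiv ℝ (UU W) θ (ev i.succ) / UU W θ)
    (fun i => beta W θ (ev i.succ) / UU W θ) (fun i => ε * (1 + T) * (1 + s i.succ) ^ 2) hA0
    (fun i => by have := hs i.succ; positivity)
    (fun i => by
      rw [hAb, ← sq_abs]
      refine pow_le_pow_left₀ (abs_nonneg _) (abs_div_le hU ((abs_dU_le h hr he _).trans ?_)) 2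
      exact mul_le_mul_of_nonneg_left (mul_le_mul_of_nonneg_left hsum (hq0 _)) zero_le_two)
    (fun i => by
      rw [hAb, ← sq_abs]
      refine pow_le_pow_left₀ (abs_nonneg _) (abs_div_le hU ((he.beta_le _).trans ?_)) 2
      nlinarith [hq0 i.succ, mul_le_mul_of_nonneg_left hone (hq0 i.succ)])
  have c3 := (c1.add c2.neg).abs_det_le
  rw [← sub_eq_add_neg, ← curv_bg h (by linarith), Fintype.card_fin] at c3
  have hF := hc.nonneg.1
  set M := omega (2 * j + 2) + curv (bg W) y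
  have hM : Mᵀ = -M := by
    rw [transpose_add, omega_transpose, neg_add]
    congr 1
    ext a b
    simp [curv]
  set Pr := ∏ i : Fin (2 * j + 2), (1 + s i.succ) with hPr
  have hPr0 : 0 ≤ Pr := Finset.prod_nonneg fun i _ => by linarith [hs i.succ]
  have e1 : ∏ i : Fin (2 * j + 2), (ε * (1 + T) * (1 + s i.succ) ^ 2 +
      ε * (1 + T) * (1 + s i.succ) ^ 2) = ((2 * ε * (1 + T)) ^ (j + 1) * Pr) ^ 2 := by
    rw [mul_pow, ← pow_mul, hPr, ← Finset.prod_pow,
      show (j + 1) * 2 = (Finset.univ : Finset (Fin (2 * j + 2))).card by simp; ring,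
      ← Finset.prod_const, ← Finset.prod_mul_distrib]
    exact Finset.prod_congr rfl fun i _ => by ring
  rw [e1] at c3
  push_cast at c3
  have b1 : |pfP j M| ≤ |pfP j (omega (2 * j + 2))| *
      (√F * (1 + (2 * j + 2) * A) * ((2 * ε * (1 + T)) ^ (j + 1) * Pr)) := by
    refine (pow_le_pow_iff_left₀ (abs_nonneg _) (by positivity) two_ne_zero).1 ?_
    rw [sq_abs, pfP_sq j M hM, mul_pow, sq_abs, mul_pow, mul_pow, Real.sq_sqrt hF.le]
    exact mul_le_mul_of_nonneg_left ((le_abs_self _).trans c3) (sq_nonneg _)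
  refine b1.trans ?_
  rw [mul_assoc |_|]
  refine mul_le_mul_of_nonneg_left ?_ (abs_nonneg _)
  set g := γ / 4 with hg
  have hg0 : 0 < g := by positivity
  have hg1 : g ≤ 1 := by linarith
  have hgi : 1 ≤ g⁻¹ := (one_le_inv₀ hg0).2 hg1
  set B : ℝ := 1 + 4 * K ^ 2 * (2 * j + 3) ^ 3 / ε with hB
  have d1 : 1 + (2 * j + 2) * A ≤ B * (1 + T) ^ 5 := by
    have h1 : 1 ≤ (1 + T) ^ 5 := one_le_pow₀ (by linarith)
    have h2 : (2 * j + 2) * A ≤ (2 * j + 3) * A := mul_le_mul_of_nonneg_right (by linarith) hA0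
    have h3 : B * (1 + T) ^ 5 = (1 + T) ^ 5 + (2 * j + 3) * A := by rw [hB, hA]; ring
    linarith
  have d2 : (1 + T) ^ (j + 6) ≤ g⁻¹ ^ (j + 6) * Real.exp (3 * (g * S)) := by
    refine (pow_le_pow_left₀ (by linarith) (one_add_le hg0 hg1) _).trans ?_
    rw [mul_pow, ← Real.exp_nat_mul]
    refine mul_le_mul_of_nonneg_left (Real.exp_le_exp.2 ?_) (by positivity)
    rw [hST]
    push_cast
    nlinarith [mul_nonneg hj (mul_nonneg hg0.le hT0)]
  have d3 : Pr ≤ g⁻¹ ^ (2 * j + 2) * Real.exp (g * S) := by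
    refine (Finset.prod_le_prod (fun i _ => by linarith [hs i.succ])
      fun i _ => one_add_le (x := s i.succ) hg0 hg1).trans ?_
    rw [Finset.prod_mul_distrib, Finset.prod_const, Finset.card_univ, Fintype.card_fin,
      ← Real.exp_sum, ← Finset.mul_sum]
    refine mul_le_mul_of_nonneg_left (Real.exp_le_exp.2
      (mul_le_mul_of_nonneg_left ?_ hg0.le)) (by positivity)
    rw [hSdef, Fin.sum_univ_succ s]
    linarith [hs 0]
  have d4 : (1 + T) ^ (j + 6) * Pr ≤ (g⁻¹ ^ 8) ^ (j + 1) * Real.exp (γ * S) := by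
    refine (mul_le_mul d2 d3 hPr0 (by positivity)).trans ?_
    rw [mul_mul_mul_comm, ← Real.exp_add, ← pow_add, ← pow_mul,
      show 3 * (g * S) + g * S = γ * S by rw [hg]; ring]
    exact mul_le_mul_of_nonneg_right (pow_le_pow_right₀ hgi (by omega)) (Real.exp_pos _).le
  have hB0 : 0 ≤ B := by positivity
  rw [show 4 / γ = g⁻¹ by rw [hg, inv_div]]
  calc √F * (1 + (2 * j + 2) * A) * ((2 * ε * (1 + T)) ^ (j + 1) * Pr)
      ≤ √F * (B * (1 + T) ^ 5) * ((2 * ε * (1 + T)) ^ (j + 1) * Pr) := by gcongr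
    _ = √F * B * (2 * ε) ^ (j + 1) * ((1 + T) ^ (j + 6) * Pr) := by rw [mul_pow (2 * ε)]; ring
    _ ≤ √F * B * (2 * ε) ^ (j + 1) * ((g⁻¹ ^ 8) ^ (j + 1) * Real.exp (γ * S)) := by gcongr
    _ = _ := by rw [mul_pow (2 * ε)]; ring

end Crest.Agent.R192
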