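import Crest.Agent.R192.Defs

/-! Row 192: pairing cochains with the idempotent. -/

set_option autoImplicit false

namespace Crest.Agent.R192

open Crest.AlgebraR.L1 MeasureTheory Matrix
open scoped ContDiff BoundedContinuousFunction

namespace PairAux

/-- entrywise `ℓ¹` norm -/
noncomputable def mn {q : ℕ} (X : Matrix (Fin q) (Fin q) ℂ) : ℝ := ∑ i, ∑ j, ‖X i j‖

theorem mn_nonneg {q : ℕ} (X : Matrix (Fin q) (Fin q) ℂ) : 0 ≤ mn X :=
  Finset.sum_nonneg fun _ _ => Finset.sum_nonneg fun _ _ => norm_nonneg _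

theorem norm_trace_le {q : ℕ} (X : Matrix (Fin q) (Fin q) ℂ) : ‖X.trace‖ ≤ mn X :=
  (norm_sum_le _ _).trans (Finset.sum_le_sum fun i _ =>
    Finset.single_le_sum (f := fun j => ‖X i j‖) (fun _ _ => norm_nonneg _) (Finset.mem_univ i))

theorem mn_mul_le {q : ℕ} (X Y : Matrix (Fin q) (Fin q) ℂ) : mn (X * Y) ≤ mn X * mn Y := by
  rw [mn, mn, Finset.sum_mul]
  refine Finset.sum_le_sum fun i _ => ?_
  calc ∑ j, ‖(X * Y) i j‖ ≤ ∑ j, ∑ k, ‖X i k‖ * ‖Y k j‖ := Finset.sum_le_sum fun j _ => by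
        rw [Matrix.mul_apply]
        exact (norm_sum_le _ _).trans_eq (Finset.sum_congr rfl fun k _ => norm_mul _ _)
    _ = ∑ k, ‖X i k‖ * ∑ j, ‖Y k j‖ := by
        rw [Finset.sum_comm]
        simp only [Finset.mul_sum]
    _ ≤ ∑ k, ‖X i k‖ * mn Y := Finset.sum_le_sum fun k _ => mul_le_mul_of_nonneg_left
        (Finset.single_le_sum (f := fun k => ∑ j, ‖Y k j‖)
          (fun _ _ => Finset.sum_nonneg fun _ _ => norm_nonneg _) (Finset.mem_univ k))
        (norm_nonneg _)
    _ = _ := (Finset.sum_mul ..).symm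

theorem mn_prod_le {q m : ℕ} (X : Fin (m + 1) → Matrix (Fin q) (Fin q) ℂ) :
    mn (List.ofFn X).prod ≤ ∏ i, mn (X i) := by
  induction m with
  | zero => simp
  | succ m ih =>
    rw [List.ofFn_succ, List.prod_cons, Fin.prod_univ_succ]
    exact (mn_mul_le _ _).trans (mul_le_mul_of_nonneg_left (ih _) (mn_nonneg _))

theorem sum_prod_le {G : Type} {w : G → ℝ} (h0 : ∀ a, 0 ≤ w a) (hw : Summable w) (m : ℕ)
    (S : Finset (Fin m → G)) : ∑ s ∈ S, ∏ i, w (s i) ≤ (∑' a, w a) ^ m := by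
  classical
  have h1 : S ⊆ Fintype.piFinset fun _ => S.biUnion fun s => Finset.univ.image s :=
    fun s hs => Fintype.mem_piFinset.2 fun i =>
      Finset.mem_biUnion.2 ⟨s, hs, Finset.mem_image_of_mem _ (Finset.mem_univ i)⟩
  refine (Finset.sum_le_sum_of_subset_of_nonneg h1
    fun s _ _ => Finset.prod_nonneg fun i _ => h0 _).trans ?_
  rw [← Finset.sum_pow']
  exact pow_le_pow_left₀ (Finset.sum_nonneg fun a _ => h0 a)
    (hw.sum_le_tsum _ fun a _ => h0 a) m

variable {G : Type} {q m : ℕ}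

/-- the coefficient matrix -/
def E (e : Fin q → Fin q → G → ℂ) (a : G) : Matrix (Fin q) (Fin q) ℂ := Matrix.of fun i j => e i j a

/-- trace of a word -/
noncomputable def trw (e : Fin q → Fin q → G → ℂ) (s : Fin m → G) : ℂ :=
  (List.ofFn fun i => E e (s i)).prod.trace

/-- rotation of words -/
def rot : (Fin (m + 1) → G) ≃ (Fin (m + 1) → G) where
  toFun s := Fin.snoc (α := fun _ => G) (Fin.tail s) (s 0)
  invFun s := Fin.cons (s (Fin.last m)) (Fin.init s)
  left_inv s := by simp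
  right_inv s := by simp

theorem rot_last (s : Fin (m + 1) → G) : rot s (Fin.last m) = s 0 := by
  simp [rot]

theorem rot_castSucc (s : Fin (m + 1) → G) (i : Fin m) : rot s i.castSucc = s i.succ := by
  simp [rot, Fin.tail]

theorem trw_rot (e : Fin q → Fin q → G → ℂ) (s : Fin (m + 1) → G) : trw e (rot s) = trw e s := by
  rw [trw, trw, List.ofFn_succ_last, List.ofFn_succ (f := fun i => E e (s i)), List.prod_append,
    List.prod_cons, List.prod_cons, List.prod_nil, mul_one, Matrix.trace_mul_comm]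
  simp only [rot_last, rot_castSucc]

theorem hasSum_rot {e : Fin q → Fin q → G → ℂ} {g : (Fin (m + 1) → G) → ℂ} {a : ℂ}
    (h : HasSum (fun s => trw e s * g s) a) : HasSum (fun s => trw e s * g (rot s)) a := by
  simpa only [Function.comp_def, trw_rot] using rot.hasSum_iff.2 h

variable [Group G]

/-- the points visited by a word -/
def px (s : Fin (m + 1) → G) : Fin (m + 1) → G := fun i => Fin.partialProd s i.succ

/-- the product of a word -/
def pc (s : Fin (m + 1) → G) : G := px s (Fin.last m)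

theorem tlen_eq (ℓ : Len G) (s : Fin (m + 1) → G) :
    tlen ℓ (pc s) (px s) = ∑ i, ℓ.len (s i) := by
  have h : (Fin.cons ((pc s)⁻¹ * px s (Fin.last m)) (px s) : Fin (m + 2) → G) =
      Fin.partialProd s := by
    funext i
    refine Fin.cases ?_ (fun j => rfl) i
    rw [Fin.cons_zero, pc, inv_mul_cancel, Fin.partialProd_zero]
  refine Finset.sum_congr rfl fun i _ => ?_
  rw [slen, prev, h, px, Fin.partialProd_right_inv]

theorem px_zero (s : Fin (m + 1) → G) : px s 0 = s 0 := by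
  rw [px, Fin.partialProd_succ', Fin.partialProd_zero, mul_one]

theorem px_rot (s : Fin (m + 1) → G) (i : Fin (m + 1)) :
    px (rot s) i = (s 0)⁻¹ * rotx (pc s) (px s) i := by
  have h := Fin.partialProd_left_inv (Fin.snoc (px s) (pc s * px s 0) : Fin (m + 2) → G)
  have h1 : (fun i : Fin (m + 1) => ((Fin.snoc (px s) (pc s * px s 0) : Fin (m + 2) → G)
      i.castSucc)⁻¹ * (Fin.snoc (px s) (pc s * px s 0) : Fin (m + 2) → G) i.succ) = rot s := by
    funext i
    refine Fin.lastCases ?_ (fun j => ?_) i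
    · rw [Fin.snoc_castSucc, Fin.succ_last, Fin.snoc_last, rot_last, pc, inv_mul_cancel_left,
        px_zero]
    · rw [Fin.snoc_castSucc, Fin.succ_castSucc, Fin.snoc_castSucc, rot_castSucc, px, px,
        Fin.succ_castSucc, Fin.partialProd_right_inv]
  rw [h1, Fin.snoc_apply_zero] at h
  rw [rotx, ← congrFun h i.succ, Pi.smul_apply, smul_eq_mul, px_zero, inv_mul_cancel_left, px]

theorem pc_rot (s : Fin (m + 1) → G) : pc (rot s) = (s 0)⁻¹ * pc s * (s 0)⁻¹⁻¹ := by
  rw [pc, px_rot, rotx, Fin.succ_last, Fin.snoc_last, px_zero, inv_inv, mul_assoc]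

theorem rotx_succAbove (c : G) (x : Fin (m + 2) → G) (p : Fin (m + 1)) :
    (fun i => rotx c x (p.castSucc.succAbove i)) = rotx c fun i => x (p.succ.succAbove i) := by
  funext i
  refine Fin.lastCases ?_ (fun j => ?_) i
  · rw [Fin.succAbove_ne_last_last (Fin.castSucc_ne_last p), rotx, rotx, Fin.succ_last,
      Fin.succ_last, Fin.snoc_last, Fin.snoc_last, Fin.succ_succAbove_zero]
  · rw [Fin.castSucc_succAbove_castSucc, rotx, rotx, Fin.succ_castSucc, Fin.succ_castSucc,
      Fin.snoc_castSucc, Fin.snoc_castSucc, Fin.succ_succAbove_succ]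

/-- merging the first two letters -/
def mrg (s : Fin (m + 2) → G) : Fin (m + 1) → G := Fin.cons (s 0 * s 1) (Fin.tail (Fin.tail s))

/-- splitting the first letter -/
def spl : (Fin (m + 1) → G) × G ≃ (Fin (m + 2) → G) where
  toFun p := Fin.cons p.2 (Fin.cons (p.2⁻¹ * p.1 0) (Fin.tail p.1))
  invFun s := (mrg s, s 0)
  left_inv p := by simp [mrg]
  right_inv s := by
    simp only [mrg, Fin.cons_zero, inv_mul_cancel_left, Fin.tail_cons]
    exact (congrArg _ (Fin.cons_self_tail (Fin.tail s))).trans (Fin.cons_self_tail s)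

theorem mrg_spl (p : (Fin (m + 1) → G) × G) : mrg (spl p) = p.1 :=
  congrArg Prod.fst (spl.left_inv p)

theorem px_mrg (s : Fin (m + 2) → G) (i : Fin (m + 1)) : px (mrg s) i = px s i.succ := by
  rw [px, px, Fin.partialProd_succ', Fin.partialProd_succ', Fin.partialProd_succ', mrg,
    Fin.cons_zero, Fin.tail_cons, mul_assoc]
  rfl

theorem pc_mrg (s : Fin (m + 2) → G) : pc (mrg s) = pc s := px_mrg s _

theorem len_mrg (ℓ : Len G) (s : Fin (m + 2) → G) : ∑ i, ℓ.len (mrg s i) ≤ ∑ i, ℓ.len (s i) := by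
  rw [Fin.sum_univ_succ, Fin.sum_univ_succ (n := m + 1), Fin.sum_univ_succ (n := m), ← add_assoc]
  exact add_le_add (ℓ.len_mul _ _) le_rfl

theorem hasSum_conv {e : Fin q → Fin q → G → ℂ} (he : IsL1IdempotentMatrix e) (b : G)
    (R : Matrix (Fin q) (Fin q) ℂ) :
    HasSum (fun a => (E e a * (E e (a⁻¹ * b) * R)).trace) (E e b * R).trace := by
  have h1 : ∀ i j, HasSum (fun a => (E e a * E e (a⁻¹ * b)) i j) (E e b i j) := by
    intro i j
    rw [show E e b i j = _ from (he.2 i j b).symm]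
    refine hasSum_sum fun k _ => Summable.hasSum ?_
    refine Summable.of_norm_bounded ((he.1 i k).mul_right (∑' x, ‖e k j x‖)) fun a => ?_
    rw [norm_mul]
    exact mul_le_mul_of_nonneg_left ((he.1 k j).le_tsum _ fun _ _ => norm_nonneg _)
      (norm_nonneg _)
  simp only [← mul_assoc, Matrix.trace, Matrix.diag_apply, Matrix.mul_apply (N := R)]
  exact hasSum_sum fun i _ => hasSum_sum fun j _ => (h1 i j).mul_right _

variable {ℓ : Len G} {γ : ℝ} {e : Fin q → Fin q → G → ℂ}

theorem hasSum_w (hs : WSum ℓ γ e) :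
    HasSum (fun a => mn (E e a) * Real.exp (γ * ℓ.len a)) (wnorm ℓ γ e) := by
  simp only [mn, Finset.sum_mul]
  exact hasSum_sum fun i _ => hasSum_sum fun j _ => (hs i j).hasSum

theorem bound (hs : WSum ℓ γ e) {g : (Fin (m + 1) → G) → ℂ} {K : ℝ} (hK : 0 ≤ K)
    (hg : ∀ s, ‖g s‖ ≤ K * Real.exp (γ * (∑ i, ℓ.len (s i) : ℕ))) :
    Summable (fun s => trw e s * g s) ∧ ‖∑' s, trw e s * g s‖ ≤ K * wnorm ℓ γ e ^ (m + 1) := by
  have h0 : ∀ a, 0 ≤ mn (E e a) * Real.exp (γ * ℓ.len a) :=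
    fun a => mul_nonneg (mn_nonneg _) (Real.exp_pos _).le
  have h1 : ∀ S : Finset (Fin (m + 1) → G), ∑ s ∈ S, ‖trw e s * g s‖ ≤
      K * wnorm ℓ γ e ^ (m + 1) := by
    intro S
    rw [← (hasSum_w hs).tsum_eq]
    refine le_trans ?_ (mul_le_mul_of_nonneg_left (sum_prod_le h0 (hasSum_w hs).summable _ S) hK)
    rw [Finset.mul_sum]
    refine Finset.sum_le_sum fun s _ => ?_
    rw [norm_mul, Finset.prod_mul_distrib, ← Real.exp_sum, ← Finset.mul_sum, ← Nat.cast_sum,
      mul_left_comm]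
    exact mul_le_mul ((norm_trace_le _).trans (mn_prod_le _)) (hg s) (norm_nonneg _)
      (Finset.prod_nonneg fun _ _ => mn_nonneg _)
  have h2 := summable_of_sum_le (fun s => norm_nonneg _) h1
  exact ⟨h2.of_norm, (norm_tsum_le_tsum_norm h2).trans (h2.tsum_le_of_sum_le h1)⟩

theorem hasSum_mrg (hγ : 0 ≤ γ) (he : IsL1IdempotentMatrix e) (hs : WSum ℓ γ e)
    {g : (Fin (m + 1) → G) → ℂ} {K : ℝ} (hK : 0 ≤ K)
    (hg : ∀ s, ‖g s‖ ≤ K * Real.exp (γ * (∑ i, ℓ.len (s i) : ℕ))) {a : ℂ}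
    (h : HasSum (fun s => trw e s * g s) a) :
    HasSum (fun s : Fin (m + 2) → G => trw e s * g (mrg s)) a := by
  have h1 := (bound hs (g := fun s : Fin (m + 2) → G => g (mrg s)) hK fun s =>
    (hg _).trans (by gcongr; exact len_mrg ℓ s)).1.hasSum
  have h2 := (spl.hasSum_iff.2 h1).prod_fiberwise (g := fun s => trw e s * g s) fun s => by
    simp only [Function.comp_apply, mrg_spl]
    refine HasSum.mul_right _ ?_
    have := hasSum_conv he (s 0) (List.ofFn fun i : Fin m => E e (s i.succ)).prod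
    simp only [trw, List.ofFn_succ, List.prod_cons]
    exact this
  rwa [h2.unique h] at h1

open Classical in
theorem hasSum_ind (hγ : 0 ≤ γ) (he : IsL1IdempotentMatrix e) (hs : WSum ℓ γ e) (C : Set G)
    (m : ℕ) : HasSum (fun s : Fin (m + 1) → G => trw e s * if pc s ∈ C then 1 else 0)
      (classTrace e C) := by
  have hb : ∀ (m : ℕ) (s : Fin (m + 1) → G), ‖if pc s ∈ C then (1 : ℂ) else 0‖ ≤
      1 * Real.exp (γ * (∑ i, ℓ.len (s i) : ℕ)) := by
    intro m s
    rw [one_mul]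
    refine le_trans ?_ (Real.one_le_exp (by positivity))
    split_ifs <;> simp
  induction m with
  | zero =>
    have h1 := (bound hs zero_le_one (hb 0)).1.hasSum
    convert h1 using 1
    rw [classTrace, tsum_subtype C fun g => ∑ i, e i i g,
      ← (Equiv.funUnique (Fin 1) G).tsum_eq]
    refine tsum_congr fun s => ?_
    have h2 : pc s = s 0 := px_zero s
    simp [h2, Set.indicator_apply, trw, E, Matrix.trace]
  | succ m ih => simpa only [pc_mrg] using hasSum_mrg hγ he hs zero_le_one (hb m) ih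

end PairAux

open PairAux in
theorem pairing {G : Type} [Group G] (ℓ : Len G) {q : ℕ} (e : Fin q → Fin q → G → ℂ) (γ : ℝ)
    (hγ : 0 ≤ γ) (he : IsL1IdempotentMatrix e) (hs : WSum ℓ γ e) (C : Set G) (hC : ConjInv C)
    (n : ℕ) (φ : G → (Fin (n + 2) → G) → ℝ) (ψ : G → (Fin (n + 1) → G) → ℝ) (κ : ℝ)
    (ε : Fin (n + 2) → ℝ) (K b : ℝ) (hb : 0 ≤ b)
    (hinv : ∀ c ∈ C, ∀ x (h : G), ψ (h * c * h⁻¹) (fun i => h * x i) = ψ c x)
    (hrot : ∀ c ∈ C, ∀ x, ψ c (rotx c x) = -ψ c x)
    (hrel : ∀ c ∈ C, ∀ x, φ c x = κ + ∑ p, ε p * ψ c fun i => x (p.succAbove i))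
    (hψ : ∀ c ∈ C, ∀ x, |ψ c x| ≤ K * Real.exp (γ * tlen ℓ c x))
    (hφ : ∀ c ∈ C, ∀ x, |φ c x| ≤ b * Real.exp (γ * tlen ℓ c x)) :
    |κ| * ‖classTrace e C‖ ≤ b * wnorm ℓ γ e ^ (n + 2) := by
  classical
  have hC' : ∀ {m : ℕ} (s : Fin (m + 1) → G), pc (rot s) ∈ C ↔ pc s ∈ C := fun s => by
    rw [pc_rot]
    exact ⟨fun h => by simpa [mul_assoc] using hC _ h (s 0), fun h => hC _ h _⟩
  have hb0 : ∀ s : Fin (n + 1) → G, ‖if pc s ∈ C then (ψ (pc s) (px s) : ℂ) else 0‖ ≤
      |K| * Real.exp (γ * (∑ i, ℓ.len (s i) : ℕ)) := by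
    intro s
    split_ifs with h
    · rw [Complex.norm_real, ← tlen_eq]
      exact (hψ _ h _).trans (mul_le_mul_of_nonneg_right (le_abs_self K) (Real.exp_pos _).le)
    · rw [norm_zero]
      positivity
  have h0 : HasSum (fun s : Fin (n + 1) → G =>
      trw e s * if pc s ∈ C then (ψ (pc s) (px s) : ℂ) else 0) 0 := by
    have h1 := (bound hs (abs_nonneg K) hb0).1.hasSum
    have h2 := (hasSum_rot h1).neg
    have h3 : ∀ s : Fin (n + 1) → G, -(trw e s * if pc (rot s) ∈ C then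
        (ψ (pc (rot s)) (px (rot s)) : ℂ) else 0) =
        trw e s * if pc s ∈ C then (ψ (pc s) (px s) : ℂ) else 0 := by
      intro s
      by_cases h : pc s ∈ C
      · rw [if_pos h, if_pos ((hC' s).2 h), pc_rot, funext (px_rot s), hinv _ h, hrot _ h,
          Complex.ofReal_neg, mul_neg, neg_neg]
      · rw [if_neg h, if_neg (mt (hC' s).1 h), mul_zero, neg_zero]
    simp only [h3] at h2
    rwa [self_eq_neg.1 (h1.unique h2)] at h1
  have h1 : ∀ p : Fin (n + 2), HasSum (fun s : Fin (n + 2) → G => trw e s *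
      if pc s ∈ C then (ψ (pc s) (fun i => px s (p.succAbove i)) : ℂ) else 0) 0 := by
    intro p
    induction p using Fin.induction with
    | zero =>
      simpa only [pc_mrg, funext (px_mrg _), Fin.succAbove_zero] using
        hasSum_mrg hγ he hs (abs_nonneg K) hb0 h0
    | succ p ih =>
      have h2 := (hasSum_rot ih).neg
      rw [neg_zero] at h2
      refine h2.congr_fun fun s => ?_
      by_cases h : pc s ∈ C
      · simp only [px_rot]
        rw [if_pos h, if_pos ((hC' s).2 h), pc_rot, hinv _ h, rotx_succAbove, hrot _ h,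
          Complex.ofReal_neg, mul_neg, neg_neg]
      · rw [if_neg h, if_neg (mt (hC' s).1 h), mul_zero, neg_zero]
  have h2 := ((hasSum_ind hγ he hs C (n + 1)).mul_left (κ : ℂ)).add
    (hasSum_sum (s := Finset.univ) fun p _ => (h1 p).mul_left (ε p : ℂ))
  have h3 := (bound hs (g := fun s : Fin (n + 2) → G =>
    if pc s ∈ C then (φ (pc s) (px s) : ℂ) else 0) hb fun s => by
      split_ifs with h
      · rw [Complex.norm_real, ← tlen_eq]
        exact hφ _ h _
      · rw [norm_zero]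
        positivity).2
  rw [tsum_congr (g := _) fun s => ?_, h2.tsum_eq] at h3
  · simpa using h3
  · by_cases h : pc s ∈ C
    · simp only [if_pos h, hrel _ h, mul_one, mul_left_comm _ (trw e s), ← Finset.mul_sum]
      push_cast
      ring
    · simp [h]

end Crest.Agent.R192
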