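import Crest.Agent.R192.Pf

/-! Row 192: mixed Pfaffians (algebra for the transgression formula). -/

set_option autoImplicit false

namespace Crest.Agent.R192

open Matrix Equiv Finset

namespace StokesAux

abbrev Mx (n : ℕ) := Matrix (Fin n) (Fin n) ℝ

variable {j : ℕ}

theorem expand {ι : Type} [Fintype ι] (x : Fin (2 * j + 2) → ι → ℝ)
    (M : Fin (j + 1) → ι → ι → ℝ) :
    ∏ a : Fin (j + 1), ∑ l, (∑ k, x (sl0 a) k * M a k l) * x (sl1 a) l =
      ∑ f : Fin (2 * j + 2) → ι, (∏ i, x i (f i)) * ∏ a, M a (f (sl0 a)) (f (sl1 a)) := by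
  classical
  have h1 : ∀ a : Fin (j + 1), ∑ l, (∑ k, x (sl0 a) k * M a k l) * x (sl1 a) l =
      ∑ g : Fin 2 → ι, x (sl0 a) (g 0) * x (sl1 a) (g 1) * M a (g 0) (g 1) := by
    intro a
    rw [← (piFinTwoEquiv fun _ => ι).symm.sum_comp, Fintype.sum_prod_type, Finset.sum_comm]
    refine Finset.sum_congr rfl fun l _ => ?_
    rw [Finset.sum_mul]
    refine Finset.sum_congr rfl fun k _ => ?_
    simp
    ring
  simp only [h1]
  rw [Finset.prod_univ_sum, Fintype.piFinset_univ]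
  symm
  refine Fintype.sum_equiv (((PfAux.slE j).symm.arrowCongr (Equiv.refl ι)).trans
    ((Equiv.curry _ _ _).trans (Equiv.piComm _))) _ _ fun f => ?_
  rw [← (PfAux.slE j).prod_comp, Fintype.prod_prod_type, Fin.prod_univ_two,
    ← Finset.prod_mul_distrib, ← Finset.prod_mul_distrib]
  rfl

/-- mixed Pfaffian -/
noncomputable def mix (j : ℕ) (N : Fin (j + 1) → Mx (2 * j + 2)) : ℝ :=
  ∑ σ : Perm (Fin (2 * j + 2)), ((Perm.sign σ : ℤ) : ℝ) * ∏ a, N a (σ (sl0 a)) (σ (sl1 a))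

theorem mix_congr (N : Fin (j + 1) → Mx (2 * j + 2)) (B : Mx (2 * j + 2)) :
    mix j (fun a => Bᵀ * N a * B) = B.det * mix j N := by
  have h1 : ∀ σ : Perm (Fin (2 * j + 2)),
      ∏ a : Fin (j + 1), (Bᵀ * N a * B) (σ (sl0 a)) (σ (sl1 a)) =
      ∑ f : Fin (2 * j + 2) → Fin (2 * j + 2),
        (∏ i, B (f i) (σ i)) * ∏ a, N a (f (sl0 a)) (f (sl1 a)) := fun σ =>
    expand (fun i k => B k (σ i)) N
  have h2 : ∀ f : Fin (2 * j + 2) → Fin (2 * j + 2), ∑ σ : Perm (Fin (2 * j + 2)),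
      ((Perm.sign σ : ℤ) : ℝ) * ∏ i, B (f i) (σ i) = (B.submatrix f id).det := fun f => by
    rw [← det_transpose, det_apply']
    rfl
  simp only [mix, h1, Finset.mul_sum, ← mul_assoc]
  rw [Finset.sum_comm]
  simp only [← Finset.sum_mul, h2]
  symm
  refine Fintype.sum_of_injective (fun σ : Perm (Fin (2 * j + 2)) => ⇑σ)
    DFunLike.coe_injective _ _ (fun f hf => ?_) fun σ => ?_
  · have h3 : ¬ Function.Injective f := fun h =>
      hf ⟨Equiv.ofBijective f (Finite.injective_iff_bijective.1 h), rfl⟩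
    obtain ⟨u, v, h4, h5⟩ := Function.not_injective_iff.1 h3
    rw [det_zero_of_row_eq h5 (by ext; simp [h4]), zero_mul]
  · rw [det_permute, mul_comm B.det]

/-- the slots other than `r` -/
noncomputable def KK (r : Fin (j + 1)) (A C : Mx (2 * j + 2)) (σ : Perm (Fin (2 * j + 2))) : ℝ :=
  ∏ a ∈ univ.erase r, (if a < r then A else C) (σ (sl0 a)) (σ (sl1 a))

/-- `∑ r, A^r ∧ W ∧ C^(j-r)` -/
noncomputable def GG (j : ℕ) (W A C : Mx (2 * j + 2)) : ℝ :=
  ∑ r : Fin (j + 1), ∑ σ : Perm (Fin (2 * j + 2)),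
    ((Perm.sign σ : ℤ) : ℝ) * (W (σ (sl0 r)) (σ (sl1 r)) * KK r A C σ)

theorem GG_eq (W A C : Mx (2 * j + 2)) :
    GG j W A C = ∑ r, mix j fun a => if a = r then W else if a < r then A else C := by
  refine sum_congr rfl fun r _ => sum_congr rfl fun σ _ => ?_
  beta_reduce
  rw [← mul_prod_erase univ _ (mem_univ r), if_pos rfl, KK]
  congr 2
  exact prod_congr rfl fun a ha => by rw [if_neg (ne_of_mem_erase ha)]

theorem GG_congr (W A C B : Mx (2 * j + 2)) :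
    GG j (Bᵀ * W * B) (Bᵀ * A * B) (Bᵀ * C * B) = B.det * GG j W A C := by
  rw [GG_eq, GG_eq, mul_sum]
  refine sum_congr rfl fun r _ => ?_
  rw [← mix_congr]
  congr 1
  funext a
  split_ifs <;> rfl

theorem tele (C M : Mx (2 * j + 2)) : pfP j (C + M) = pfP j C + GG j M (C + M) C := by
  rw [GG, sum_comm, pfP, pfP, ← sum_add_distrib]
  refine sum_congr rfl fun σ _ => ?_
  rw [← mul_sum, ← mul_add]
  congr 1
  simp only [Matrix.add_apply]
  rw [prod_add_ordered]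
  congr 1
  refine sum_congr rfl fun r _ => ?_
  rw [mul_assoc, KK]
  congr 1
  have e1 : (univ.erase r).filter (fun a => a < r) = univ.filter fun a => a < r := by
    ext a; simp only [mem_filter, mem_erase, mem_univ]; grind
  have e2 : (univ.erase r).filter (fun a => ¬ a < r) = univ.filter fun a => r < a := by
    ext a; simp only [mem_filter, mem_erase, mem_univ]; grind
  rw [← prod_filter_mul_prod_filter_not (univ.erase r) fun a => a < r, e1, e2]
  congr 1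
  · exact prod_congr rfl fun a ha => by rw [if_pos (mem_filter.1 ha).2, Matrix.add_apply]
  · exact prod_congr rfl fun a ha => by rw [if_neg (mem_filter.1 ha).2.not_gt]

/-- wedge product of two covectors -/
def wedge {n : ℕ} (ξ c : V n) : Mx n := of fun k l => ξ k * c l - ξ l * c k

theorem wedge_congr {n : ℕ} (ξ c : V n) (B : Mx n) :
    Bᵀ * wedge ξ c * B = wedge (ξ ᵥ* B) (c ᵥ* B) := by
  ext k l
  simp only [wedge, mul_apply, of_apply, transpose_apply, vecMul, dotProduct, mul_sub, sub_mul,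
    sum_sub_distrib, sum_mul, mul_sum]
  congr 1
  · exact sum_congr rfl fun _ _ => sum_congr rfl fun _ _ => by ring
  · rw [sum_comm]
    exact sum_congr rfl fun _ _ => sum_congr rfl fun _ _ => by ring

theorem wedge_sum {n : ℕ} (ξ c : V n) (k l : Fin n) :
    wedge ξ c k l = ∑ i, ξ i * wedge (ev i) c k l := by
  simp [wedge, mul_sub, sum_sub_distrib, Pi.single_apply]

theorem GG_wedge (ξ c : V (2 * j + 2)) (A C : Mx (2 * j + 2)) :
    GG j (wedge ξ c) A C = ∑ i, ξ i * GG j (wedge (ev i) c) A C := by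
  simp only [GG, mul_sum]
  rw [sum_comm (s := (univ : Finset (Fin (2 * j + 2))))]
  refine sum_congr rfl fun r _ => ?_
  rw [sum_comm (s := (univ : Finset (Fin (2 * j + 2))))]
  refine sum_congr rfl fun σ _ => ?_
  rw [wedge_sum, sum_mul, mul_sum]
  exact sum_congr rfl fun i _ => by ring

theorem sl0_ne {a b : Fin (j + 1)} (h : a ≠ b) : sl0 a ≠ sl0 b := fun e => by
  simp only [sl0, Fin.mk.injEq] at e
  exact h (Fin.ext (by omega))

theorem sl1_ne {a b : Fin (j + 1)} (h : a ≠ b) : sl1 a ≠ sl1 b := fun e => by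
  simp only [sl1, Fin.mk.injEq] at e
  exact h (Fin.ext (by omega))

theorem sl01_ne (a b : Fin (j + 1)) : sl0 a ≠ sl1 b := fun e => by
  simp only [sl0, sl1, Fin.mk.injEq] at e
  omega

theorem GG_zero {c c' : V (2 * j + 2)} {A A' C C' : Mx (2 * j + 2)}
    (hc : ∀ k, k ≠ 0 → c k = c' k) (hA : ∀ k l, k ≠ 0 → l ≠ 0 → A k l = A' k l)
    (hC : ∀ k l, k ≠ 0 → l ≠ 0 → C k l = C' k l) :
    GG j (wedge (ev 0) c) A C = GG j (wedge (ev 0) c') A' C' := by
  refine sum_congr rfl fun r _ => sum_congr rfl fun σ _ => ?_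
  congr 1
  have hK : σ (sl0 r) = 0 ∨ σ (sl1 r) = 0 → KK r A C σ = KK r A' C' σ := fun h => by
    refine prod_congr rfl fun a ha => ?_
    have ha' := ne_of_mem_erase ha
    have h0 : σ (sl0 a) ≠ 0 := by
      rcases h with h | h <;> rw [← h, σ.injective.ne_iff]
      exacts [sl0_ne ha', sl01_ne _ _]
    have h1 : σ (sl1 a) ≠ 0 := by
      rcases h with h | h <;> rw [← h, σ.injective.ne_iff]
      exacts [(sl01_ne _ _).symm, sl1_ne ha']
    split_ifs
    exacts [hA _ _ h0 h1, hC _ _ h0 h1]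
  have hne : σ (sl0 r) ≠ σ (sl1 r) := σ.injective.ne (sl01_ne r r)
  by_cases h0 : σ (sl0 r) = 0
  · have h1 : σ (sl1 r) ≠ 0 := fun e => hne (h0.trans e.symm)
    rw [hK (Or.inl h0), h0]
    simp [wedge, h1, hc _ h1]
  · by_cases h1 : σ (sl1 r) = 0
    · rw [hK (Or.inr h1), h1]
      simp [wedge, h0, hc _ h0]
    · simp [wedge, h0, h1]

/-- extension by a zero row and column -/
def xt {n : ℕ} (A : Mx n) : Mx (n + 1) := of (vecCons 0 fun k => vecCons 0 (A k))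

/-- a new first column -/
def bord {n : ℕ} (v : V (n + 1)) (L : Matrix (Fin (n + 1)) (Fin n) ℝ) : Mx (n + 1) :=
  of fun k => vecCons (v k) (L k)

/-- the odd form -/
noncomputable def T0 (j : ℕ) (c : V (2 * j + 1)) (A C : Mx (2 * j + 1)) : ℝ :=
  GG j (wedge (ev 0) (vecCons 0 c)) (xt A) (xt C)

theorem trans (L : Matrix (Fin (2 * j + 2)) (Fin (2 * j + 1)) ℝ) {ξ v : V (2 * j + 2)}
    (hξ : ξ ᵥ* L = 0) (hv : ξ ⬝ᵥ v = 1) (c : V (2 * j + 2)) (A C : Mx (2 * j + 2)) :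
    (bord v L).det * GG j (wedge ξ c) A C = T0 j (c ᵥ* L) (Lᵀ * A * L) (Lᵀ * C * L) := by
  have h1 : ξ ᵥ* bord v L = ev 0 := by
    funext l
    refine Fin.cases ?_ (fun l => ?_) l
    · simpa [bord, vecMul, dotProduct] using hv
    · simpa [bord, vecMul, dotProduct] using congrFun hξ l
  have h2 : ∀ (A : Mx (2 * j + 2)) (k l : Fin (2 * j + 2)), k ≠ 0 → l ≠ 0 →
      ((bord v L)ᵀ * A * bord v L) k l = xt (Lᵀ * A * L) k l := by
    intro A k l hk hl
    obtain ⟨k, rfl⟩ := Fin.exists_succ_eq.2 hk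
    obtain ⟨l, rfl⟩ := Fin.exists_succ_eq.2 hl
    simp [bord, xt, mul_apply]
  rw [← GG_congr, wedge_congr, h1]
  refine GG_zero (fun k hk => ?_) (h2 A) (h2 C)
  obtain ⟨k, rfl⟩ := Fin.exists_succ_eq.2 hk
  simp [bord, vecMul, dotProduct]

theorem T0_congr (L : Mx (2 * j + 1)) (c : V (2 * j + 1)) (A C : Mx (2 * j + 1)) :
    T0 j (c ᵥ* L) (Lᵀ * A * L) (Lᵀ * C * L) = L.det * T0 j c A C := by
  let L' : Matrix (Fin (2 * j + 2)) (Fin (2 * j + 1)) ℝ := of (vecCons 0 L)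
  have h := trans L' (ξ := ev 0) (v := ev 0) (by ext l; simp [L']) (by simp) (vecCons 0 c)
    (xt A) (xt C)
  have h1 : ∀ A : Mx (2 * j + 1), L'ᵀ * xt A * L' = Lᵀ * A * L := fun A => by
    ext k l
    simp [L', xt, mul_apply, Fin.sum_univ_succ (n := 2 * j + 1)]
  have h2 : vecCons 0 c ᵥ* L' = c ᵥ* L := by
    ext l
    simp [L', vecMul, dotProduct, Fin.sum_univ_succ (n := 2 * j + 1)]
  have h3 : (bord (ev 0) L').det = L.det := by
    rw [det_succ_column_zero, Fin.sum_univ_succ, sum_eq_zero fun i _ => by simp [bord]]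
    have : (bord (ev 0) L').submatrix (Fin.succAbove 0) Fin.succ = L := by
      ext k l
      simp [bord, L']
    rw [this]
    simp [bord]
  rw [h1, h1, h2, h3] at h
  exact h.symm

theorem bord_det_ne {n : ℕ} (L : Matrix (Fin (n + 1)) (Fin n) ℝ) {ξ v : V (n + 1)}
    (hξ : ξ ᵥ* L = 0) (hv : ξ ⬝ᵥ v = 1) (hL : ∀ u, L *ᵥ u = 0 → u = 0) : (bord v L).det ≠ 0 := by
  intro h
  obtain ⟨w, hw, h1⟩ := exists_mulVec_eq_zero_iff.2 h
  have h2 : bord v L *ᵥ w = w 0 • v + L *ᵥ Fin.tail w := by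
    ext k
    simp [bord, mulVec, dotProduct, Fin.sum_univ_succ, Fin.tail, mul_comm]
  have h3 : w 0 = 0 := by
    have := congrArg (ξ ⬝ᵥ ·) (h2.symm.trans h1)
    simpa [dotProduct_add, dotProduct_smul, hv, dotProduct_mulVec, hξ] using this
  rw [h2, h3, zero_smul, zero_add] at h1
  refine hw (funext fun k => Fin.cases h3 (fun k => congrFun (hL _ h1) k) k)

theorem GG_bound {W A C : Mx (2 * j + 2)} {R : ℝ} (hW : ∀ k l, |W k l| ≤ R)
    (hA : ∀ k l, |A k l| ≤ R) (hC : ∀ k l, |C k l| ≤ R) :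
    |GG j W A C| ≤ (j + 1) * (2 * j + 2).factorial * R ^ (j + 1) := by
  rw [GG_eq]
  refine (abs_sum_le_sum_abs _ _).trans ?_
  refine (sum_le_card_nsmul _ _ ((2 * j + 2).factorial * R ^ (j + 1)) fun r _ => ?_).trans
    (le_of_eq (by simp [mul_assoc]))
  refine (abs_sum_le_sum_abs _ _).trans ?_
  refine (sum_le_card_nsmul _ _ (R ^ (j + 1)) fun σ _ => ?_).trans
    (le_of_eq (by simp [Fintype.card_perm]))
  have hs : |((Perm.sign σ : ℤ) : ℝ)| = 1 := by
    rcases Int.units_eq_one_or (Perm.sign σ) with h | h <;> simp [h]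
  rw [abs_mul, hs, one_mul, abs_prod]
  refine (prod_le_prod (fun _ _ => abs_nonneg _) (g := fun _ => R) fun a _ => ?_).trans
    (le_of_eq (by simp))
  beta_reduce
  split_ifs
  exacts [hW _ _, hA _ _, hC _ _]

theorem T0_bound {c : V (2 * j + 1)} {A C : Mx (2 * j + 1)} {R : ℝ} (hR : 0 ≤ R)
    (hc : ∀ k, 2 * |c k| ≤ R) (hA : ∀ k l, |A k l| ≤ R) (hC : ∀ k l, |C k l| ≤ R) :
    |T0 j c A C| ≤ (j + 1) * (2 * j + 2).factorial * R ^ (j + 1) := by
  have h1 : ∀ A : Mx (2 * j + 1), (∀ k l, |A k l| ≤ R) → ∀ k l, |xt A k l| ≤ R := by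
    intro A hA k l
    refine Fin.cases ?_ (fun k => Fin.cases ?_ (fun l => ?_) l) k <;> simp [xt, hR, hA]
  refine GG_bound (fun k l => ?_) (h1 A hA) (h1 C hC)
  refine Fin.cases ?_ (fun k => ?_) k <;> refine Fin.cases ?_ (fun l => ?_) l
  · simp [wedge, hR]
  · have := hc l
    have := abs_nonneg (c l)
    simp [wedge]
    linarith
  · have := hc k
    have := abs_nonneg (c k)
    simp [wedge]
    linarith
  · simp [wedge, hR]

theorem alt_swap {n : ℕ} (f : Perm (Fin n) → ℝ) {s u : Fin n} (h : s ≠ u)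
    (hf : ∀ σ, f (σ * swap s u) = f σ) : ∑ σ, ((Perm.sign σ : ℤ) : ℝ) * f σ = 0 := by
  have h1 := Equiv.sum_comp (Equiv.mulRight (swap s u)) fun σ => ((Perm.sign σ : ℤ) : ℝ) * f σ
  simp only [coe_mulRight, hf, Perm.sign_mul, Perm.sign_swap h, mul_neg, mul_one, Units.val_neg,
    Int.cast_neg, neg_mul, sum_neg_distrib] at h1
  linarith

/-- a symmetric pair of slots kills the alternating sum -/
theorem closed0 (H : Fin (2 * j + 2) → Fin (2 * j + 2) → Fin (2 * j + 2) → ℝ)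
    (hH : ∀ i k l, H i k l = H k i l) (β : V (2 * j + 2)) (S : Finset (Fin (j + 1)))
    (E : Fin (j + 1) → Mx (2 * j + 2)) {s t u v : Fin (2 * j + 2)} (h : s ≠ u) (hts : t ≠ s)
    (htu : t ≠ u) (hvs : v ≠ s) (hvu : v ≠ u)
    (hS : ∀ a ∈ S, sl0 a ≠ s ∧ sl0 a ≠ u ∧ sl1 a ≠ s ∧ sl1 a ≠ u) :
    ∑ σ : Perm (Fin (2 * j + 2)), ((Perm.sign σ : ℤ) : ℝ) *
      (β (σ t) * (∏ a ∈ S, E a (σ (sl0 a)) (σ (sl1 a))) * H (σ s) (σ u) (σ v)) = 0 := by
  refine alt_swap _ h fun σ => ?_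
  simp only [Perm.mul_apply, swap_apply_left, swap_apply_right, swap_apply_of_ne_of_ne hts htu,
    swap_apply_of_ne_of_ne hvs hvu, hH (σ u)]
  congr 2
  refine prod_congr rfl fun a ha => ?_
  obtain ⟨h1, h2, h3, h4⟩ := hS a ha
  rw [swap_apply_of_ne_of_ne h1 h2, swap_apply_of_ne_of_ne h3 h4]

theorem closed (H : Fin (2 * j + 2) → Fin (2 * j + 2) → Fin (2 * j + 2) → ℝ)
    (hH : ∀ i k l, H i k l = H k i l) (β : V (2 * j + 2)) (E : Fin (j + 1) → Mx (2 * j + 2))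
    {r a : Fin (j + 1)} (h : a ≠ r) :
    ∑ σ : Perm (Fin (2 * j + 2)), ((Perm.sign σ : ℤ) : ℝ) *
      ∑ i, wedge (ev i) β (σ (sl0 r)) (σ (sl1 r)) *
        ((∏ a' ∈ (univ.erase r).erase a, E a' (σ (sl0 a')) (σ (sl1 a'))) *
          (H i (σ (sl0 a)) (σ (sl1 a)) - H i (σ (sl1 a)) (σ (sl0 a)))) = 0 := by
  have hS : ∀ a' ∈ (univ.erase r).erase a, a' ≠ a ∧ a' ≠ r := fun a' ha' =>
    ⟨ne_of_mem_erase ha', ne_of_mem_erase (mem_of_mem_erase ha')⟩
  have h1 := closed0 H hH β _ E (s := sl0 r) (t := sl1 r) (u := sl0 a) (v := sl1 a)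
    (sl0_ne h.symm) (sl01_ne _ _).symm (sl01_ne _ _).symm (sl01_ne _ _).symm (sl01_ne _ _).symm
    fun a' ha' => ⟨sl0_ne (hS a' ha').2, sl0_ne (hS a' ha').1, (sl01_ne _ _).symm,
      (sl01_ne _ _).symm⟩
  have h2 := closed0 H hH β _ E (s := sl0 r) (t := sl1 r) (u := sl1 a) (v := sl0 a)
    (sl01_ne _ _) (sl01_ne _ _).symm (sl1_ne h.symm) (sl0_ne h) (sl01_ne _ _)
    fun a' ha' => ⟨sl0_ne (hS a' ha').2, sl01_ne _ _, (sl01_ne _ _).symm, sl1_ne (hS a' ha').1⟩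
  have h3 := closed0 H hH β _ E (s := sl1 r) (t := sl0 r) (u := sl0 a) (v := sl1 a)
    (sl01_ne _ _).symm (sl01_ne _ _) (sl0_ne h.symm) (sl1_ne h) (sl01_ne _ _).symm
    fun a' ha' => ⟨sl01_ne _ _, sl0_ne (hS a' ha').1, sl1_ne (hS a' ha').2, (sl01_ne _ _).symm⟩
  have h4 := closed0 H hH β _ E (s := sl1 r) (t := sl0 r) (u := sl1 a) (v := sl0 a)
    (sl1_ne h.symm) (sl01_ne _ _) (sl01_ne _ _) (sl01_ne _ _) (sl01_ne _ _)
    fun a' ha' => ⟨sl01_ne _ _, sl01_ne _ _, sl1_ne (hS a' ha').2, sl1_ne (hS a' ha').1⟩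
  have h5 := congrArg₂ (· - ·) (congrArg₂ (· - ·) h1 h2) (congrArg₂ (· - ·) h3 h4)
  simp only [← sum_sub_distrib, sub_self] at h5
  rw [← h5]
  refine sum_congr rfl fun σ _ => ?_
  simp only [wedge, of_apply, sub_mul, sum_sub_distrib, Pi.single_apply, ite_mul, one_mul, zero_mul,
    sum_ite_eq, mem_univ, if_true]
  ring

end StokesAux

end Crest.Agent.R192
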