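import Crest.Agent.R192.Simplex
import Crest.Agent.R192.Pf
import Crest.Agent.R192.StokesAux

/-! Row 192: transgression (Stokes) on the simplex. -/

set_option autoImplicit false

namespace Crest.Agent.R192

open Crest.AlgebraR.L1 MeasureTheory Matrix
open scoped ContDiff BoundedContinuousFunction

namespace StokesAux

open Equiv Finset

variable {j n m : ℕ}

theorem clm_sum {E : Type} [NormedAddCommGroup E] [NormedSpace ℝ E] (f : V n →L[ℝ] E) (u : V n) :
    f u = ∑ k, u k • f (ev k) := by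
  conv_lhs => rw [pi_eq_sum_univ' u]
  simp only [map_sum, map_smul]

/-- coefficients of a covector -/
def cf (b : V n →L[ℝ] ℝ) : V n := fun l => b (ev l)

theorem fderiv_app {E : Type} [NormedAddCommGroup E] [NormedSpace ℝ E] {b : V n → V m →L[ℝ] E}
    {y : V n} (hb : DifferentiableAt ℝ b y) (e : V n) (u : V m) :
    fderiv ℝ (fun y => b y u) y e = fderiv ℝ b y e u := by
  rw [fderiv_clm_apply hb (differentiableAt_const u)]
  simp

theorem cf_pull (L : Matrix (Fin m) (Fin n) ℝ) (b : V m →L[ℝ] ℝ) (b' : V n →L[ℝ] ℝ)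
    (h : ∀ u, b' u = b (L *ᵥ u)) : cf b' = cf b ᵥ* L := by
  funext l
  rw [cf, h, clm_sum]
  simp [cf, vecMul, dotProduct, mul_comm]

theorem curv_pull (L : Matrix (Fin m) (Fin n) ℝ) (v : V m) {b : V m → V m →L[ℝ] ℝ}
    (hb : Differentiable ℝ b) {b' : V n → V n →L[ℝ] ℝ}
    (h : ∀ y u, b' y u = b (L *ᵥ y + v) (L *ᵥ u)) (y : V n) :
    curv b' y = Lᵀ * curv b (L *ᵥ y + v) * L := by
  let ℓ : V n →L[ℝ] V m := LinearMap.toContinuousLinearMap (Matrix.mulVecLin L)
  have hℓ : ∀ u, ℓ u = L *ᵥ u := fun _ => rfl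
  have e : b' = fun y => (b (ℓ y + v)).comp ℓ := by
    funext y
    exact ContinuousLinearMap.ext fun u => h y u
  have h1 : HasFDerivAt (fun y => b (ℓ y + v)) ((fderiv ℝ b (ℓ y + v)).comp ℓ) y :=
    (hb (ℓ y + v)).hasFDerivAt.comp y (ℓ.hasFDerivAt.add_const v)
  have h2 : ∀ e u, fderiv ℝ b' y e u = fderiv ℝ b (L *ᵥ y + v) (L *ᵥ e) (L *ᵥ u) := by
    intro e' u
    rw [e, (h1.clm_comp (hasFDerivAt_const ℓ y)).fderiv]
    simp [hℓ]
  have h3 : ∀ k l, fderiv ℝ b' y (ev k) (ev l) =
      ∑ s, ∑ t, L s k * (L t l * fderiv ℝ b (L *ᵥ y + v) (ev s) (ev t)) := by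
    intro k l
    rw [h2, clm_sum (fderiv ℝ b _), _root_.sum_apply]
    refine sum_congr rfl fun s _ => ?_
    rw [_root_.smul_apply, clm_sum, smul_eq_mul, mul_sum]
    simp
  ext k l
  simp only [curv, of_apply, h3, mul_apply, transpose_apply, mul_sub, sub_mul, sum_sub_distrib,
    sum_mul]
  congr 1
  · rw [sum_comm]
    exact sum_congr rfl fun _ _ => sum_congr rfl fun _ _ => by ring
  · exact sum_congr rfl fun _ _ => sum_congr rfl fun _ _ => by ring

theorem two_le : (1 : WithTop ℕ∞) + 1 ≤ ∞ := by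
  rw [one_add_one_eq_two]
  exact WithTop.coe_le_coe.2 (le_top (a := (2 : ℕ∞)))

theorem smooth_fderiv {b : V n → V n →L[ℝ] ℝ} (hb : ContDiff ℝ ∞ b) : ContDiff ℝ 1 (fderiv ℝ b) :=
  hb.fderiv_right two_le

theorem smooth_curv {b : V n → V n →L[ℝ] ℝ} (hb : ContDiff ℝ ∞ b) (k l : Fin n) :
    ContDiff ℝ 1 fun y => curv b y k l :=
  (((smooth_fderiv hb).clm_apply contDiff_const).clm_apply contDiff_const).sub
    (((smooth_fderiv hb).clm_apply contDiff_const).clm_apply contDiff_const)

theorem smooth_cf {b : V n → V n →L[ℝ] ℝ} (hb : ContDiff ℝ ∞ b) (l : Fin n) :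
    ContDiff ℝ 1 fun y => cf (b y) l :=
  (hb.of_le (by exact_mod_cast le_top)).clm_apply contDiff_const

theorem fderiv_curv {b : V n → V n →L[ℝ] ℝ} (hb : ContDiff ℝ ∞ b) (y e : V n) (k l : Fin n) :
    fderiv ℝ (fun y => curv b y k l) y e =
      fderiv ℝ (fderiv ℝ b) y e (ev k) (ev l) - fderiv ℝ (fderiv ℝ b) y e (ev l) (ev k) := by
  have h1 : DifferentiableAt ℝ (fderiv ℝ b) y := (smooth_fderiv hb).differentiable one_ne_zero y
  have h2 : ∀ k, DifferentiableAt ℝ (fun y => fderiv ℝ b y (ev k)) y := fun k =>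
    h1.clm_apply (differentiableAt_const _)
  simp only [curv, of_apply]
  rw [fderiv_fun_sub ((h2 k).clm_apply (differentiableAt_const _))
    ((h2 l).clm_apply (differentiableAt_const _)), _root_.sub_apply,
    fderiv_app (h2 k), fderiv_app (h2 l), fderiv_app h1, fderiv_app h1]

theorem smooth_GG {W A : V n → Mx (2 * j + 2)} (C : Mx (2 * j + 2))
    (hW : ∀ k l, ContDiff ℝ 1 fun y => W y k l) (hA : ∀ k l, ContDiff ℝ 1 fun y => A y k l) :
    ContDiff ℝ 1 fun y => GG j (W y) (A y) C := by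
  refine ContDiff.sum fun r _ => ContDiff.sum fun σ _ => contDiff_const.mul ((hW _ _).mul
    (contDiff_prod fun a _ => ?_))
  split_ifs
  exacts [hA _ _, contDiff_const]

theorem smooth_wedge (ξ : V m) {c : V n → V m} (hc : ∀ l, ContDiff ℝ 1 fun y => c y l)
    (k l : Fin m) : ContDiff ℝ 1 fun y => wedge ξ (c y) k l :=
  (contDiff_const.mul (hc l)).sub (contDiff_const.mul (hc k))

theorem smooth_T0 {c : V n → V (2 * j + 1)} {A : V n → Mx (2 * j + 1)} (C : Mx (2 * j + 1))
    (hc : ∀ l, ContDiff ℝ 1 fun y => c y l) (hA : ∀ k l, ContDiff ℝ 1 fun y => A y k l) :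
    ContDiff ℝ 1 fun y => T0 j (c y) (A y) C := by
  refine smooth_GG _ (smooth_wedge _ fun l => Fin.cases ?_ (fun l => ?_) l) fun k l =>
    Fin.cases ?_ (fun k => Fin.cases ?_ (fun l => ?_) l) k
  · exact contDiff_const
  · exact hc l
  · exact contDiff_const
  · exact contDiff_const
  · exact hA k l

theorem fderiv_GG {W A : V n → Mx (2 * j + 2)} (C : Mx (2 * j + 2)) (y e : V n)
    (hW : ∀ k l, DifferentiableAt ℝ (fun y => W y k l) y)
    (hA : ∀ k l, DifferentiableAt ℝ (fun y => A y k l) y) :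
    fderiv ℝ (fun y => GG j (W y) (A y) C) y e =
      GG j (of fun k l => fderiv ℝ (fun y => W y k l) y e) (A y) C +
        ∑ r : Fin (j + 1), ∑ a ∈ univ.erase r, if a < r then
          ∑ σ : Perm (Fin (2 * j + 2)), ((Perm.sign σ : ℤ) : ℝ) *
            (W y (σ (sl0 r)) (σ (sl1 r)) *
              ((∏ a' ∈ (univ.erase r).erase a,
                (if a' < r then A y else C) (σ (sl0 a')) (σ (sl1 a'))) *
                fderiv ℝ (fun y => A y (σ (sl0 a)) (σ (sl1 a))) y e)) else 0 := by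
  have h1 : ∀ (r a : Fin (j + 1)) (k l : Fin (2 * j + 2)),
      HasFDerivAt (fun y => (if a < r then A y else C) k l)
        (if a < r then fderiv ℝ (fun y => A y k l) y else 0) y := by
    intro r a k l
    split_ifs
    exacts [(hA k l).hasFDerivAt, hasFDerivAt_const _ _]
  have h2 := HasFDerivAt.fun_sum (u := univ) fun (r : Fin (j + 1)) _ =>
    HasFDerivAt.fun_sum (u := univ) fun (σ : Perm (Fin (2 * j + 2))) _ =>
      ((hW (σ (sl0 r)) (σ (sl1 r))).hasFDerivAt.fun_mul
        (HasFDerivAt.finsetProd (u := univ.erase r) fun a _ =>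
          h1 r a (σ (sl0 a)) (σ (sl1 a)))).const_mul ((Perm.sign σ : ℤ) : ℝ)
  refine (congrArg (fun f : V n →L[ℝ] ℝ => f e) h2.fderiv).trans ?_
  simp only [GG, KK, _root_.sum_apply, _root_.smul_apply,
    _root_.add_apply, smul_eq_mul, of_apply, ← sum_add_distrib]
  refine sum_congr rfl fun r _ => ?_
  simp only [mul_add, sum_add_distrib]
  rw [add_comm]
  congr 1
  · exact sum_congr rfl fun σ _ => by ring
  · simp only [mul_sum]
    rw [sum_comm]
    refine sum_congr rfl fun a _ => ?_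
    split_ifs <;> simp

theorem GG_sum {ι : Type} (s : Finset ι) (W : ι → Mx (2 * j + 2)) (A C : Mx (2 * j + 2)) :
    ∑ i ∈ s, GG j (W i) A C = GG j (∑ i ∈ s, W i) A C := by
  simp only [GG, Matrix.sum_apply, sum_mul, mul_sum]
  rw [sum_comm]
  exact sum_congr rfl fun r _ => sum_comm

/-- the components of the primitive -/
noncomputable def FF (b : V (2 * j + 2) → V (2 * j + 2) →L[ℝ] ℝ) (C : Mx (2 * j + 2))
    (ξ : V (2 * j + 2)) (y : V (2 * j + 2)) : ℝ :=
  GG j (wedge ξ (cf (b y))) (C + curv b y) C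

theorem smooth_FF {b : V (2 * j + 2) → V (2 * j + 2) →L[ℝ] ℝ} (hb : ContDiff ℝ ∞ b)
    (C : Mx (2 * j + 2)) (ξ : V (2 * j + 2)) : ContDiff ℝ 1 (FF b C ξ) :=
  smooth_GG _ (smooth_wedge _ (smooth_cf hb)) fun k l => contDiff_const.add (smooth_curv hb k l)

theorem div_FF {b : V (2 * j + 2) → V (2 * j + 2) →L[ℝ] ℝ} (hb : ContDiff ℝ ∞ b)
    (C : Mx (2 * j + 2)) (y : V (2 * j + 2)) :
    pfP j (C + curv b y) = pfP j C + ∑ i, fderiv ℝ (FF b C (ev i)) y (ev i) := by
  have hd : DifferentiableAt ℝ b y := hb.differentiable (by simp) y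
  have hc : ∀ l, DifferentiableAt ℝ (fun y => cf (b y) l) y := fun l =>
    (smooth_cf hb l).differentiable one_ne_zero y
  have h1 := fun i => fderiv_GG (W := fun y => wedge (ev i) (cf (b y)))
    (A := fun y => C + curv b y) C y (ev i)
    (fun k l => (smooth_wedge _ (smooth_cf hb) k l).differentiable one_ne_zero y)
    fun k l => (contDiff_const.add (smooth_curv hb k l)).differentiable one_ne_zero y
  have h2 : ∑ i : Fin (2 * j + 2), (of fun k l =>
      fderiv ℝ (fun y => wedge (ev i) (cf (b y)) k l) y (ev i) : Mx (2 * j + 2)) = curv b y := by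
    ext k l
    have : ∀ i : Fin (2 * j + 2), fderiv ℝ (fun y => wedge (ev i) (cf (b y)) k l) y (ev i) =
        ev i k * fderiv ℝ b y (ev i) (ev l) - ev i l * fderiv ℝ b y (ev i) (ev k) := by
      intro i
      simp only [wedge, of_apply]
      rw [fderiv_fun_sub ((hc l).const_mul _) ((hc k).const_mul _), fderiv_const_mul (hc l),
        fderiv_const_mul (hc k)]
      simp only [_root_.sub_apply, _root_.smul_apply, smul_eq_mul, cf,
        fderiv_app hd]
    simp [Matrix.sum_apply, this, curv, Pi.single_apply]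
  have hH : ∀ i k l : Fin (2 * j + 2), fderiv ℝ (fderiv ℝ b) y (ev i) (ev k) (ev l) =
      fderiv ℝ (fderiv ℝ b) y (ev k) (ev i) (ev l) := fun i k l => by
    rw [(hb.contDiffAt.isSymmSndFDerivAt (by simpa [one_add_one_eq_two] using two_le)).eq]
  rw [tele]
  congr 1
  refine Eq.symm ((sum_congr rfl fun i _ => h1 i).trans ?_)
  rw [sum_add_distrib, GG_sum, h2, add_eq_left, sum_comm]
  refine sum_eq_zero fun r _ => ?_
  rw [sum_comm]
  refine sum_eq_zero fun a ha => ?_
  split_ifs
  · rw [sum_comm, ← closed _ hH (cf (b y)) (fun a' => if a' < r then C + curv b y else C)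
      (ne_of_mem_erase ha)]
    refine sum_congr rfl fun σ _ => ?_
    rw [mul_sum]
    refine sum_congr rfl fun i _ => ?_
    simp only [Matrix.add_apply]
    rw [fderiv_const_add, fderiv_curv hb]
  · simp

/-- conormal of the face `p` -/
def xi (p : Fin (n + 2)) : V (n + 1) :=
  fun k => (if k.succ = p then 1 else 0) - (if k.castSucc = p then 1 else 0)

theorem fy_cases (p : Fin (n + 2)) : ∃ i : Fin (n + 1), ∀ y : V n, ∃ t,
    fy p y = Fin.insertNth (α := fun _ => ℝ) i t y := by
  refine Fin.cases ⟨0, fun y => ⟨_, fy_castSucc 0 y⟩⟩ (fun i => ⟨i, fun y => ⟨_, fy_succ i y⟩⟩) p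

theorem Lf_inj (p : Fin (n + 2)) (u : V n) (h : Lf p *ᵥ u = 0) : u = 0 := by
  obtain ⟨i, hi⟩ := fy_cases p
  obtain ⟨t, ht⟩ := hi u
  obtain ⟨t', ht'⟩ := hi 0
  have h1 := fy_eq p u
  rw [h, zero_add, ht, ht'] at h1
  funext k
  simpa using congrFun h1 (i.succAbove k)

theorem xi_fy (p : Fin (n + 2)) (u : V n) : xi p ⬝ᵥ fy p u = xi p ⬝ᵥ fy p 0 := by
  have h : ∀ w : V (n + 1), xi p ⬝ᵥ w =
      (∑ k, if k.succ = p then w k else 0) - ∑ k, if k.castSucc = p then w k else 0 := by
    intro w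
    simp [xi, dotProduct, sub_mul]
  rw [h, h]
  refine Fin.cases ?_ (fun i => Fin.lastCases ?_ (fun i => ?_) i) p
  · have h1 := fy_castSucc (0 : Fin (n + 1))
    simp only [Fin.castSucc_zero] at h1
    simp [h1, ext, gemb_apply]
  · simp only [fy_succ, Fin.succ_inj, sum_ite_eq', mem_univ, if_true, Fin.insertNth_apply_same]
    simp [ext, gemb_apply]
  · have h1 : ∀ y : V n, fy i.castSucc.succ y i.succ = y i := fun y => by
      rw [fy_succ, ← Fin.succAbove_castSucc_self i, Fin.insertNth_apply_succAbove]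
    have h2 : ∀ y : V n, fy i.castSucc.succ y i.castSucc = y i := fun y => by
      rw [fy_succ, Fin.insertNth_apply_same, Fin.succ_castSucc, ext, Fin.snoc_castSucc, gemb_apply,
        Fin.cons_succ]
    simp only [Fin.succ_inj, sum_ite_eq', mem_univ, if_true, h2]
    simp only [Fin.succ_castSucc, Fin.castSucc_inj, sum_ite_eq', mem_univ, if_true] at h1 ⊢
    rw [h1, h1, sub_self, sub_self]

theorem xi_Lf (p : Fin (n + 2)) : xi p ᵥ* Lf p = 0 := by
  funext l
  have h := xi_fy p (ev l)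
  rw [fy_eq, dotProduct_add, add_eq_right, dotProduct_mulVec] at h
  simpa using h

theorem xi_ne (p : Fin (n + 2)) : ∃ v, xi p ⬝ᵥ v = 1 := by
  refine Fin.cases ⟨-ev 0, ?_⟩ (fun i => ⟨ev i, ?_⟩) p
  · simp [xi]
  · simp [xi, (Fin.castSucc_lt_succ (i := i)).ne]

end StokesAux

open StokesAux in
theorem stokes (j : ℕ) :
    ∃ (T : (V (2 * j + 1) →L[ℝ] ℝ) → Matrix (Fin (2 * j + 1)) (Fin (2 * j + 1)) ℝ → ℝ)
      (ε : Fin (2 * j + 3) → ℝ) (CT : ℝ), 0 ≤ CT ∧
      (∀ b M (A : ℝ), 1 ≤ A → (∀ i, |b (ev i)| ≤ A) → (∀ i i', |M i i'| ≤ A) →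
        |T b M| ≤ CT * A ^ (j + 1)) ∧
      (∀ (b : V (2 * j + 2) → V (2 * j + 2) →L[ℝ] ℝ)
        (b' : Fin (2 * j + 3) → V (2 * j + 1) → V (2 * j + 1) →L[ℝ] ℝ), ContDiff ℝ ∞ b →
        (∀ p y u, b' p y u = b (fy p y) (fy p u - fy p 0)) →
        ∫ y in simplex (2 * j + 2), pfP j (omega (2 * j + 2) + curv b y) =
          (volume (simplex (2 * j + 2))).toReal * pfP j (omega (2 * j + 2)) +
            ∑ p, ε p * ∫ y in simplex (2 * j + 1), T (b' p y) (curv (b' p) y)) ∧
      ∀ b b' : V (2 * j + 1) → V (2 * j + 1) →L[ℝ] ℝ, ContDiff ℝ ∞ b →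
        (∀ y u, b' y u = b (cy y) (cy u - cy 0)) →
        ∫ y in simplex (2 * j + 1), T (b' y) (curv b' y) =
          -∫ y in simplex (2 * j + 1), T (b y) (curv b y) := by
  choose v hv using fun p : Fin (2 * j + 1 + 2) => xi_ne p
  refine ⟨fun b M => T0 j (cf b) (omega _ + M) (omega _), fun p => ((bord (v p) (Lf p)).det)⁻¹,
    (j + 1) * (2 * j + 2).factorial * 3 ^ (j + 1), by positivity, ?_, ?_, ?_⟩
  · intro b M A hA hb hM
    have ho : ∀ k l, |omega (2 * j + 1) k l| ≤ 1 := fun k l => by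
      simp only [omega, of_apply]
      split_ifs <;> norm_num
    rw [mul_assoc, ← mul_pow]
    refine T0_bound (by linarith) (fun k => ?_) (fun k l => ?_) fun k l => ?_
    · have := hb k
      simp only [cf]
      linarith
    · have := abs_add_le (omega (2 * j + 1) k l) (M k l)
      have := ho k l
      have := hM k l
      rw [Matrix.add_apply]
      linarith
    · linarith [ho k l]
  · intro b b' hb hb'
    have hI : ∀ {d : ℕ} {f : V d → ℝ}, Continuous f → IntegrableOn f (simplex d) :=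
      fun hf => hf.continuousOn.integrableOn_compact (isCompact_simplex _)
    have hF := smooth_FF hb (omega (2 * j + 2))
    have hD : ∀ i, Continuous fun y => fderiv ℝ (FF b (omega (2 * j + 2)) (ev i)) y (ev i) :=
      fun i => ((hF _).continuous_fderiv one_ne_zero).clm_apply continuous_const
    have hfy : ∀ p : Fin (2 * j + 1 + 2), Continuous (fy p) := fun p => by
      rw [show fy p = fun u => Lf p *ᵥ u + fy p 0 from funext (fy_eq p)]
      exact (continuous_const.matrix_mulVec continuous_id).add continuous_const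
    have hp : ∀ (p : Fin (2 * j + 1 + 2)) (y : V (2 * j + 1)),
        T0 j (cf (b' p y)) (omega _ + curv (b' p) y) (omega _) =
          (bord (v p) (Lf p)).det * ∑ i, xi p i * FF b (omega _) (ev i) (fy p y) := by
      intro p y
      have h1 : ∀ y u, b' p y u = b (Lf p *ᵥ y + fy p 0) (Lf p *ᵥ u) := fun y u => by
        rw [hb', fy_eq p u, add_sub_cancel_right, ← fy_eq]
      simp only [FF]
      rw [← GG_wedge, trans (Lf p) (xi_Lf p) (hv p), Matrix.mul_add, Matrix.add_mul, Lf_omega,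
        curv_pull _ _ (hb.differentiable (by simp)) h1, cf_pull (Lf p) _ _ (h1 y), ← fy_eq]
    simp only [div_FF hb, hp]
    rw [integral_add (hI continuous_const) (hI (continuous_finsetSum _ fun i _ => hD i)),
      integral_finsetSum _ fun i _ => hI (hD i), setIntegral_const, smul_eq_mul]
    congr 1
    have h2 : ∀ p : Fin (2 * j + 1 + 2), ((bord (v p) (Lf p)).det)⁻¹ *
        ∫ y in simplex (2 * j + 1),
          (bord (v p) (Lf p)).det * ∑ i, xi p i * FF b (omega _) (ev i) (fy p y) =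
        ∑ i, xi p i * ∫ y in simplex (2 * j + 1), FF b (omega _) (ev i) (fy p y) := by
      intro p
      rw [integral_const_mul, inv_mul_cancel_left₀ (bord_det_ne _ (xi_Lf p) (hv p) (Lf_inj p)),
        integral_finsetSum (f := fun i y => xi p i * FF b (omega _) (ev i) (fy p y)) _ fun i _ =>
          hI (continuous_const.mul ((hF _).continuous.comp (hfy p)))]
      simp only [integral_const_mul]
    refine Eq.symm ((Finset.sum_congr rfl fun p _ => h2 p).trans ?_)
    rw [Finset.sum_comm]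
    refine Finset.sum_congr rfl fun i _ => ?_
    rw [integral_simplex_fderiv _ (hF _) i]
    simp [xi, sub_mul]
  · intro b b' hb hb'
    have h1 : ∀ y u, b' y u = b (Lc _ *ᵥ y + cy 0) (Lc _ *ᵥ u) := fun y u => by
      rw [hb', cy_eq u, add_sub_cancel_right, ← cy_eq]
    have hp : ∀ y, T0 j (cf (b' y)) (omega _ + curv b' y) (omega _) =
        -T0 j (cf (b (cy y))) (omega _ + curv b (cy y)) (omega _) := by
      intro y
      rw [neg_eq_neg_one_mul, ← Odd.neg_one_pow (α := ℝ) (odd_two_mul_add_one j), ← det_Lc,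
        ← T0_congr, Matrix.mul_add, Matrix.add_mul, Lc_omega,
        curv_pull _ _ (hb.differentiable (by simp)) h1, cf_pull (Lc _) _ _ (h1 y), ← cy_eq]
    simp only [hp]
    rw [integral_neg, integral_simplex_cy fun y => T0 j (cf (b y)) (omega _ + curv b y) (omega _)]
    exact (smooth_T0 _ (smooth_cf hb) fun k l =>
      contDiff_const.add (smooth_curv hb k l)).continuous

end Crest.Agent.R192
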