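import Crest.Agent.R192.Gen1
import Crest.Agent.R192.Stokes
import Crest.Agent.R192.Pairing

/-! Row 192: the generic Chern--Weil inequality. -/

set_option autoImplicit false

namespace Crest.Agent.R192

open Crest.AlgebraR.L1 MeasureTheory Matrix
open scoped ContDiff BoundedContinuousFunction

namespace Gen2Aux

theorem meas_int {Λ S : Type} [Fintype S] [MeasurableSpace S] [DiscreteMeasurableSpace S]
    (P : Measure (Λ → S)) [IsProbabilityMeasure P] {f : (Λ → S) → ℝ}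
    (hf : ∃ F : Finset Λ, ∀ w w', (∀ l ∈ F, w l = w' l) → f w = f w') :
    Measurable f ∧ Integrable f P := by
  obtain ⟨F, hF⟩ := hf
  set r : (Λ → S) → (F → S) := fun w l => w l with hr
  have hrm : Measurable r := measurable_pi_lambda _ fun l => measurable_pi_apply _
  have hfac : f.FactorsThrough r := fun w w' h => hF w w' fun l hl => congrFun h ⟨l, hl⟩
  have e := hfac.extend_comp (fun _ => 0)
  rw [← e]
  exact ⟨(measurable_of_finite _).comp hrm,
    (Integrable.of_finite (μ := P.map r)).comp_measurable hrm⟩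

theorem poly_le_exp {γ : ℝ} (hγ : 0 < γ) (k : ℕ) :
    ∃ C : ℝ, 0 ≤ C ∧ ∀ t : ℝ, 0 ≤ t → (1 + t) ^ k ≤ C * Real.exp (γ * t) := by
  refine ⟨k.factorial / γ ^ k * Real.exp γ, by positivity, fun t ht => ?_⟩
  have h := Real.pow_div_factorial_le_exp (γ * (1 + t)) (by positivity) k
  have hk : (0 : ℝ) < k.factorial := by exact_mod_cast k.factorial_pos
  rw [div_le_iff₀ hk, mul_pow, mul_add, mul_one, Real.exp_add] at h
  rw [div_mul_eq_mul_div, div_mul_eq_mul_div, le_div_iff₀ (by positivity)]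
  linarith

theorem abs_int_le {Ω : Type} [MeasurableSpace Ω] (P : Measure Ω) [IsProbabilityMeasure P]
    {d : ℕ} {f : Ω → V d → ℝ} {B : ℝ} (h : ∀ᵐ w ∂P, ∀ y ∈ simplex d, |f w y| ≤ B) :
    |∫ w, (∫ y in simplex d, f w y) ∂P| ≤ B * (volume (simplex d)).toReal := by
  have := norm_integral_le_of_norm_le_const (μ := P) (f := fun w => ∫ y in simplex d, f w y)
    (C := B * (volume (simplex d)).toReal) (by
      filter_upwards [h] with w hw
      exact norm_setIntegral_le_of_norm_le_const (isCompact_simplex d).measure_lt_top hw)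
  simpa using this

theorem fin_dep {G : Type} [Group G] {C : Set G} {Λ S : Type} [MulAction G Λ] {n : ℕ}
    {W : G → (Fin (n + 1) → G) → (Λ → S) → TwoPt n} (h : Fam C n W)
    (T : (V n →L[ℝ] ℝ) → Matrix (Fin n) (Fin n) ℝ → ℝ) {c : G} (hc : c ∈ C)
    (x : Fin (n + 1) → G) : ∃ F : Finset Λ, ∀ w w', (∀ l ∈ F, w l = w' l) →
      ∫ y in simplex n, T (bg (W c x w) y) (curv (bg (W c x w)) y) =
        ∫ y in simplex n, T (bg (W c x w') y) (curv (bg (W c x w')) y) := by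
  obtain ⟨F, hF⟩ := h.fin c hc x
  refine ⟨F, fun w w' hw => setIntegral_congr_fun (measurableSet_simplex n) fun y hy => ?_⟩
  obtain ⟨e1, e2⟩ := bg_congr (hF w w' hw) hy
  simp only [e1, e2]

end Gen2Aux

open Gen2Aux

theorem generic {G : Type} [Group G] (ℓ : Len G) {q : ℕ} (e : Fin q → Fin q → G → ℂ) (γ : ℝ)
    (hγ : 0 < γ) (hγ1 : γ ≤ 1) (he : IsL1IdempotentMatrix e) (hs : WSum ℓ γ e) (C : Set G)
    (hC : ConjInv C) {Λ S : Type} [MulAction G Λ] [Fintype S] [MeasurableSpace S]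
    [DiscreteMeasurableSpace S] (P : Measure (Λ → S)) [IsProbabilityMeasure P]
    (hP : ∀ h : G, MeasurePreserving (act h) P P) (j : ℕ)
    (W₁ : G → (Fin (2 * j + 1 + 1) → G) → (Λ → S) → TwoPt (2 * j + 1))
    (W₂ : G → (Fin (2 * j + 2 + 1) → G) → (Λ → S) → TwoPt (2 * j + 2))
    (h₁ : Fam C _ W₁) (h₂ : Fam C _ W₂)
    (hface : ∀ c ∈ C, ∀ x w p θ θ', W₂ c x w (faceθ p θ) (faceθ p θ') =
      W₁ c (fun i => x (p.succAbove i)) w θ θ')
    (K ε F : ℝ) (hK : 0 ≤ K) (hε : 0 < ε)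
    (hb₁ : ∀ᵐ w ∂P, ∀ c ∈ C, ∀ x, ∀ θ ∈ cell _,
      Ent (W₁ c x w) θ (fun i => slen ℓ c x i) (tlen ℓ c x / (2 * j + 2)) K)
    (hb₂ : ∀ᵐ w ∂P, ∀ c ∈ C, ∀ x, ∀ θ ∈ cell _,
      Ent (W₂ c x w) θ (fun i => slen ℓ c x i) (tlen ℓ c x / (2 * j + 2)) K ∧
      Cost (Mb (W₂ c x w) θ)
        (fun i => ε * (1 + tlen ℓ c x / (2 * j + 2)) * (1 + slen ℓ c x i.succ) ^ 2) F) :
    ‖classTrace e C‖ ≤ √F * (1 + 4 * K ^ 2 * (2 * j + 3) ^ 3 / ε) *
      (2 * ε * (4 / γ) ^ 8) ^ (j + 1) * wnorm ℓ γ e ^ (2 * j + 3) := by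
  obtain ⟨T, ε', CT, hCT, hT, hst, hcy⟩ := stokes j
  set B := √F * (1 + 4 * K ^ 2 * (2 * j + 3) ^ 3 / ε) * (2 * ε * (4 / γ) ^ 8) ^ (j + 1) with hB
  have hB0 : 0 ≤ B := by positivity
  set v1 := (volume (simplex (2 * j + 1))).toReal with hv1
  set v2 := (volume (simplex (2 * j + 2))).toReal with hv2
  have hv2pos : 0 < v2 := volume_simplex_pos _
  set p0 := pfP j (omega (2 * j + 2)) with hp0
  have hp0pos : 0 < |p0| := abs_pos.2 (pfP_omega_ne_zero j)
  set ψ0 : G → (Fin (2 * j + 1 + 1) → G) → (Λ → S) → ℝ := fun c x w =>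
    ∫ y in simplex (2 * j + 1), T (bg (W₁ c x w) y) (curv (bg (W₁ c x w)) y) with hψ0
  set φ0 : G → (Fin (2 * j + 2 + 1) → G) → (Λ → S) → ℝ := fun c x w =>
    ∫ y in simplex (2 * j + 2), pfP j (omega (2 * j + 2) + curv (bg (W₂ c x w)) y) with hφ0
  have hm : ∀ c ∈ C, ∀ x, Measurable (ψ0 c x) ∧ Integrable (ψ0 c x) P := fun c hc x =>
    meas_int P (fin_dep h₁ T hc x)
  obtain ⟨C1, hC1, hpoly⟩ := poly_le_exp hγ (6 * (j + 1))
  set a0 : ℝ := 8 * (((2 * j + 1 : ℕ) : ℝ) + 1) * (1 + K) ^ 2 with ha0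
  have ha1 : 1 ≤ a0 := by
    have h1 : (1 : ℝ) ≤ (1 + K) ^ 2 := one_le_pow₀ (by linarith)
    have h2 : (0 : ℝ) ≤ ((2 * j + 1 : ℕ) : ℝ) := Nat.cast_nonneg _
    nlinarith
  have key := pairing ℓ e γ hγ.le he hs C hC (2 * j + 1) (fun c x => ∫ w, φ0 c x w ∂P)
    (fun c x => ∫ w, ψ0 c x w ∂P) (v2 * p0) ε' (CT * a0 ^ (j + 1) * C1 * v1) (|p0| * B * v2)
    (by positivity) ?_ ?_ ?_ ?_ ?_
  · rw [abs_mul, abs_of_pos hv2pos] at key
    refine le_of_mul_le_mul_left (key.trans_eq ?_) (mul_pos hv2pos hp0pos)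
    ring
  · intro c hc x h
    have h1 := (hm _ (hC c hc h) fun i => h * x i).1
    calc ∫ w, ψ0 (h * c * h⁻¹) (fun i => h * x i) w ∂P
        = ∫ w, ψ0 (h * c * h⁻¹) (fun i => h * x i) w ∂(P.map (act h)) := by rw [(hP h).map_eq]
      _ = ∫ w, ψ0 (h * c * h⁻¹) (fun i => h * x i) (act h w) ∂P :=
        integral_map (hP h).measurable.aemeasurable h1.aestronglyMeasurable
      _ = ∫ w, ψ0 c x w ∂P := by simp only [hψ0, h₁.equiv c hc x]
  · intro c hc x
    rw [← integral_neg]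
    refine integral_congr_ae (Filter.Eventually.of_forall fun w => ?_)
    have := hcy (bg (W₁ c (rotx c x) w)) (bg (W₁ c x w)) (bg_smooth (h₁.smooth c hc _ w))
      (bg_cyc (h₁.smooth c hc _ w) (h₁.rotInv c hc _ w) (h₁.cyc c hc x w))
    simp only [hψ0]
    rw [this, neg_neg]
  · intro c hc x
    have h1 : ∀ w, φ0 c x w = v2 * p0 + ∑ p, ε' p * ψ0 c (fun i => x (p.succAbove i)) w :=
      fun w => hst (bg (W₂ c x w)) (fun p => bg (W₁ c (fun i => x (p.succAbove i)) w))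
        (bg_smooth (h₂.smooth c hc x w))
        fun p => bg_face (h₂.smooth c hc x w) p (hface c hc x w p)
    have h2 : ∀ p ∈ (Finset.univ : Finset (Fin (2 * j + 3))),
        Integrable (fun w => ε' p * ψ0 c (fun i => x (p.succAbove i)) w) P :=
      fun p _ => (hm c hc _).2.const_mul _
    simp only [h1]
    rw [integral_add (integrable_const _) (integrable_finsetSum _ h2), integral_finsetSum _ h2]
    simp only [integral_const, probReal_univ, smul_eq_mul, one_mul, integral_const_mul]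
  · intro c hc x
    set t : ℝ := (tlen ℓ c x : ℝ) with ht
    have ht0 : 0 ≤ t := Nat.cast_nonneg _
    have hsum : ∑ i, (slen ℓ c x i : ℝ) = t := by rw [ht, tlen, Nat.cast_sum]
    have hT0 : 0 ≤ t / (2 * j + 2) := by positivity
    have hT1 : t / (2 * j + 2) ≤ t :=
      div_le_self ht0 (by linarith [(Nat.cast_nonneg j : (0 : ℝ) ≤ j)])
    have hb : ∀ᵐ w ∂P, ∀ y ∈ simplex (2 * j + 1),
        |T (bg (W₁ c x w) y) (curv (bg (W₁ c x w)) y)| ≤
          CT * a0 ^ (j + 1) * C1 * Real.exp (γ * t) := by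
      filter_upwards [hb₁] with w hw y hy
      obtain ⟨e1, e2⟩ := ent_bound (h₁.smooth c hc x w) (h₁.rotInv c hc x w) hy
        (fun i => Nat.cast_nonneg _) hT0 hK (hw c hc x _ hy)
      rw [hsum, ← ha0] at e1 e2
      have hA : ((1 + t / (2 * j + 2)) * (1 + t)) ^ 3 ≤ (1 + t) ^ 6 := by
        calc _ ≤ ((1 + t) * (1 + t)) ^ 3 := by gcongr
          _ = _ := by ring
      have hA' : a0 * ((1 + t / (2 * j + 2)) * (1 + t)) ^ 3 ≤ a0 * (1 + t) ^ 6 :=
        mul_le_mul_of_nonneg_left hA (by linarith)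
      have := hT _ _ (a0 * (1 + t) ^ 6)
        (one_le_mul_of_one_le_of_one_le ha1 (one_le_pow₀ (by linarith)))
        (fun i => (e1 i).trans hA') (fun i i' => (e2 i i').trans hA')
      refine this.trans ?_
      rw [mul_pow, ← pow_mul, mul_assoc, mul_assoc]
      refine mul_le_mul_of_nonneg_left (mul_le_mul_of_nonneg_left (hpoly t ht0) ?_) hCT
      positivity
    exact (abs_int_le P hb).trans_eq (by ring)
  · intro c hc x
    have hsum : ∑ i, (slen ℓ c x i : ℝ) = tlen ℓ c x := by rw [tlen, Nat.cast_sum]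
    have hb : ∀ᵐ w ∂P, ∀ y ∈ simplex (2 * j + 2),
        |pfP j (omega (2 * j + 2) + curv (bg (W₂ c x w)) y)| ≤
          |p0| * B * Real.exp (γ * tlen ℓ c x) := by
      filter_upwards [hb₂] with w hw y hy
      have := pf_bound (h₂.smooth c hc x w) (h₂.rotInv c hc x w) (fun i => Nat.cast_nonneg _)
        (by rw [hsum]) hK hε hγ hγ1 (hw c hc x _ hy).1 (hw c hc x _ hy).2
      rwa [hsum] at this
    exact (abs_int_le P hb).trans_eq (by ring)

end Crest.Agent.R192
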