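import Crest.Agent.R192.Defs

/-! Row 192: the soft minimum of mean distances. -/

set_option autoImplicit false
set_option linter.unusedSectionVars false

namespace Crest.Agent.R192

open Crest.AlgebraR.L1 MeasureTheory Matrix
open scoped ContDiff BoundedContinuousFunction

namespace GibbsAux

variable {G : Type} [Group G] [TopologicalSpace G] [DiscreteTopology G] (ℓ : Len G)

theorem summable_half : Summable fun z => Real.exp (-((ℓ.D + 1 : ℝ) * ℓ.len z)) := by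
  classical
  have h1 : Real.exp (-1) < 1 := Real.exp_lt_one_iff.2 (by norm_num)
  have hg := summable_geometric_of_lt_one (Real.exp_pos (-1)).le h1
  refine summable_of_sum_le (c := ∑' r : ℕ, Real.exp (-1) ^ r) (fun _ => (Real.exp_pos _).le)
    fun s => ?_
  rw [Finset.sum_comp (fun r : ℕ => Real.exp (-((ℓ.D + 1 : ℝ) * r))) ℓ.len]
  refine le_trans (Finset.sum_le_sum fun r _ => ?_)
    (hg.sum_le_tsum _ fun _ _ => by positivity)
  have h2 : (s.filter fun a => ℓ.len a = r).card ≤ 2 ^ (ℓ.D * r) :=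
    (Finset.card_le_card fun a ha =>
      (ℓ.mem_ball r a).2 (Finset.mem_filter.1 ha).2.le).trans (ℓ.card_ball r)
  have h3 : ((s.filter fun a => ℓ.len a = r).card : ℝ) ≤ Real.exp 1 ^ (ℓ.D * r) := by
    refine le_trans (by exact_mod_cast h2) (pow_le_pow_left₀ (a := (2 : ℝ)) zero_le_two ?_ _)
    linarith [Real.add_one_le_exp 1]
  rw [nsmul_eq_mul]
  refine (mul_le_mul_of_nonneg_right h3 (Real.exp_pos _).le).trans (le_of_eq ?_)
  rw [← Real.exp_nat_mul, ← Real.exp_nat_mul, ← Real.exp_add]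
  congr 1
  push_cast
  ring

/-- the inverse temperature -/
noncomputable def lam : ℝ := 2 * (ℓ.D + 1)

theorem lam_pos : 0 < lam ℓ := by unfold lam; positivity

/-- the weights -/
noncomputable def w (z : G) : ℝ := Real.exp (-(lam ℓ * ℓ.len z))

theorem w_pos (z : G) : 0 < w ℓ z := Real.exp_pos _

theorem summable_w : Summable (w ℓ) := by
  refine Summable.of_nonneg_of_le (fun z => (w_pos ℓ z).le) (fun z => ?_) (summable_half ℓ)
  refine Real.exp_le_exp.2 (neg_le_neg (mul_le_mul_of_nonneg_right ?_ (Nat.cast_nonneg _)))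
  have : (0 : ℝ) ≤ ℓ.D := Nat.cast_nonneg _
  unfold lam
  linarith

theorem norm_wf (f : G →ᵇ ℝ) (z : G) : ‖w ℓ z * f z‖ ≤ w ℓ z * ‖f‖ := by
  rw [norm_mul, Real.norm_of_nonneg (w_pos ℓ z).le]
  exact mul_le_mul_of_nonneg_left (f.norm_coe_le_norm z) (w_pos ℓ z).le

theorem summable_wf (f : G →ᵇ ℝ) : Summable fun z => w ℓ z * f z :=
  Summable.of_norm_bounded ((summable_w ℓ).mul_right ‖f‖) (norm_wf ℓ f)

/-- integration against the weights -/
noncomputable def I : (G →ᵇ ℝ) →L[ℝ] ℝ :=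
  LinearMap.mkContinuous
    { toFun := fun f => ∑' z, w ℓ z * f z
      map_add' := fun f g => by
        rw [← (summable_wf ℓ f).tsum_add (summable_wf ℓ g)]
        simp only [BoundedContinuousFunction.add_apply, mul_add]
      map_smul' := fun c f => by
        simp only [BoundedContinuousFunction.smul_apply, smul_eq_mul, RingHom.id_apply,
          ← tsum_mul_left, mul_left_comm] }
    (∑' z, w ℓ z) fun f => tsum_of_norm_bounded ((summable_w ℓ).hasSum.mul_right ‖f‖) (norm_wf ℓ f)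

theorem I_apply (f : G →ᵇ ℝ) : I ℓ f = ∑' z, w ℓ z * f z := rfl

theorem exp_apply (f : G →ᵇ ℝ) (z : G) : NormedSpace.exp f z = Real.exp (f z) := by
  let φ : (G →ᵇ ℝ) →+* ℝ :=
    { toFun := fun f => f z
      map_one' := rfl
      map_mul' := fun _ _ => rfl
      map_zero' := rfl
      map_add' := fun _ _ => rfl }
  rw [Real.exp_eq_exp_ℝ]
  exact NormedSpace.map_exp_of_mem_ball (𝕂 := ℝ) φ
    (BoundedContinuousFunction.evalCLM ℝ z).continuous f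
    ((NormedSpace.expSeries_radius_eq_top ℝ (G →ᵇ ℝ)).symm ▸ edist_lt_top _ _)

/-- the Boltzmann factor -/
noncomputable def bo (h : G →ᵇ ℝ) : G →ᵇ ℝ := NormedSpace.exp ((-lam ℓ) • h)

theorem bo_apply (h : G →ᵇ ℝ) (z : G) : bo ℓ h z = Real.exp (-(lam ℓ * h z)) := by
  rw [bo, exp_apply, BoundedContinuousFunction.smul_apply, smul_eq_mul, neg_mul]

theorem contDiff_bo : ContDiff ℝ ∞ (bo ℓ) := by
  have h : ContDiff ℝ ∞ (NormedSpace.exp : (G →ᵇ ℝ) → G →ᵇ ℝ) :=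
    contDiff_iff_contDiffAt.2 fun x => (NormedSpace.exp_analytic x).contDiffAt
  exact h.comp (contDiff_id.const_smul _)

/-- unnormalised Gibbs mean -/
noncomputable def T (a h : G →ᵇ ℝ) : ℝ := I ℓ (a * bo ℓ h)

theorem contDiff_T (a : G →ᵇ ℝ) : ContDiff ℝ ∞ (T ℓ a) :=
  (I ℓ).contDiff.comp (contDiff_const.mul (contDiff_bo ℓ))

theorem hasFDerivAt_T (a h : G →ᵇ ℝ) : ∃ D : (G →ᵇ ℝ) →L[ℝ] ℝ, HasFDerivAt (T ℓ a) D h ∧
    ∀ ν, D ν = -lam ℓ * T ℓ (a * ν) h := by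
  have h1 := (hasFDerivAt_exp (𝕂 := ℝ) (x := (-lam ℓ) • h)).comp h
    ((hasFDerivAt_id h).const_smul (-lam ℓ))
  refine ⟨_, (I ℓ).hasFDerivAt.comp h (h1.const_mul a), fun ν => ?_⟩
  rw [T, ← smul_eq_mul, ← map_smul, ContinuousLinearMap.comp_apply]
  congr 1
  ext z
  simp [bo]
  ring

theorem T_mono {a b : G →ᵇ ℝ} (hab : ∀ z, a z ≤ b z) (h : G →ᵇ ℝ) : T ℓ a h ≤ T ℓ b h := by
  refine (summable_wf ℓ _).tsum_le_tsum (fun z => ?_) (summable_wf ℓ _)
  refine mul_le_mul_of_nonneg_left ?_ (w_pos ℓ z).le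
  simp only [BoundedContinuousFunction.mul_apply, bo_apply]
  exact mul_le_mul_of_nonneg_right (hab z) (Real.exp_pos _).le

theorem T_smul (c : ℝ) (a h : G →ᵇ ℝ) : T ℓ (c • a) h = c * T ℓ a h := by
  rw [T, smul_mul_assoc, map_smul, smul_eq_mul, T]

theorem T_add (a b h : G →ᵇ ℝ) : T ℓ (a + b) h = T ℓ a h + T ℓ b h := by
  rw [T, add_mul, map_add, T, T]

theorem T_one (h : G →ᵇ ℝ) : T ℓ 1 h = ∑' z, Real.exp (-(lam ℓ * (ℓ.len z + h z))) := by
  rw [T, one_mul, I_apply]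
  simp only [bo_apply, w, ← Real.exp_add, mul_add, neg_add]

theorem summable_one (h : G →ᵇ ℝ) :
    Summable fun z => Real.exp (-(lam ℓ * (ℓ.len z + h z))) := by
  have := summable_wf ℓ (bo ℓ h)
  simpa only [bo_apply, w, ← Real.exp_add, mul_add, neg_add] using this

theorem T_pos (h : G →ᵇ ℝ) : 0 < T ℓ 1 h := by
  rw [T_one]
  exact (summable_one ℓ h).tsum_pos (fun _ => (Real.exp_pos _).le) 1 (Real.exp_pos _)

theorem abs_T_le (a h : G →ᵇ ℝ) : |T ℓ a h| ≤ ‖a‖ * T ℓ 1 h := by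
  rw [abs_le, ← neg_mul, ← T_smul, ← T_smul]
  constructor <;> refine T_mono ℓ (fun z => ?_) h
  · simpa using (abs_le.1 (a.norm_coe_le_norm z)).1
  · simpa using (abs_le.1 (a.norm_coe_le_norm z)).2

theorem T_sq_le (a h : G →ᵇ ℝ) : T ℓ a h ^ 2 ≤ T ℓ (a * a) h * T ℓ 1 h := by
  have hp := T_pos ℓ h
  set c := T ℓ a h / T ℓ 1 h with hc
  have h1 : T ℓ ((2 * c) • a) h ≤ T ℓ (a * a + c ^ 2 • (1 : G →ᵇ ℝ)) h := by
    refine T_mono ℓ (fun z => ?_) h
    simp only [BoundedContinuousFunction.smul_apply, BoundedContinuousFunction.add_apply,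
      BoundedContinuousFunction.mul_apply, BoundedContinuousFunction.coe_one, Pi.one_apply,
      smul_eq_mul]
    nlinarith [sq_nonneg (a z - c)]
  rw [T_add, T_smul, T_smul] at h1
  have h2 : T ℓ a h = c * T ℓ 1 h := by rw [hc]; field_simp
  rw [h2] at h1 ⊢
  nlinarith

/-- the normalising constant -/
noncomputable def Cl : ℝ := ∑' z, Real.exp (-((ℓ.D + 1 : ℝ) * ℓ.len z))

noncomputable def C0 : ℝ := max 0 (Real.log (Cl ℓ) / lam ℓ)

/-- the soft minimum -/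
noncomputable def Φ (h : G →ᵇ ℝ) : ℝ := C0 ℓ - (lam ℓ)⁻¹ * Real.log (T ℓ 1 h)

theorem contDiff_Φ : ContDiff ℝ ∞ (Φ ℓ) :=
  contDiff_const.sub (contDiff_const.mul ((contDiff_T ℓ 1).log fun h => (T_pos ℓ h).ne'))

theorem fderiv_Φ (h ν : G →ᵇ ℝ) : fderiv ℝ (Φ ℓ) h ν = T ℓ ν h * (T ℓ 1 h)⁻¹ := by
  obtain ⟨D, hD, hD'⟩ := hasFDerivAt_T ℓ 1 h
  have := ((hD.log (T_pos ℓ h).ne').const_mul (lam ℓ)⁻¹).const_sub (C0 ℓ)
  refine (congrArg (fun S => S ν) this.fderiv).trans ?_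
  have hl := (lam_pos ℓ).ne'
  simp only [_root_.neg_apply, _root_.smul_apply, hD', one_mul,
    smul_eq_mul]
  field_simp

theorem fderiv2_Φ (h ν : G →ᵇ ℝ) : fderiv ℝ (fderiv ℝ (Φ ℓ)) h ν ν =
    -lam ℓ * ((T ℓ (ν * ν) h * T ℓ 1 h - T ℓ ν h ^ 2) / T ℓ 1 h ^ 2) := by
  have hd : DifferentiableAt ℝ (fderiv ℝ (Φ ℓ)) h :=
    ((contDiff_Φ ℓ).fderiv_right (m := 1) (by norm_cast)).differentiable one_ne_zero h
  have e1 : fderiv ℝ (fun h' => fderiv ℝ (Φ ℓ) h' ν) h ν = fderiv ℝ (fderiv ℝ (Φ ℓ)) h ν ν := by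
    rw [fderiv_clm_apply hd (differentiableAt_const _)]
    simp
  obtain ⟨D, hD, hD'⟩ := hasFDerivAt_T ℓ 1 h
  obtain ⟨E, hE, hE'⟩ := hasFDerivAt_T ℓ ν h
  have hp := (T_pos ℓ h).ne'
  have := hE.mul ((hasDerivAt_inv hp).comp_hasFDerivAt h hD)
  rw [← e1]
  simp only [fderiv_Φ]
  refine (congrArg (fun S => S ν) this.fderiv).trans ?_
  simp only [_root_.add_apply, _root_.smul_apply, hD', hE', one_mul,
    smul_eq_mul, Function.comp]
  field_simp
  ring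

theorem pr_eq {E : Type} [AddCommGroup E] [Module ℝ E] (ξ : G → E) (μ : G →₀ ℝ) :
    pr ξ μ = ∑ x ∈ μ.support, μ x • ξ x := rfl

theorem mass_eq (μ : G →₀ ℝ) : mass μ = ∑ x ∈ μ.support, μ x := by
  simp only [mass, pr_eq, smul_eq_mul, mul_one]

theorem len_add_pr {μ : G →₀ ℝ} (hμ : mass μ = 1) (z : G) :
    ℓ.len z + pr (xiD ℓ) μ z = mdist ℓ z μ := by
  rw [mass_eq] at hμ
  simp only [mdist, pr_eq,
    BoundedContinuousFunction.sum_apply, BoundedContinuousFunction.smul_apply, xiD_apply,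
    smul_eq_mul, mul_sub, Finset.sum_sub_distrib, ← Finset.sum_mul]
  rw [hμ]
  ring

theorem T_pr {μ : G →₀ ℝ} (hμ : mass μ = 1) :
    T ℓ 1 (pr (xiD ℓ) μ) = ∑' z, Real.exp (-(lam ℓ * mdist ℓ z μ)) := by
  simp only [T_one, len_add_pr ℓ hμ]

theorem summable_pr {μ : G →₀ ℝ} (hμ : mass μ = 1) :
    Summable fun z => Real.exp (-(lam ℓ * mdist ℓ z μ)) := by
  simpa only [len_add_pr ℓ hμ] using summable_one ℓ (pr (xiD ℓ) μ)

theorem mdist_tr (g z : G) (μ : G →₀ ℝ) : mdist ℓ (g * z) (tr g μ) = mdist ℓ z μ := by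
  refine (Finsupp.linearCombination_mapDomain ℝ _ _).trans ?_
  rw [mdist]
  congr 2
  funext x
  simp [mul_assoc]

theorem mass_tr (g : G) (μ : G →₀ ℝ) : mass (tr g μ) = mass μ :=
  Finsupp.linearCombination_mapDomain ℝ _ _

theorem jensen {μ : G →₀ ℝ} (hμ : IsProb μ) (a : ℝ) (z : G) :
    Real.exp (-(a * mdist ℓ z μ)) ≤
      ∑ x ∈ μ.support, μ x * Real.exp (-(a * ℓ.len (x⁻¹ * z))) := by
  have h1 := hμ.2
  rw [mass_eq] at h1
  have := convexOn_exp.map_sum_le (t := μ.support) (w := μ)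
    (p := fun x => -(a * ℓ.len (x⁻¹ * z))) (fun x _ => hμ.1 x) h1 fun _ _ => Set.mem_univ _
  refine le_trans (le_of_eq ?_) this
  simp only [mdist, pr_eq, smul_eq_mul, Finset.mul_sum, ← Finset.sum_neg_distrib]
  congr 1
  exact Finset.sum_congr rfl fun x _ => by ring

theorem le_Φ {μ : G →₀ ℝ} (hμ : IsProb μ) {L : ℝ} (hL : ∀ z, 2 * L ≤ mdist ℓ z μ) :
    L ≤ Φ ℓ (pr (xiD ℓ) μ) := by
  have h1 := hμ.2
  rw [mass_eq] at h1
  have hs : HasSum (fun z => ∑ x ∈ μ.support, μ x * Real.exp (-((ℓ.D + 1 : ℝ) * ℓ.len (x⁻¹ * z))))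
      (∑ x ∈ μ.support, μ x * Cl ℓ) :=
    hasSum_sum fun x _ => ((Equiv.mulLeft x⁻¹).hasSum_iff.2 (summable_half ℓ).hasSum).mul_left _
  rw [← Finset.sum_mul, h1, one_mul] at hs
  have hl := lam_pos ℓ
  have h2 : T ℓ 1 (pr (xiD ℓ) μ) ≤ Real.exp (-(lam ℓ * L)) * Cl ℓ := by
    rw [T_pr ℓ hμ.2]
    refine hasSum_le (fun z => ?_) (summable_pr ℓ hμ.2).hasSum (hs.mul_left _)
    refine le_trans ?_ (mul_le_mul_of_nonneg_left (jensen ℓ hμ _ z) (Real.exp_pos _).le)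
    rw [← Real.exp_add]
    refine Real.exp_le_exp.2 ?_
    have := mul_le_mul_of_nonneg_left (hL z) (show (0 : ℝ) ≤ ℓ.D + 1 by positivity)
    unfold lam
    linarith
  have hC : 0 < Cl ℓ :=
    (summable_half ℓ).tsum_pos (fun _ => (Real.exp_pos _).le) 1 (Real.exp_pos _)
  have h3 := Real.log_le_log (T_pos ℓ _) h2
  rw [Real.log_mul (Real.exp_pos _).ne' hC.ne', Real.log_exp] at h3
  have h4 := mul_le_mul_of_nonneg_left h3 (inv_pos.2 hl).le
  have h5 : (lam ℓ)⁻¹ * (-(lam ℓ * L) + Real.log (Cl ℓ)) = -L + Real.log (Cl ℓ) / lam ℓ := by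
    field_simp
  have h6 : Real.log (Cl ℓ) / lam ℓ ≤ C0 ℓ := le_max_right _ _
  unfold Φ
  linarith

end GibbsAux

open GibbsAux in
theorem exists_gibbs {G : Type} [Group G] [TopologicalSpace G] [DiscreteTopology G] (ℓ : Len G) :
    Nonempty (Gibbs ℓ) := by
  have hl := lam_pos ℓ
  refine ⟨⟨Φ ℓ, lam ℓ, C0 ℓ, hl, le_max_left _ _, contDiff_Φ ℓ, fun h ν => ?_, fun h ν => ?_,
    fun h ν => ?_, fun g μ hμ => ?_, fun μ hμ => ?_, fun μ hμ z => ?_, fun μ hμ L hL => ?_⟩⟩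
  · have hp := T_pos ℓ h
    rw [fderiv_Φ, abs_mul, abs_of_pos (inv_pos.2 hp), ← div_eq_mul_inv, div_le_iff₀ hp]
    exact abs_T_le ℓ ν h
  · rw [fderiv2_Φ, neg_mul, neg_nonpos]
    exact mul_nonneg hl.le (div_nonneg (sub_nonneg.2 (T_sq_le ℓ ν h)) (sq_nonneg _))
  · have hp := T_pos ℓ h
    rw [fderiv2_Φ, neg_mul, neg_neg]
    refine mul_le_mul_of_nonneg_left ?_ hl.le
    rw [div_le_iff₀ (by positivity)]
    have h1 : T ℓ (ν * ν) h ≤ ‖ν‖ ^ 2 * T ℓ 1 h := by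
      refine (le_abs_self _).trans ((abs_T_le ℓ _ h).trans (mul_le_mul_of_nonneg_right ?_ hp.le))
      rw [sq]
      exact norm_mul_le _ _
    have h2 := mul_le_mul_of_nonneg_right h1 hp.le
    nlinarith [sq_nonneg (T ℓ ν h)]
  · unfold Φ
    rw [T_pr ℓ hμ, T_pr ℓ ((mass_tr g μ).trans hμ), ← (Equiv.mulLeft g).tsum_eq]
    simp only [Equiv.coe_mulLeft, mdist_tr]
  · refine le_Φ ℓ hμ fun z => ?_
    rw [mul_zero, mdist, pr_eq]
    exact Finset.sum_nonneg fun x _ => mul_nonneg (hμ.1 x) (Nat.cast_nonneg _)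
  · have h1 : Real.exp (-(lam ℓ * mdist ℓ z μ)) ≤ T ℓ 1 (pr (xiD ℓ) μ) := by
      rw [T_pr ℓ hμ.2]
      exact (summable_pr ℓ hμ.2).le_tsum z fun _ _ => (Real.exp_pos _).le
    have h2 := Real.log_le_log (Real.exp_pos _) h1
    rw [Real.log_exp] at h2
    have h3 := mul_le_mul_of_nonneg_left h2 (inv_pos.2 hl).le
    have h4 : (lam ℓ)⁻¹ * -(lam ℓ * mdist ℓ z μ) = -mdist ℓ z μ := by field_simp
    unfold Φ
    linarith
  · by_contra hne
    push Not at hne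
    exact absurd (le_Φ ℓ hμ hne) (not_le.2 hL)

end Crest.Agent.R192
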