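import Crest.Agent.R192.Defs
import Crest.Prelude.Def_GroupVNA

/-! Row 192: Kaplansky's idempotent conjecture in characteristic zero from the ℓ¹-Bass statement. -/

set_option autoImplicit false

namespace Crest.Agent.R192

open Crest.AlgebraR.L1 MeasureTheory Matrix
open scoped ContDiff BoundedContinuousFunction

namespace KapAux

open Crest.OpAlg
open scoped InnerProductSpace ComplexConjugate Cardinal

variable {G : Type} [Group G]

theorem leftRegular_apply (g : G) (ξ : ltwo G) (h : G) :
    (leftRegular g ξ : G → ℂ) h = (ξ : G → ℂ) (g⁻¹ * h) := rfl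

/-- the left regular representation as a monoid homomorphism -/
noncomputable def lam (G : Type) [Group G] : G →* (ltwo G →L[ℂ] ltwo G) where
  toFun := leftRegular
  map_one' := by
    ext ξ h
    simp [leftRegular_apply]
  map_mul' g g' := by
    ext ξ h
    simp [leftRegular_apply, mul_assoc]

/-- the left regular representation of the group algebra -/
noncomputable def Lam (G : Type) [Group G] :
    MonoidAlgebra ℂ G →ₐ[ℂ] (ltwo G →L[ℂ] ltwo G) :=
  MonoidAlgebra.lift ℂ _ G (lam G)

theorem Lam_single (g : G) (c : ℂ) (ξ : ltwo G) (h : G) :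
    (Lam G (MonoidAlgebra.single g c) ξ : G → ℂ) h = c * (ξ : G → ℂ) (g⁻¹ * h) := by
  rw [Lam, MonoidAlgebra.lift_single]
  rfl

/-- right translation -/
noncomputable def rho (g : G) : ltwo G ≃ₗᵢ[ℂ] ltwo G := ltwoReindex (Equiv.mulRight g)

theorem rho_apply (g : G) (ξ : ltwo G) (h : G) :
    (rho g ξ : G → ℂ) h = (ξ : G → ℂ) (h * g) := rfl

theorem rho_rho_inv (g : G) (ξ : ltwo G) : rho g (rho g⁻¹ ξ) = ξ := by
  ext h
  simp [rho_apply]

theorem Lam_rho (a : MonoidAlgebra ℂ G) (g : G) (ξ : ltwo G) :
    Lam G a (rho g ξ) = rho g (Lam G a ξ) := by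
  induction a using MonoidAlgebra.induction_linear with
  | zero => simp
  | add a b ha hb => simp [ha, hb]
  | single x c =>
    ext h
    rw [Lam_single, rho_apply, rho_apply, Lam_single, mul_assoc]

open Classical in
/-- the indicator of the identity -/
noncomputable def del (G : Type) [Group G] : ltwo G := lp.single 2 (1 : G) (1 : ℂ)

theorem inner_del (ξ : ltwo G) : ⟪del G, ξ⟫_ℂ = (ξ : G → ℂ) 1 := by
  classical
  rw [del, lp.inner_single_left]
  simp

theorem Lam_del (a : MonoidAlgebra ℂ G) (h : G) :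
    (Lam G a (del G) : G → ℂ) h = a.coeff h := by
  classical
  induction a using MonoidAlgebra.induction_linear with
  | zero => simp
  | add a b ha hb => simp [ha, hb]
  | single x c =>
    rw [Lam_single, del, lp.single_apply, MonoidAlgebra.coeff_single, Finsupp.single_apply, Pi.single_apply]
    by_cases hx : x = h
    · simp [hx]
    · rw [if_neg hx, if_neg, mul_zero]
      intro h1
      exact hx (inv_mul_eq_one.1 h1)

theorem inner_Lam_del (a : MonoidAlgebra ℂ G) (ξ : ltwo G)
    (hξ : ∀ g : G, conj ((ξ : G → ℂ) g) = (ξ : G → ℂ) g⁻¹) :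
    ⟪ξ, Lam G a (del G)⟫_ℂ = (Lam G a ξ : G → ℂ) 1 := by
  classical
  induction a using MonoidAlgebra.induction_linear with
  | zero => simp
  | add a b ha hb => simp [ha, hb]
  | single x c =>
    have h1 : Lam G (MonoidAlgebra.single x c) (del G) = lp.single 2 x c := by
      ext h
      rw [Lam_del, MonoidAlgebra.coeff_single, Finsupp.single_apply, lp.single_apply, Pi.single_apply]
      simp [eq_comm]
    rw [h1, lp.inner_single_right, Lam_single, mul_one, ← hξ]
    simp

/-- A countable domain of characteristic zero embeds in `ℂ`. -/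
theorem exists_embedding (S : Type) [CommRing S] [IsDomain S] [CharZero S] (hS : #S ≤ ℵ₀) :
    ∃ φ : S →+* ℂ, Function.Injective φ := by
  let P := MvPolynomial ℂ S
  let K := FractionRing P
  let L := AlgebraicClosure K
  have hc : #ℂ = Cardinal.continuum := Cardinal.mk_complex
  have hP : #P = Cardinal.continuum := by
    rw [MvPolynomial.cardinalMk_eq_max, hc,
      sup_eq_right.2 (hS.trans Cardinal.aleph0_le_continuum),
      sup_eq_left.2 Cardinal.aleph0_le_continuum]
  have hK : #K = Cardinal.continuum := by rw [FractionRing.cardinalMk, hP]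
  have hL : #L = Cardinal.continuum := by
    refine le_antisymm ?_ ?_
    · refine (Algebra.IsAlgebraic.cardinalMk_le_max K L).trans ?_
      rw [hK, max_eq_left Cardinal.aleph0_le_continuum]
    · rw [← hK]
      exact Cardinal.mk_le_of_injective (algebraMap K L).injective
  obtain ⟨ψ⟩ := IsAlgClosed.ringEquiv_of_equiv_of_charZero (K := L) (L := ℂ)
    (by rw [hL]; exact Cardinal.aleph0_lt_continuum) (Cardinal.eq.1 (hL.trans hc.symm))
  refine ⟨(ψ : L →+* ℂ).comp ((algebraMap K L).comp ((algebraMap P K).comp MvPolynomial.C)), ?_⟩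
  exact ψ.injective.comp ((algebraMap K L).injective.comp
    ((IsFractionRing.injective P K).comp (MvPolynomial.C_injective ℂ S)))

theorem mapRingHom_injective {R S : Type} [CommRing R] [CommRing S] (φ : R →+* S)
    (hφ : Function.Injective φ) : Function.Injective (MonoidAlgebra.mapRingHom G φ) := by
  intro a b h
  ext g
  apply hφ
  rw [← MonoidAlgebra.coeff_mapRingHom, ← MonoidAlgebra.coeff_mapRingHom, h]

end KapAux

open KapAux in
/-- Kaplansky: an idempotent of `ℂ[G]` with vanishing coefficient at `1` is zero. -/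
theorem kaplansky_zero (G : Type) [Group G] (e : MonoidAlgebra ℂ G) (he : e * e = e)
    (h1 : e.coeff 1 = 0) : e = 0 := by
  let K : Submodule ℂ (Crest.OpAlg.ltwo G) := (Lam G e - 1).ker
  have hK : ∀ y, y ∈ K ↔ Lam G e y = y := fun y => by
    simp [K, sub_eq_zero]
  have : CompleteSpace K := (ContinuousLinearMap.isClosed_ker _).completeSpace_coe
  have hrho : ∀ g, ∀ y ∈ K, rho g y ∈ K := fun g y hy => by
    rw [hK] at hy ⊢
    rw [Lam_rho, hy]
  have hve : Lam G e (del G) ∈ K := by
    rw [hK, ← mul_apply_eq_comp, ← map_mul, he]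
  set ξ := K.starProjection (del G) with hξ
  have hξK : ξ ∈ K := K.starProjection_apply_mem _
  have hin : ∀ y ∈ K, inner ℂ ξ y = (y : G → ℂ) 1 := fun y hy => by
    have := K.starProjection_inner_eq_zero (del G) y hy
    rw [inner_sub_left, inner_del, sub_eq_zero] at this
    exact this.symm
  have hco : ∀ g, (ξ : G → ℂ) g = inner ℂ ξ (rho g ξ) := fun g => by
    rw [hin _ (hrho g ξ hξK), rho_apply, one_mul]
  have hsa : ∀ g : G, (starRingEnd ℂ) ((ξ : G → ℂ) g) = (ξ : G → ℂ) g⁻¹ := fun g => by
    rw [hco g, hco g⁻¹, inner_conj_symm, ← (rho g).inner_map_map ξ (rho g⁻¹ ξ), rho_rho_inv]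
  have h2 : inner ℂ ξ ξ = 0 := by
    rw [hin ξ hξK, ← (hK ξ).1 hξK, ← inner_Lam_del e ξ hsa, hin _ hve, Lam_del, h1]
  have h3 : ξ = 0 := inner_self_eq_zero.1 h2
  ext g
  have := hin _ (hrho g _ hve)
  rw [h3, inner_zero_left, rho_apply, one_mul, Lam_del] at this
  simpa using this.symm

namespace KapAux

variable {G : Type} [Group G]

theorem isL1_of_idem (e : MonoidAlgebra ℂ G) (he : e * e = e) :
    IsL1IdempotentMatrix (fun (_ _ : Fin 1) (g : G) => e.coeff g) := by
  refine ⟨fun _ _ => ?_, fun _ _ x => ?_⟩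
  · refine summable_of_ne_finset_zero (s := e.coeff.support) fun g hg => ?_
    change ‖e.coeff g‖ = 0
    rw [Finsupp.notMem_support_iff.1 hg, norm_zero]
  · rw [Fin.sum_univ_one, conv]
    change ∑' y, e.coeff y * e.coeff (y⁻¹ * x) = e.coeff x
    conv_rhs => rw [← he, MonoidAlgebra.coeff_mul_apply_left]
    rw [Finsupp.sum]
    refine tsum_eq_sum fun g hg => ?_
    rw [Finsupp.notMem_support_iff.1 hg, zero_mul]

theorem complex_case (hB : BassStmt) (hG : ∀ g : G, IsOfFinOrder g → g = 1)
    (e : MonoidAlgebra ℂ G) (he : e * e = e) : e = 0 ∨ e = 1 := by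
  have hb := (hB G 1 le_rfl _ (isL1_of_idem e he)).2
  let ε : MonoidAlgebra ℂ G →ₐ[ℂ] ℂ := MonoidAlgebra.lift ℂ ℂ G 1
  have hε : HasSum (fun g => e.coeff g) (ε e) := by
    have : ε e = ∑ g ∈ e.coeff.support, e.coeff g := by
      simp [ε, MonoidAlgebra.lift_apply, Finsupp.sum]
    rw [this]
    exact hasSum_sum_of_ne_finset_zero fun g hg => Finsupp.notMem_support_iff.1 hg
  have h1 := hε.tsum_fiberwise ConjClasses.mk
  have h2 : HasSum (fun C : ConjClasses G => ∑' g : ConjClasses.mk ⁻¹' {C}, e.coeff g)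
      (∑' g : ConjClasses.mk ⁻¹' {ConjClasses.mk (1 : G)}, e.coeff g) := by
    refine hasSum_single (ConjClasses.mk (1 : G)) fun C hC => ?_
    obtain ⟨g, rfl⟩ := ConjClasses.mk_surjective C
    have hg : ¬ IsOfFinOrder g := fun h => hC (by rw [hG g h])
    have := hb g hg
    rw [classTrace, ConjClasses.carrier_eq_preimage_mk] at this
    simpa using this
  have h3 : (ConjClasses.mk ⁻¹' {ConjClasses.mk (1 : G)} : Set G) = {1} := by
    ext g
    simp [ConjClasses.mk_eq_mk_iff_isConj]
  have h4 : ε e = e.coeff 1 := by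
    rw [h1.unique h2, h3, tsum_singleton 1 (fun g => e.coeff g)]
  have h5 : ε e * ε e = ε e := by rw [← map_mul, he]
  rcases IsIdempotentElem.iff_eq_zero_or_one.1 h5 with h | h
  · exact Or.inl (kaplansky_zero G e he (h4 ▸ h))
  · right
    have h6 : (1 - e) * (1 - e) = 1 - e := (IsIdempotentElem.one_sub he)
    have := kaplansky_zero G (1 - e) h6 (by
      rw [MonoidAlgebra.coeff_sub, Finsupp.sub_apply, ← h4, h]
      simp [MonoidAlgebra.one_def])
    exact (sub_eq_zero.1 this).symm

end KapAux

open KapAux in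
theorem kaplansky_of_bass (hB : BassStmt) (G : Type) [Group G]
    (hG : ∀ g : G, IsOfFinOrder g → g = 1) (R : Type) [CommRing R] [IsDomain R] [CharZero R]
    (e : MonoidAlgebra R G) (he : e * e = e) : e = 0 ∨ e = 1 := by
  classical
  let s : Finset R := e.coeff.support.image e.coeff
  let S : Subalgebra ℤ R := Algebra.adjoin ℤ (s : Set R)
  have hS : Cardinal.mk S ≤ Cardinal.aleph0 := by
    refine (Algebra.cardinalMk_adjoin_le ℤ (s : Set R)).trans ?_
    refine sup_le (sup_le (by simp) ?_) le_rfl
    exact (s.finite_toSet.lt_aleph0).le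
  have hmem : ∀ g, e.coeff g ∈ S := fun g => by
    by_cases hg : e.coeff g = 0
    · rw [hg]; exact S.zero_mem
    · exact Algebra.subset_adjoin
        (Finset.mem_coe.2 (Finset.mem_image_of_mem _ (Finsupp.mem_support_iff.2 hg)))
  let E : MonoidAlgebra S G := MonoidAlgebra.ofCoeff
    (Finsupp.onFinset e.coeff.support (fun g => ⟨e.coeff g, hmem g⟩) fun g hg => by
      rw [Finsupp.mem_support_iff]
      intro h
      exact hg (Subtype.ext h))
  let ι : S →+* R := S.val.toRingHom
  have hι : Function.Injective (MonoidAlgebra.mapRingHom G ι) :=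
    mapRingHom_injective ι Subtype.val_injective
  have hE : MonoidAlgebra.mapRingHom G ι E = e := by
    ext g
    rw [MonoidAlgebra.coeff_mapRingHom]
    rfl
  have hEE : E * E = E := hι (by rw [map_mul, hE, he])
  obtain ⟨φ, hφ⟩ := exists_embedding S hS
  have hφ' := mapRingHom_injective (G := G) φ hφ
  rcases complex_case hB hG (MonoidAlgebra.mapRingHom G φ E) (by rw [← map_mul, hEE]) with h | h
  · left
    rw [← hE, hφ' (h.trans (map_zero _).symm), map_zero]
  · right
    rw [← hE, hφ' (h.trans (map_one _).symm), map_one]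

end Crest.Agent.R192
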