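import Crest.Agent.R192.Defs

/-! Row 192: the window kernels. -/

set_option autoImplicit false

namespace Crest.Agent.R192

open Crest.AlgebraR.L1 MeasureTheory Matrix
open scoped ContDiff BoundedContinuousFunction

/-- Heaviside step -/
noncomputable def heav (x : ℝ) : ℝ := if 0 < x then 1 else 0

namespace KernelAux

theorem sigP_deriv (x : ℝ) : HasDerivAt sigP (Real.smoothTransition x) x :=
  (Real.smoothTransition.continuous.integral_hasStrictDerivAt 0 x).hasDerivAt

theorem sigP_smooth : ContDiff ℝ ∞ sigP := by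
  refine contDiff_infty_iff_deriv.2 ⟨fun x => (sigP_deriv x).differentiableAt, ?_⟩
  have : deriv sigP = Real.smoothTransition := funext fun x => (sigP_deriv x).deriv
  rw [this]
  exact Real.smoothTransition.contDiff

theorem sigP_nonpos {x : ℝ} (h : x ≤ 0) : sigP x = 0 := by
  rw [sigP, intervalIntegral.integral_congr (g := fun _ => 0)]
  · simp
  · intro t ht
    rw [Set.uIcc_of_ge h] at ht
    exact Real.smoothTransition.zero_of_nonpos ht.2

theorem sigP_sub {a b : ℝ} (ha : 1 ≤ a) (hb : 1 ≤ b) : sigP a - sigP b = a - b := by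
  rw [sigP, sigP, intervalIntegral.integral_interval_sub_left
    (Real.smoothTransition.continuous.intervalIntegrable _ _)
    (Real.smoothTransition.continuous.intervalIntegrable _ _),
    intervalIntegral.integral_congr (g := fun _ => 1)]
  · simp
  · intro t ht
    exact Real.smoothTransition.one_of_one_le ((le_min hb ha).trans ht.1)

theorem kerK_one {δ0 δ x : ℝ} (h0 : 0 < δ0) (h : 0 < δ) (h1 : δ + δ0 ≤ x) : kerK δ0 δ x = 1 := by
  rw [kerK, sigP_sub (by rw [le_div_iff₀ h0]; linarith) (by rw [le_div_iff₀ h0]; linarith)]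
  field_simp
  ring

theorem kerK_hasDeriv {δ0 : ℝ} (h0 : 0 < δ0) (δ x : ℝ) : HasDerivAt (kerK δ0 δ)
    ((Real.smoothTransition (x / δ0) - Real.smoothTransition ((x - δ) / δ0)) / δ) x := by
  have h1 := (sigP_deriv (x / δ0)).comp x ((hasDerivAt_id x).div_const δ0)
  have h2 := (sigP_deriv ((x - δ) / δ0)).comp x (((hasDerivAt_id x).sub_const δ).div_const δ0)
  refine HasDerivAt.congr_deriv ((h1.sub h2).const_mul (δ0 / δ)) ?_
  rw [← sub_mul, mul_comm, mul_assoc, div_mul_div_comm, one_mul, div_mul_cancel_left₀ h0.ne',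
    ← div_eq_mul_inv]

theorem sig_sub_mem {δ0 δ : ℝ} (h0 : 0 < δ0) (h : 0 < δ) (x : ℝ) :
    0 ≤ Real.smoothTransition (x / δ0) - Real.smoothTransition ((x - δ) / δ0) ∧
      Real.smoothTransition (x / δ0) - Real.smoothTransition ((x - δ) / δ0) ≤ 1 := by
  have h1 := Real.smoothTransition.monotone
    (show (x - δ) / δ0 ≤ x / δ0 from div_le_div_of_nonneg_right (by linarith) h0.le)
  have h2 := Real.smoothTransition.le_one (x / δ0)
  have h3 := Real.smoothTransition.nonneg ((x - δ) / δ0)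
  constructor <;> linarith

/-- at most one term of the periodisation does not vanish -/
theorem per_eq {f : ℝ → ℝ} (hf : ∀ t, t ≤ 0 ∨ 1 ≤ t → f t = 0) {x : ℝ} (m : ℤ) (h0 : 0 ≤ x - m)
    (h1 : x - m ≤ 1) : per f x = |f (x - m)| := by
  refine finsum_eq_single _ m fun m' hm => abs_eq_zero.2 (hf _ ?_)
  rcases lt_or_gt_of_ne hm with h | h
  · have : (m' : ℝ) + 1 ≤ m := by exact_mod_cast h
    right; linarith
  · have : (m : ℝ) + 1 ≤ m' := by exact_mod_cast h
    left; linarith

theorem per_fract {f : ℝ → ℝ} (hf : ∀ t, t ≤ 0 ∨ 1 ≤ t → f t = 0) (x : ℝ) :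
    per f x = |f (Int.fract x)| :=
  per_eq hf ⌊x⌋ (Int.fract_nonneg x) (Int.fract_lt_one x).le

end KernelAux

open KernelAux

theorem Step.deriv_eq_zero {K : ℝ → ℝ} (hK : Step K) (t : ℝ) (ht : t ≤ 0 ∨ 1 ≤ t) :
    deriv K t = 0 := by
  rcases ht with ht | ht
  · refine IsLocalMin.deriv_eq_zero (Filter.Eventually.of_forall fun y => ?_)
    rw [hK.zero t ht, ← hK.zero _ (min_le_right y 0)]
    exact hK.mono (min_le_left _ _)
  · refine IsLocalMax.deriv_eq_zero (Filter.Eventually.of_forall fun y => ?_)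
    rw [hK.one t ht, ← hK.one _ (le_max_right y 1)]
    exact hK.mono (le_max_left _ _)

theorem Step.mem {K : ℝ → ℝ} (hK : Step K) (t : ℝ) : 0 ≤ K t ∧ K t ≤ 1 :=
  ⟨(hK.zero _ (min_le_right t 0)).symm.le.trans (hK.mono (min_le_left t 0)),
    (hK.mono (le_max_left t 1)).trans (hK.one _ (le_max_right t 1)).le⟩

theorem heav_step : Step heav := by
  refine ⟨fun x hx => if_neg (not_lt.2 hx), fun x hx => if_pos (by linarith), fun x y hxy => ?_⟩
  unfold heav
  split_ifs with h1 h2 h2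
  · exact le_rfl
  · exact absurd (h1.trans_le hxy) h2
  · exact zero_le_one
  · exact le_rfl

theorem sig_step {δ0 : ℝ} (h0 : 0 < δ0) (h1 : δ0 ≤ 1) :
    Step fun x => Real.smoothTransition (x / δ0) := by
  refine ⟨fun x hx => Real.smoothTransition.zero_of_nonpos (div_nonpos_of_nonpos_of_nonneg hx h0.le),
    fun x hx => Real.smoothTransition.one_of_one_le (by rw [le_div_iff₀ h0]; linarith),
    fun x y hxy => Real.smoothTransition.monotone (div_le_div_of_nonneg_right hxy h0.le)⟩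

theorem kerK_smooth (δ0 δ : ℝ) : ContDiff ℝ ∞ (kerK δ0 δ) := by
  exact contDiff_const.mul ((sigP_smooth.comp (contDiff_id.div_const δ0)).sub
    (sigP_smooth.comp ((contDiff_id.sub contDiff_const).div_const δ0)))

theorem kerK_step {δ0 δ : ℝ} (h0 : 0 < δ0) (h : 0 < δ) (h1 : δ + δ0 ≤ 1) : Step (kerK δ0 δ) := by
  refine ⟨fun x hx => ?_, fun x hx => kerK_one h0 h (h1.trans hx), ?_⟩
  · rw [kerK, sigP_nonpos (div_nonpos_of_nonpos_of_nonneg hx h0.le),
      sigP_nonpos (div_nonpos_of_nonpos_of_nonneg (by linarith) h0.le), sub_self, mul_zero]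
  · refine monotone_of_deriv_nonneg (fun x => (kerK_hasDeriv h0 δ x).differentiableAt) fun x => ?_
    rw [(kerK_hasDeriv h0 δ x).deriv]
    exact div_nonneg (sig_sub_mem h0 h x).1 h.le

theorem kerK_two_mul (δ0 δ x : ℝ) :
    kerK δ0 (2 * δ) x = (kerK δ0 δ x + kerK δ0 δ (x - δ)) / 2 := by
  unfold kerK
  rw [show x - δ - δ = x - 2 * δ by ring]
  ring

theorem deriv_kerK {δ0 : ℝ} (h0 : 0 < δ0) (δ x : ℝ) : deriv (kerK δ0 δ) x =
    (Real.smoothTransition (x / δ0) - Real.smoothTransition ((x - δ) / δ0)) / δ := by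
  exact (kerK_hasDeriv h0 δ x).deriv

theorem per_nonneg (f : ℝ → ℝ) (x : ℝ) : 0 ≤ per f x := by
  exact finsum_nonneg fun _ => abs_nonneg _

theorem per_deriv_continuous {δ0 δ : ℝ} (h0 : 0 < δ0) (h : 0 < δ) (h1 : δ + δ0 ≤ 1) :
    Continuous (per (deriv (kerK δ0 δ))) := by
  have hz := (kerK_step h0 h h1).deriv_eq_zero
  have : per (deriv (kerK δ0 δ)) = (fun t => |deriv (kerK δ0 δ) t|) ∘ Int.fract :=
    funext (per_fract hz)
  rw [this]
  refine ContinuousOn.comp_fract'' ((kerK_smooth δ0 δ).continuous_deriv (by simp)).abs.continuousOn ?_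
  rw [hz 0 (Or.inl le_rfl), hz 1 (Or.inr le_rfl)]

theorem per_deriv_le {δ0 δ : ℝ} (h0 : 0 < δ0) (h : 0 < δ) (h1 : δ + δ0 ≤ 1) (x : ℝ) :
    per (deriv (kerK δ0 δ)) x ≤ 1 / δ := by
  rw [per_fract (kerK_step h0 h h1).deriv_eq_zero, deriv_kerK h0,
    abs_of_nonneg (div_nonneg (sig_sub_mem h0 h _).1 h.le)]
  exact div_le_div_of_nonneg_right (sig_sub_mem h0 h _).2 h.le

theorem integral_per_deriv {δ0 δ : ℝ} (h0 : 0 < δ0) (h : 0 < δ) (h1 : δ + δ0 ≤ 1) (a : ℝ) :
    ∫ φ in (0 : ℝ)..1, per (deriv (kerK δ0 δ)) (φ + a) = 1 := by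
  have hs := kerK_step h0 h h1
  have hp : Function.Periodic (per (deriv (kerK δ0 δ))) 1 := fun x => by
    rw [per_fract hs.deriv_eq_zero, per_fract hs.deriv_eq_zero, Int.fract_add_one]
  rw [intervalIntegral.integral_comp_add_right, zero_add, add_comm, hp.intervalIntegral_add_eq a 0,
    zero_add, intervalIntegral.integral_congr (g := deriv (kerK δ0 δ)),
    intervalIntegral.integral_deriv_eq_sub (fun x _ => (kerK_hasDeriv h0 δ x).differentiableAt)
      (((kerK_smooth δ0 δ).continuous_deriv (by simp)).intervalIntegrable _ _),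
    hs.one 1 le_rfl, hs.zero 0 le_rfl, sub_zero]
  intro t ht
  rw [Set.uIcc_of_le zero_le_one] at ht
  rw [per_eq hs.deriv_eq_zero 0 (by simpa using ht.1) (by simpa using ht.2), Int.cast_zero, sub_zero,
    abs_of_nonneg]
  rw [deriv_kerK h0]
  exact div_nonneg (sig_sub_mem h0 h _).1 h.le

theorem per_sub_heav_le {δ0 : ℝ} (h0 : 0 < δ0) (h1 : 5 * δ0 ≤ 1) (x : ℝ) :
    per (fun t => kerK δ0 δ0 t - heav t) x ≤
      4 * δ0 * per (deriv (kerK δ0 (4 * δ0))) (x + δ0) := by
  have hs := kerK_step h0 h0 (by linarith)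
  have hs4 := kerK_step h0 (show 0 < 4 * δ0 by linarith) (by linarith)
  have hz : ∀ t, t ≤ 0 ∨ 1 ≤ t → kerK δ0 δ0 t - heav t = 0 := by
    rintro t (ht | ht)
    · rw [hs.zero t ht, heav_step.zero t ht, sub_self]
    · rw [hs.one t ht, heav_step.one t ht, sub_self]
  rw [per_fract hz]
  have hf0 := Int.fract_nonneg x
  by_cases hx : δ0 + δ0 ≤ Int.fract x
  · rw [kerK_one h0 h0 hx, heav, if_pos (by linarith), sub_self, abs_zero]
    exact mul_nonneg (by linarith) (per_nonneg _ _)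
  · have e : x + δ0 - (⌊x⌋ : ℤ) = Int.fract x + δ0 := by rw [Int.fract]; ring
    rw [per_eq hs4.deriv_eq_zero ⌊x⌋ (by rw [e]; linarith) (by rw [e]; linarith), e, deriv_kerK h0,
      Real.smoothTransition.one_of_one_le (by rw [le_div_iff₀ h0]; linarith),
      Real.smoothTransition.zero_of_nonpos (div_nonpos_of_nonpos_of_nonneg (by linarith) h0.le),
      sub_zero, abs_of_nonneg (show 0 ≤ 1 / (4 * δ0) by positivity), mul_one_div_cancel (by positivity)]
    have h2 := hs.mem (Int.fract x)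
    have h3 := heav_step.mem (Int.fract x)
    rw [abs_le]
    constructor <;> linarith

end Crest.Agent.R192
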