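import Mathlib
import Crest.Agent.Lib.CountLLL.Basic

/-! Row 192: auxiliary results for the invariant local lemma. -/

set_option autoImplicit false

namespace Crest.Agent.R192.LLLAux

open MeasureTheory ProbabilityTheory Filter
open scoped ENNReal

section prob

variable {Λ T : Type} [MeasurableSpace T] [DiscreteMeasurableSpace T] [Fintype T]

omit [MeasurableSpace T] [DiscreteMeasurableSpace T] [Fintype T] in
theorem eq_preimage {F : Finset Λ} {A : Set (Λ → T)}
    (h : ∀ w w', (∀ a ∈ F, w a = w' a) → w ∈ A → w' ∈ A) :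
    A = F.restrict ⁻¹' (F.restrict (π := fun _ => T) '' A) := by
  ext w
  refine ⟨fun hw => ⟨w, hw, rfl⟩, ?_⟩
  rintro ⟨w', hw', he⟩
  exact h w' w (fun a ha => congrFun he ⟨a, ha⟩) hw'

theorem meas_of_dep {F : Finset Λ} {A : Set (Λ → T)}
    (h : ∀ w w', (∀ a ∈ F, w a = w' a) → w ∈ A → w' ∈ A) : MeasurableSet A := by
  rw [eq_preimage h]
  exact F.measurable_restrict (Set.toFinite _).measurableSet

theorem indep_of_dep (u : Measure T) [IsProbabilityMeasure u] {F F' : Finset Λ}
    (hd : Disjoint F F') {A A' : Set (Λ → T)}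
    (h : ∀ w w', (∀ a ∈ F, w a = w' a) → w ∈ A → w' ∈ A)
    (h' : ∀ w w', (∀ a ∈ F', w a = w' a) → w ∈ A' → w' ∈ A') :
    Measure.infinitePi (fun _ : Λ => u) (A ∩ A') =
      Measure.infinitePi (fun _ : Λ => u) A * Measure.infinitePi (fun _ : Λ => u) A' := by
  have h1 : iIndepFun (fun (a : Λ) (w : Λ → T) => w a) (Measure.infinitePi fun _ : Λ => u) :=
    iIndepFun_infinitePi (X := fun _ x => x) (by fun_prop)
  have h2 := h1.indepFun_finset F F' hd (fun a => measurable_pi_apply a)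
  have h3 := h2.measure_inter_preimage_eq_mul (F.restrict (π := fun _ => T) '' A)
    (F'.restrict (π := fun _ => T) '' A') (Set.toFinite _).measurableSet
    (Set.toFinite _).measurableSet
  rw [eq_preimage h, eq_preimage h']
  exact h3

theorem meas_restrict [DecidableEq Λ] (u : Measure T) [IsProbabilityMeasure u]
    (hu : ∀ x, u {x} = (Fintype.card T : ℝ≥0∞)⁻¹) (F : Finset Λ) (B : Finset (F → T)) :
    Measure.infinitePi (fun _ : Λ => u) (F.restrict ⁻¹' (B : Set (F → T))) =
      B.card * ((Fintype.card T : ℝ≥0∞)⁻¹) ^ F.card := by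
  rw [← Measure.map_apply F.measurable_restrict (Set.toFinite _).measurableSet,
    Measure.infinitePi_map_restrict, ← sum_measure_singleton]
  have : ∀ f : F → T, Measure.pi (fun _ : F => u) {f} =
      ((Fintype.card T : ℝ≥0∞)⁻¹) ^ F.card := by
    intro f
    rw [← Set.univ_pi_singleton, Measure.pi_pi]
    simp [hu]
  simp [this]

theorem pos_of_dep (u : Measure T) [IsProbabilityMeasure u]
    (hu : ∀ x, u {x} = (Fintype.card T : ℝ≥0∞)⁻¹) {F : Finset Λ} {A : Set (Λ → T)}
    (h : ∀ w w', (∀ a ∈ F, w a = w' a) → w ∈ A → w' ∈ A) (hne : A.Nonempty) :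
    Measure.infinitePi (fun _ : Λ => u) A ≠ 0 := by
  obtain ⟨w₀, hw₀⟩ := hne
  have h1 : Set.pi (F : Set Λ) (fun a => {w₀ a}) ⊆ A :=
    fun w hw => h w₀ w (fun a ha => (hw a ha).symm) hw₀
  intro h0
  have h2 := measure_mono_null h1 h0
  rw [Measure.infinitePi_pi _ (fun _ _ => MeasurableSet.singleton _), Finset.prod_eq_zero_iff] at h2
  obtain ⟨a, -, ha⟩ := h2
  rw [hu] at ha
  simp at ha

omit [DiscreteMeasurableSpace T] [Fintype T] in
theorem ae_exists_mem (ν : Measure T) [IsProbabilityMeasure ν] {A : Set T} (hA : MeasurableSet A)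
    (h : ν A ≠ 0) : ∀ᵐ ω ∂Measure.infinitePi (fun _ : ℕ => ν), ∃ t, ω t ∈ A := by
  rw [ae_iff]
  have h1 : ν Aᶜ < 1 := by
    rw [prob_compl_eq_one_sub hA]
    exact ENNReal.sub_lt_self ENNReal.one_ne_top one_ne_zero h
  refine le_antisymm (ge_of_tendsto' (ENNReal.tendsto_pow_atTop_nhds_zero_of_lt_one h1)
    fun N => ?_) zero_le
  have h2 : {ω : ℕ → T | ¬ ∃ t, ω t ∈ A} ⊆ Set.pi (Finset.range N : Set ℕ) fun _ => Aᶜ :=
    fun ω hω t _ ht => hω ⟨t, ht⟩
  refine (measure_mono h2).trans ?_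
  rw [Measure.infinitePi_pi _ (fun _ _ => hA.compl)]
  simp

/-- union bound over chains of bad events with disjoint supports -/
theorem perc {I : Type} (u : Measure T) [IsProbabilityMeasure u] (supp : I → Finset Λ)
    (Bad : I → Set (Λ → T))
    (hdep : ∀ i w w', (∀ a ∈ supp i, w a = w' a) → w ∈ Bad i → w' ∈ Bad i) (nb : I → Finset I)
    (D : ℕ) (hD : ∀ i, (nb i).card ≤ D) (p : ℝ≥0∞)
    (hp : ∀ i, Measure.infinitePi (fun _ : Λ => u) (Bad i) ≤ p) (N : ℕ) :
    ∀ (i : I) (F : Finset Λ), ∃ (A : Set (Λ → T)) (F' : Finset Λ), Disjoint F' F ∧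
      (∀ w w', (∀ a ∈ F', w a = w' a) → w ∈ A → w' ∈ A) ∧
      Measure.infinitePi (fun _ : Λ => u) A ≤ (D * p) ^ N ∧
      ∀ (w : Λ → T) (s : ℕ → I), s 0 = i →
        (∀ k < N, s (k + 1) ∈ nb (s k) ∧ w ∈ Bad (s (k + 1)) ∧ Disjoint (supp (s (k + 1))) F) →
        (∀ k l, k < l → l < N → Disjoint (supp (s (l + 1))) (supp (s (k + 1)))) → w ∈ A := by
  classical
  induction N with
  | zero =>
    intro i F
    exact ⟨Set.univ, ∅, by simp, fun _ _ _ _ => trivial, by simp, fun _ _ _ _ _ => trivial⟩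
  | succ N ih =>
    intro i F
    choose A F' h1 h2 h3 h4 using ih
    refine ⟨⋃ j ∈ (nb i).filter fun j => Disjoint (supp j) F, Bad j ∩ A j (F ∪ supp j),
      ((nb i).filter fun j => Disjoint (supp j) F).biUnion fun j => supp j ∪ F' j (F ∪ supp j),
      ?_, ?_, ?_, ?_⟩
    · rw [Finset.disjoint_biUnion_left]
      intro j hj
      rw [Finset.disjoint_union_left]
      exact ⟨(Finset.mem_filter.1 hj).2, (Finset.disjoint_union_right.1 (h1 j _)).1⟩
    · intro w w' hw hA
      simp only [Set.mem_iUnion] at hA ⊢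
      obtain ⟨j, hj, hA1, hA2⟩ := hA
      refine ⟨j, hj, hdep j w w' (fun a ha => hw a ?_) hA1, h2 _ _ w w' (fun a ha => hw a ?_) hA2⟩
      · exact Finset.mem_biUnion.2 ⟨j, hj, Finset.mem_union_left _ ha⟩
      · exact Finset.mem_biUnion.2 ⟨j, hj, Finset.mem_union_right _ ha⟩
    · refine (measure_biUnion_finset_le _ _).trans ?_
      refine (Finset.sum_le_card_nsmul _ _ (p * (D * p) ^ N) fun j _ => ?_).trans ?_
      · rw [indep_of_dep u (Finset.disjoint_union_right.1 (h1 j (F ∪ supp j))).2.symm (hdep j)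
          (h2 _ _)]
        exact mul_le_mul' (hp j) (h3 _ _)
      · rw [nsmul_eq_mul, pow_succ', ← mul_assoc]
        gcongr
        exact_mod_cast (Finset.card_filter_le _ _).trans (hD i)
    · intro w s hs0 hs1 hs2
      simp only [Set.mem_iUnion]
      obtain ⟨h5, h6, h7⟩ := hs1 0 (by omega)
      refine ⟨s 1, Finset.mem_filter.2 ⟨hs0 ▸ h5, h7⟩, h6,
        h4 _ _ w (fun k => s (k + 1)) rfl (fun k hk => ?_) fun k l hkl hl => ?_⟩
      · obtain ⟨h8, h9, h10⟩ := hs1 (k + 1) (by omega)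
        exact ⟨h8, h9, Finset.disjoint_union_right.2 ⟨h10, hs2 0 (k + 1) (by omega) (by omega)⟩⟩
      · exact hs2 (k + 1) (l + 1) (by omega) (by omega)

end prob

section graph

variable {I : Type} {r : I → I → Prop}

theorem exists_path {x y : I} (h : Relation.ReflTransGen r x y) :
    ∃ (n : ℕ) (s : ℕ → I), s 0 = x ∧ s n = y ∧ ∀ k < n, r (s k) (s (k + 1)) := by
  induction h with
  | refl => exact ⟨0, fun _ => x, rfl, rfl, fun _ h => by omega⟩
  | @tail b c _ hbc ih =>
    obtain ⟨n, s, h0, hn, hs⟩ := ih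
    refine ⟨n + 1, fun k => if k ≤ n then s k else c, by simpa using h0, by simp, fun k hk => ?_⟩
    rcases (Nat.lt_succ_iff.1 hk).lt_or_eq with h | h
    · simpa [h.le, Nat.succ_le_of_lt h] using hs k h
    · subst h
      simpa [hn] using hbc

theorem finite_lev (nb : I → Finset I) (hnb : ∀ x y, r x y → y ∈ nb x) (x : I) (n : ℕ) :
    {y | ∃ s : ℕ → I, s 0 = x ∧ s n = y ∧ ∀ k < n, r (s k) (s (k + 1))}.Finite := by
  induction n with
  | zero =>
    refine (Set.finite_singleton x).subset ?_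
    rintro y ⟨s, h0, rfl, -⟩
    exact h0
  | succ n ih =>
    refine (ih.biUnion fun y _ => (nb y).finite_toSet).subset ?_
    rintro y ⟨s, h0, rfl, hs⟩
    exact Set.mem_biUnion ⟨s, h0, rfl, fun k hk => hs k (by omega)⟩ (hnb _ _ (hs n (by omega)))

/-- an infinite component of a locally finite graph contains long induced paths -/
theorem exists_induced (nb : I → Finset I) (hnb : ∀ x y, r x y → y ∈ nb x) (x : I)
    (hinf : {y | Relation.ReflTransGen r x y}.Infinite) (M : ℕ) :
    ∃ s : ℕ → I, s 0 = x ∧ (∀ k < M, r (s k) (s (k + 1))) ∧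
      ∀ k l, k + 2 ≤ l → l ≤ M → ¬ r (s k) (s l) := by
  classical
  have hfin := (Finset.range M).finite_toSet.biUnion fun n _ => finite_lev nb hnb x n
  obtain ⟨y, hy1, hy2⟩ := (hinf.sdiff hfin).nonempty
  have hex := exists_path hy1
  obtain ⟨s, h0, hn, hs⟩ := Nat.find_spec hex
  have hM : M ≤ Nat.find hex := by
    by_contra h
    exact hy2 (Set.mem_biUnion (Finset.mem_coe.2 (Finset.mem_range.2 (not_le.1 h))) ⟨s, h0, hn, hs⟩)
  refine ⟨s, h0, fun k hk => hs k (by omega), fun k l hkl hl hr => ?_⟩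
  obtain ⟨e, rfl⟩ : ∃ e, l = k + 1 + (e + 1) := ⟨l - k - 2, by omega⟩
  obtain ⟨n, hn'⟩ : ∃ n, Nat.find hex = n + (e + 1) := ⟨Nat.find hex - (e + 1), by omega⟩
  refine Nat.find_min hex (m := n) (by omega)
    ⟨fun j => if j ≤ k then s j else s (j + (e + 1)), by simpa using h0, ?_, fun j hj => ?_⟩
  · have : ¬ n ≤ k := by omega
    simp only [this, if_false]
    rw [← hn', hn]
  · rcases lt_trichotomy j k with h | h | h
    · simpa [h.le, Nat.succ_le_of_lt h] using hs j (by omega)
    · subst h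
      simpa using hr
    · have h1 : ¬ j ≤ k := by omega
      have h2 : ¬ j + 1 ≤ k := by omega
      simp only [h1, h2, if_false]
      rw [show j + 1 + (e + 1) = j + (e + 1) + 1 by omega]
      exact hs _ (by omega)

theorem meas_rtg {Ω : Type} [MeasurableSpace Ω] [Countable I] {R : Ω → I → I → Prop}
    (hR : ∀ x y, Measurable fun ω => R ω x y) (x y : I) :
    Measurable fun ω => Relation.ReflTransGen (R ω) x y := by
  have h1 : ∀ (l : List I) (x : I), Measurable fun ω => List.IsChain (R ω) (x :: l) := by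
    intro l
    induction l with
    | nil => intro x; simp
    | cons z l ih =>
      intro x
      simp only [List.isChain_cons_cons]
      exact (hR x z).and (ih z)
  have h2 : (fun ω => Relation.ReflTransGen (R ω) x y) = fun ω => ∃ l : List I,
      List.IsChain (R ω) (x :: l) ∧ (x :: l).getLast (List.cons_ne_nil _ _) = y := by
    funext ω
    exact propext ⟨List.exists_isChain_cons_of_relationReflTransGen, fun ⟨l, h, h'⟩ =>
      List.relationReflTransGen_of_exists_isChain_cons l h h'⟩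
  rw [h2]
  exact Measurable.exists fun l => (h1 l x).and measurable_const

theorem meas_sInf : Measurable fun P : ℕ → Prop => sInf {t | P t} := by
  refine measurable_to_countable' fun k => ?_
  have : (fun P : ℕ → Prop => sInf {t | P t}) ⁻¹' {k} =
      {P | (P k ∧ ∀ j < k, ¬ P j) ∨ (k = 0 ∧ ∀ j, ¬ P j)} := by
    ext P
    simp only [Set.mem_preimage, Set.mem_singleton_iff, Set.mem_ofPred_eq]
    constructor
    · rintro rfl
      by_cases h : ∃ j, P j
      · exact Or.inl ⟨Nat.sInf_mem (s := {t | P t}) h, fun j hj => Nat.notMem_of_lt_sInf hj⟩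
      · refine Or.inr ⟨Nat.sInf_eq_zero.2 (Or.inr ?_), fun j hj => h ⟨j, hj⟩⟩
        exact Set.eq_empty_of_forall_notMem fun j hj => h ⟨j, hj⟩
    · rintro (⟨h1, h2⟩ | ⟨rfl, h2⟩)
      · refine le_antisymm (Nat.sInf_le h1) (not_lt.1 fun h => ?_)
        exact h2 _ h (Nat.sInf_mem (s := {t | P t}) ⟨k, h1⟩)
      · exact Nat.sInf_eq_zero.2 (Or.inr (Set.eq_empty_of_forall_notMem h2))
  rw [this]
  refine Measurable.setOf ?_
  refine ((measurable_pi_apply k).and (Measurable.forall fun j => measurable_const.imp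
    (measurable_pi_apply j).not)).or (measurable_const.and
      (Measurable.forall fun j => (measurable_pi_apply j).not))

end graph

section count

variable {Λ I T : Type} [DecidableEq Λ] [Fintype T] [Nonempty T]

theorem exists_good_one (F : Finset Λ) (Q : (Λ → T) → Prop) (p : ℝ) (hp1 : p < 1)
    (B : Finset (F → T)) (hB : (B.card : ℝ) ≤ p * (Fintype.card T : ℝ) ^ F.card)
    (hQ : ∀ w, ¬ Q w → F.restrict w ∈ B) : ∃ w, Q w := by
  classical
  by_contra h
  have h1 : B = Finset.univ := by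
    refine Finset.eq_univ_of_forall fun f => ?_
    have := hQ (fun a => if ha : a ∈ F then f ⟨a, ha⟩ else Classical.arbitrary T) fun h' => h ⟨_, h'⟩
    convert this
    funext a
    simp
  rw [h1, Finset.card_univ, Fintype.card_fun, Fintype.card_coe] at hB
  push_cast at hB
  have h2 : (0 : ℝ) < (Fintype.card T : ℝ) ^ F.card := by
    have : (0 : ℝ) < Fintype.card T := by exact_mod_cast Fintype.card_pos
    positivity
  nlinarith

theorem pow_le_three (m k : ℕ) (hk : k ≤ m + 1) : (((m : ℝ) + 2) / (m + 1)) ^ k ≤ 3 := by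
  have h1 : ((m : ℝ) + 2) / (m + 1) ≤ Real.exp (1 / (m + 1)) := by
    refine le_trans (le_of_eq ?_) (Real.add_one_le_exp _)
    field_simp
    ring
  refine (pow_le_pow_left₀ (by positivity) h1 k).trans ?_
  rw [← Real.exp_nat_mul]
  refine le_trans (Real.exp_le_exp.2 ?_) (Real.exp_one_lt_d9.le.trans (by norm_num))
  rw [mul_one_div, div_le_one (by positivity)]
  exact_mod_cast hk

theorem lll (supp : I → Finset Λ) (Gd : I → (Λ → T) → Prop)
    (hdep : ∀ i w w', (∀ a ∈ supp i, w a = w' a) → Gd i w → Gd i w') (d m : ℕ)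
    (hm : ∀ i, (supp i).card ≤ m)
    (hd : ∀ i, ∃ t : Finset I, t.card ≤ d ∧ ∀ i', ¬ Disjoint (supp i) (supp i') → i' ∈ t)
    (p : ℝ) (hp0 : 0 ≤ p) (hp : ∀ i, ∃ B : Finset (supp i → T),
      (B.card : ℝ) ≤ p * (Fintype.card T : ℝ) ^ (supp i).card ∧
        ∀ w, ¬ Gd i w → (supp i).restrict w ∈ B)
    (hJ : p * (8 * (d + 1) ^ 2 * (m + 1)) ≤ 1) (K : Finset I) : ∃ w, ∀ i ∈ K, Gd i w := by
  classical
  let _ : Inhabited T := Classical.inhabited_of_nonempty inferInstance
  have hT : (0 : ℝ) < Fintype.card T := by exact_mod_cast Fintype.card_pos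
  have hd0 : (0 : ℝ) ≤ d := Nat.cast_nonneg _
  have hm0 : (0 : ℝ) ≤ m := Nat.cast_nonneg _
  have hp1 : p < 1 := by
    have : (1 : ℝ) ≤ (d + 1) ^ 2 * (m + 1) := by nlinarith [mul_nonneg hd0 hm0]
    nlinarith
  obtain ⟨F, hF⟩ : ∃ F : Finset Λ, ∀ i ∈ K, supp i ⊆ F :=
    ⟨K.biUnion supp, fun i hi => Finset.subset_biUnion_of_mem supp hi⟩
  let ext : (F → T) → Λ → T := fun f a => if ha : a ∈ F then f ⟨a, ha⟩ else default
  have hext : ∀ f (a : F), ext f a = f a := fun f a => dif_pos a.2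
  have hcard : ∀ i ∈ K, ((supp i).subtype (· ∈ F)).card = (supp i).card := by
    intro i hi
    rw [Finset.card_subtype, Finset.filter_true_of_mem fun a ha => hF i hi ha]
  have hex := Lib.CountLLL.exists_good (V := F) (α := T)
    (K.filter fun i => (supp i).Nonempty) (fun i => (supp i).subtype (· ∈ F))
    (fun i f => ¬ Gd i (ext f)) ?_ ?_ (fun i => p * (Fintype.card T : ℝ) ^ (supp i).card) ?_
    (Fintype.card T * ((m + 1) / (m + 2))) (by positivity) ?_
  · obtain ⟨f, hf⟩ := hex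
    refine ⟨ext f, fun i hi => ?_⟩
    by_cases hne : (supp i).Nonempty
    · exact not_not.1 (hf i (Finset.mem_filter.2 ⟨hi, hne⟩))
    · obtain ⟨B, hB1, hB2⟩ := hp i
      obtain ⟨w, hw⟩ := exists_good_one (supp i) (Gd i) p hp1 B hB1 hB2
      exact hdep i w _ (fun a ha => (hne ⟨a, ha⟩).elim) hw
  · intro i hi f g hfg h1 h2
    refine h1 (hdep i _ _ (fun a ha => ?_) h2)
    have ha' := hF i (Finset.mem_filter.1 hi).1 ha
    rw [hext g ⟨a, ha'⟩, hext f ⟨a, ha'⟩, hfg ⟨a, ha'⟩ (Finset.mem_subtype.2 ha)]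
  · intro i hi
    obtain ⟨hi, a, ha⟩ := Finset.mem_filter.1 hi
    exact ⟨⟨a, hF i hi ha⟩, Finset.mem_subtype.2 ha⟩
  · intro i hi
    obtain ⟨B, hB1, hB2⟩ := hp i
    refine le_trans ?_ hB1
    norm_cast
    refine Finset.card_le_card_of_injOn (fun f => (supp i).restrict (ext f)) ?_ ?_
    · intro f hf
      simp only [Finset.coe_filter, Set.mem_ofPred_eq] at hf
      exact hB2 _ hf.2.2
    · intro f hf g hg he
      simp only [Finset.coe_filter, Set.mem_ofPred_eq] at hf hg
      funext a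
      by_cases ha : (a : Λ) ∈ supp i
      · have := congrFun he ⟨a, ha⟩
        simpa only [Finset.restrict, hext] using this
      · rw [hf.2.1 a (by simpa using ha), hg.2.1 a (by simpa using ha)]
  · intro v
    have hc : (((K.filter fun i => (supp i).Nonempty).filter
        fun e => v ∈ (supp e).subtype (· ∈ F)).card : ℝ) ≤ d := by
      norm_cast
      rcases ((K.filter fun i => (supp i).Nonempty).filter
        fun e => v ∈ (supp e).subtype (· ∈ F)).eq_empty_or_nonempty with h | ⟨i, hi⟩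
      · rw [h]
        simp
      · obtain ⟨t, ht1, ht2⟩ := hd i
        refine le_trans (Finset.card_le_card fun j hj => ht2 j ?_) ht1
        rw [Finset.not_disjoint_iff]
        exact ⟨v, Finset.mem_subtype.1 (Finset.mem_filter.1 hi).2,
          Finset.mem_subtype.1 (Finset.mem_filter.1 hj).2⟩
    refine (Finset.sum_le_card_nsmul _ _ (3 * p * Fintype.card T) fun i hi => ?_).trans ?_
    · rw [hcard i (Finset.mem_filter.1 (Finset.mem_filter.1 hi).1).1]
      have h1 := pow_le_three m (supp i).card ((hm i).trans (Nat.le_succ m))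
      have h2 : p * (Fintype.card T : ℝ) ^ (supp i).card * (Fintype.card T * ((m + 1) / (m + 2))) /
          (Fintype.card T * ((m + 1) / (m + 2))) ^ (supp i).card =
          (((m : ℝ) + 2) / (m + 1)) ^ (supp i).card * p * Fintype.card T * ((m + 1) / (m + 2)) := by
        rw [mul_pow, div_pow, div_pow]
        field_simp
      rw [h2]
      have h3 : ((m : ℝ) + 1) / (m + 2) ≤ 1 := by
        rw [div_le_one (by positivity)]
        linarith
      calc _ ≤ 3 * p * Fintype.card T * 1 := by gcongr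
        _ = _ := mul_one _
    · rw [nsmul_eq_mul]
      have h1 : (Fintype.card T : ℝ) - Fintype.card T * ((m + 1) / (m + 2)) =
          1 / (m + 2) * Fintype.card T := by
        field_simp
        ring
      rw [h1]
      have h2 : d * (3 * p) ≤ 1 / ((m : ℝ) + 2) := by
        rw [le_div_iff₀ (by positivity)]
        refine le_trans ?_ hJ
        have : (d : ℝ) * 3 * (m + 2) ≤ 8 * (d + 1) ^ 2 * (m + 1) := by
          nlinarith [mul_nonneg hd0 hm0, mul_nonneg (mul_nonneg hd0 hd0) hm0]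
        nlinarith
      calc _ ≤ d * (3 * p * Fintype.card T) := by gcongr
        _ = d * (3 * p) * Fintype.card T := by ring
        _ ≤ _ := by gcongr

open Classical in
omit [Fintype T] [Nonempty T] in
theorem count_pow {S : Type} [Fintype S] [Nonempty S] (F : Finset Λ) (Q : (Λ → S) → Prop)
    (hdep : ∀ w w', (∀ a ∈ F, w a = w' a) → Q w → Q w') (w0 : Λ → S)
    (hp : Fintype.card S ^ F.card ≤ 32 * (Finset.univ.filter fun f : F → S =>
      Q fun a => if ha : a ∈ F then f ⟨a, ha⟩ else w0 a).card) (J : ℕ) :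
    ∃ B : Finset (F → Fin J → S),
      (B.card : ℝ) ≤ (31 / 32 : ℝ) ^ J * (Fintype.card (Fin J → S) : ℝ) ^ F.card ∧
        ∀ w : Λ → Fin J → S, ¬ (∃ j, Q fun a => w a j) → F.restrict w ∈ B := by
  have h1 := Finset.card_filter_add_card_filter_not (s := (Finset.univ : Finset (F → S)))
    (fun f => Q fun a => if ha : a ∈ F then f ⟨a, ha⟩ else w0 a)
  rw [Finset.card_univ, Fintype.card_fun, Fintype.card_coe] at h1
  generalize hB : (Finset.univ.filter fun f : F → S =>
    ¬ Q fun a => if ha : a ∈ F then f ⟨a, ha⟩ else w0 a) = B at h1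
  have h2 : (B.card : ℝ) ≤ 31 / 32 * (Fintype.card S : ℝ) ^ F.card := by
    have h3 : 32 * B.card ≤ 31 * Fintype.card S ^ F.card := by omega
    have h4 : (32 : ℝ) * B.card ≤ 31 * (Fintype.card S : ℝ) ^ F.card := by exact_mod_cast h3
    linarith
  refine ⟨(Fintype.piFinset fun _ : Fin J => B).image fun g a j => g j a, ?_, fun w hw => ?_⟩
  · refine (Nat.cast_le.2 Finset.card_image_le).trans ?_
    rw [Fintype.card_piFinset, Finset.prod_const, Finset.card_univ, Fintype.card_fin,
      Fintype.card_fun, Fintype.card_fin]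
    push_cast
    rw [← pow_mul, mul_comm J, pow_mul, ← mul_pow]
    gcongr
  · refine Finset.mem_image.2 ⟨fun j a => w a j, Fintype.mem_piFinset.2 fun j => ?_, rfl⟩
    rw [← hB, Finset.mem_filter]
    refine ⟨Finset.mem_univ _, fun h => hw ⟨j, hdep _ _ (fun a ha => ?_) h⟩⟩
    rw [dif_pos ha]

end count

section clusters

variable {Λ I T : Type} [DecidableEq Λ] [MeasurableSpace T] [DiscreteMeasurableSpace T]
  [Fintype T] [Nonempty T]

theorem bad_prob (u : Measure T) [IsProbabilityMeasure u]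
    (hu : ∀ x, u {x} = (Fintype.card T : ℝ≥0∞)⁻¹) (F : Finset Λ) (Q : (Λ → T) → Prop) (p : ℝ)
    (hp0 : 0 ≤ p) (B : Finset (F → T)) (hB : (B.card : ℝ) ≤ p * (Fintype.card T : ℝ) ^ F.card)
    (hQ : ∀ w, ¬ Q w → F.restrict w ∈ B) :
    Measure.infinitePi (fun _ : Λ => u) {w | ¬ Q w} ≤ ENNReal.ofReal p := by
  have h0 : {w | ¬ Q w} ⊆ F.restrict ⁻¹' (B : Set (F → T)) := fun w hw => hQ w hw
  refine (measure_mono h0).trans ?_
  rw [meas_restrict u hu]
  have h1 : (B.card : ℝ≥0∞) ≤ ENNReal.ofReal p * (Fintype.card T : ℝ≥0∞) ^ F.card := by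
    have := ENNReal.ofReal_le_ofReal hB
    rwa [ENNReal.ofReal_natCast, ENNReal.ofReal_mul hp0, ENNReal.ofReal_pow (Nat.cast_nonneg _),
      ENNReal.ofReal_natCast] at this
  refine (mul_le_mul_left h1 _).trans ?_
  rw [mul_assoc, ← mul_pow, ENNReal.mul_inv_cancel (by simp) (by simp), one_pow, mul_one]

omit [Nonempty T] in
theorem ae_finite [Countable I] (u : Measure T) [IsProbabilityMeasure u] (supp : I → Finset Λ)
    (Gd : I → (Λ → T) → Prop)
    (hdep : ∀ i w w', (∀ a ∈ supp i, w a = w' a) → Gd i w → Gd i w') (d : ℕ)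
    (hd : ∀ i, ∃ t : Finset I, t.card ≤ d ∧ ∀ i', ¬ Disjoint (supp i) (supp i') → i' ∈ t)
    (p : ℝ≥0∞) (hp : ∀ i, Measure.infinitePi (fun _ : Λ => u) {w | ¬ Gd i w} ≤ p)
    (hJ : ((d * d : ℕ) : ℝ≥0∞) * p < 1) :
    ∀ᵐ w ∂Measure.infinitePi (fun _ : Λ => u), ∀ i, {j | Relation.ReflTransGen
      (fun x y => ¬ Gd x w ∧ ¬ Gd y w ∧ ¬ Disjoint (supp x) (supp y)) i j}.Finite := by
  classical
  choose nb hnb1 hnb2 using hd
  rw [ae_all_iff]
  intro i
  rw [ae_iff]
  refine le_antisymm (ge_of_tendsto' (ENNReal.tendsto_pow_atTop_nhds_zero_of_lt_one hJ)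
    fun N => ?_) zero_le
  obtain ⟨A, F', -, -, h1, h2⟩ := perc u supp (fun i => {w | ¬ Gd i w})
    (fun i w w' h h1 h2 => h1 (hdep i w' w (fun a ha => (h a ha).symm) h2))
    (fun i => (nb i).biUnion nb) (d * d)
    (fun i => (Finset.card_biUnion_le_card_mul _ _ d fun j _ => hnb1 j).trans
      (Nat.mul_le_mul_right _ (hnb1 i))) p hp N i ∅
  refine le_trans (measure_mono fun w hw => ?_) h1
  obtain ⟨s, hs0, hs1, hs2⟩ := exists_induced nb (fun x y h => hnb2 x y h.2.2) i hw (2 * N + 1)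
  refine h2 w (fun k => s (2 * k)) hs0 (fun k hk => ⟨?_, ?_, by simp⟩) fun k l hkl hl => ?_
  · exact Finset.mem_biUnion.2 ⟨s (2 * k + 1), hnb2 _ _ (hs1 _ (by omega)).2.2,
      hnb2 _ _ (hs1 (2 * k + 1) (by omega)).2.2⟩
  · exact (hs1 (2 * (k + 1)) (by omega)).1
  · by_contra h
    exact hs2 (2 * (k + 1)) (2 * (l + 1)) (by omega) (by omega)
      ⟨(hs1 _ (by omega)).1, (hs1 _ (by omega)).1, fun h' => h h'.symm⟩

end clusters

end Crest.Agent.R192.LLLAux
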