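import Crest.Agent.R192.Defs
import Crest.Agent.Lib.CountLLL.Basic
import Crest.Agent.R192.LLLAux

/-! Row 192: an invariant local lemma (two-stage shattering). -/

set_option autoImplicit false

namespace Crest.Agent.R192

open Crest.AlgebraR.L1 MeasureTheory Matrix
open scoped ContDiff BoundedContinuousFunction

namespace LLLAux

open scoped ENNReal

theorem act_preserving {G Λ T : Type} [Group G] [MulAction G Λ] [MeasurableSpace T]
    (u : Measure T) [IsProbabilityMeasure u] (h : G) :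
    MeasurePreserving (act h) (Measure.infinitePi fun _ : Λ => u)
      (Measure.infinitePi fun _ : Λ => u) :=
  ⟨measurable_pi_lambda _ fun _ => measurable_pi_apply _,
    Measure.map_infinitePi_infinitePi_of_inj (P := fun _ : Λ => u) (MulAction.injective h⁻¹)⟩

theorem core {G Λ I T : Type} [Group G] [MulAction G Λ] [MulAction G I] [DecidableEq Λ]
    [Countable I] [Fintype T] [Nonempty T] [MeasurableSpace T] [DiscreteMeasurableSpace T]
    (supp : I → Finset Λ) (Gd : I → (Λ → T) → Prop)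
    (hdep : ∀ i w w', (∀ a ∈ supp i, w a = w' a) → Gd i w → Gd i w')
    (hsupp : ∀ (h : G) i a, h • a ∈ supp (h • i) ↔ a ∈ supp i)
    (hgood : ∀ (h : G) i w, Gd (h • i) (act h w) ↔ Gd i w)
    (d m : ℕ) (hm : ∀ i, (supp i).card ≤ m)
    (hd : ∀ i, ∃ t : Finset I, t.card ≤ d ∧ ∀ i', ¬ Disjoint (supp i) (supp i') → i' ∈ t)
    (p : ℝ) (hp0 : 0 ≤ p) (hp : ∀ i, ∃ B : Finset (supp i → T),
      (B.card : ℝ) ≤ p * (Fintype.card T : ℝ) ^ (supp i).card ∧
        ∀ w, ¬ Gd i w → (supp i).restrict w ∈ B)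
    (hJ : p * (8 * (d + 1) ^ 2 * (m + 1)) ≤ 1) :
    ∃ (μ : Measure (ℕ → Λ → T)) (τ : (ℕ → Λ → T) → Λ → ℕ), IsProbabilityMeasure μ ∧
      (∀ h : G, MeasurePreserving (fun (ϖ : ℕ → Λ → T) t => act h (ϖ t)) μ μ) ∧
      (∀ a, Measurable fun ϖ => τ ϖ a) ∧
      (∀ (h : G) ϖ a, τ (fun t => act h (ϖ t)) (h • a) = τ ϖ a) ∧
      ∀ᵐ ϖ ∂μ, ∀ i, Gd i (ϖ 0) ∨ Gd i fun a => ϖ (τ ϖ a) a := by
  classical
  obtain ⟨u, hu0, hu⟩ : ∃ u : Measure T, IsProbabilityMeasure u ∧
      ∀ x, u {x} = (Fintype.card T : ℝ≥0∞)⁻¹ :=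
    ⟨ProbabilityTheory.uniformOn Set.univ, inferInstance, fun x => by
      simp [ProbabilityTheory.uniformOn_univ]⟩
  have hmG : ∀ i, Measurable (Gd i) := fun i =>
    measurableSet_setOfPred.1 (meas_of_dep (A := {w | Gd i w}) (hdep i))
  have hmG' : ∀ i t, Measurable fun ϖ : ℕ → Λ → T => Gd i (ϖ t) := fun i t =>
    (hmG i).comp (measurable_pi_apply t)
  obtain ⟨r, hr⟩ : ∃ r : (Λ → T) → I → I → Prop, ∀ w,
      r w = fun x y => ¬ Gd x w ∧ ¬ Gd y w ∧ ¬ Disjoint (supp x) (supp y) := ⟨_, fun _ => rfl⟩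
  have hr1 : ∀ (h : G) w x y, r (act h w) (h • x) (h • y) ↔ r w x y := by
    intro h w x y
    simp only [hr, hgood, Finset.disjoint_left]
    rw [(MulAction.surjective h).forall]
    simp only [hsupp]
  have hr2 : ∀ (h : G) w x y, Relation.ReflTransGen (r (act h w)) (h • x) (h • y) ↔
      Relation.ReflTransGen (r w) x y := by
    intro h w x y
    refine ⟨fun H => ?_, fun H => H.lift (h • ·) fun a b hab => (hr1 h w a b).2 hab⟩
    have : Relation.ReflTransGen (r w) (h⁻¹ • h • x) (h⁻¹ • h • y) :=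
      H.lift (p := r w) (h⁻¹ • ·) fun a b hab => (hr1 h w _ _).1 (by
        rwa [smul_inv_smul, smul_inv_smul])
    simpa only [inv_smul_smul] using this
  refine ⟨Measure.infinitePi fun _ : ℕ => Measure.infinitePi fun _ : Λ => u,
    fun ϖ a => sInf {t | ∀ j, (∃ i, a ∈ supp i ∧ ¬ Gd i (ϖ 0) ∧
      Relation.ReflTransGen (r (ϖ 0)) i j) → Gd j (ϖ t)}, inferInstance, fun h => ?_,
    fun a => ?_, fun h ϖ a => ?_, ?_⟩
  · have h1 := act_preserving (Λ := Λ) u h
    refine ⟨measurable_pi_lambda _ fun t => h1.measurable.comp (measurable_pi_apply t), ?_⟩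
    rw [Measure.infinitePi_map_pi _ (f := fun _ => act h) fun _ => h1.measurable]
    simp only [h1.map_eq]
  · refine meas_sInf.comp (measurable_pi_lambda _ fun t => Measurable.forall fun j => ?_)
    refine Measurable.imp (Measurable.exists fun i => measurable_const.and
      ((hmG' i 0).not.and (meas_rtg (fun x y => ?_) i j))) (hmG' j t)
    simp only [hr]
    exact (hmG' x 0).not.and ((hmG' y 0).not.and measurable_const)
  · refine congrArg sInf (Set.ext fun t => ?_)
    simp only [Set.mem_ofPred_eq]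
    rw [(MulAction.surjective h).forall]
    refine forall_congr' fun j => ?_
    rw [(MulAction.surjective h).exists]
    simp only [hsupp, hgood, hr2]
  · have hd0 : (0 : ℝ) ≤ d := Nat.cast_nonneg _
    have hm0 : (0 : ℝ) ≤ m := Nat.cast_nonneg _
    have h1 := ae_finite u supp Gd hdep d hd (ENNReal.ofReal p) (fun i => by
      obtain ⟨B, hB1, hB2⟩ := hp i
      exact bad_prob u hu _ _ p hp0 B hB1 hB2) (by
      rw [← ENNReal.ofReal_natCast, ← ENNReal.ofReal_mul (Nat.cast_nonneg _),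
        ENNReal.ofReal_lt_one]
      push_cast
      have : 2 * ((d : ℝ) * d) ≤ 8 * (d + 1) ^ 2 * (m + 1) := by
        nlinarith [mul_nonneg hd0 hm0, mul_nonneg (mul_nonneg hd0 hd0) hm0]
      nlinarith)
    have h2 := (measurePreserving_eval_infinitePi
      (fun _ : ℕ => Measure.infinitePi fun _ : Λ => u) 0).quasiMeasurePreserving.ae h1
    have h3 : ∀ᵐ ϖ ∂Measure.infinitePi fun _ : ℕ => Measure.infinitePi fun _ : Λ => u,
        ∀ K : Finset I, ∃ t, ϖ t ∈ {w | ∀ i ∈ K, Gd i w} := by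
      rw [ae_all_iff]
      intro K
      have h4 : ∀ w w', (∀ a ∈ K.biUnion supp, w a = w' a) → w ∈ {w | ∀ i ∈ K, Gd i w} →
          w' ∈ {w | ∀ i ∈ K, Gd i w} := fun w w' h h' i hi =>
        hdep i w w' (fun a ha => h a (Finset.mem_biUnion.2 ⟨i, hi, ha⟩)) (h' i hi)
      exact ae_exists_mem _ (meas_of_dep h4)
        (pos_of_dep u hu h4 (lll supp Gd hdep d m hm hd p hp0 hp hJ K))
    filter_upwards [h2, h3] with ϖ h4 h5 i
    by_cases hi : Gd i (ϖ 0)
    · exact Or.inl hi
    right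
    obtain ⟨t, ht⟩ := h5 (h4 i).toFinset
    have h6 : {t | ∀ j, Relation.ReflTransGen (r (ϖ 0)) i j → Gd j (ϖ t)}.Nonempty :=
      ⟨t, fun j hj => ht j ((Set.Finite.mem_toFinset _).2 (by rwa [hr] at hj))⟩
    refine hdep i _ _ (fun a ha => ?_) (Nat.sInf_mem h6 i Relation.ReflTransGen.refl)
    congr 2
    ext t
    refine forall_congr' fun j => imp_congr_left ⟨fun hj => ⟨i, ha, hi, hj⟩, ?_⟩
    rintro ⟨i', h7, h8, h9⟩
    refine Relation.ReflTransGen.head ?_ h9
    rw [hr]
    exact ⟨hi, h8, Finset.not_disjoint_iff.2 ⟨a, ha, h7⟩⟩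

end LLLAux

open Classical in
/-- `Good i` depends only on the coordinates in `supp i`, holds for a fraction `≥ 1/32` of the
assignments, and meets at most `d` other supports.  Then there is an invariant random family of `2 J`
assignments such that almost surely every `Good i` holds for one of them. -/
theorem invariant_lll {G Λ I S : Type} [Group G] [MulAction G Λ] [MulAction G I] [Countable Λ]
    [Countable I] [Fintype S] [Nonempty S] [MeasurableSpace S] [DiscreteMeasurableSpace S]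
    (supp : I → Finset Λ) (Good : I → (Λ → S) → Prop)
    (hdep : ∀ i w w', (∀ a ∈ supp i, w a = w' a) → Good i w → Good i w')
    (hsupp : ∀ (h : G) i a, h • a ∈ supp (h • i) ↔ a ∈ supp i)
    (hgood : ∀ (h : G) i w, Good (h • i) (act h w) ↔ Good i w)
    (d m J : ℕ) (hm : ∀ i, (supp i).card ≤ m)
    (hd : ∀ i, ∃ t : Finset I, t.card ≤ d ∧ ∀ i', ¬ Disjoint (supp i) (supp i') → i' ∈ t)
    (hp : ∀ i (w0 : Λ → S), Fintype.card S ^ (supp i).card ≤ 32 *
      (Finset.univ.filter fun f : supp i → S =>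
        Good i fun a => if ha : a ∈ supp i then f ⟨a, ha⟩ else w0 a).card)
    (hJ : (31 / 32 : ℝ) ^ J * (8 * (d + 1) ^ 2 * (m + 1)) ≤ 1) :
    ∃ P : Measure (Λ → Fin (2 * J) → S), IsProbabilityMeasure P ∧
      (∀ h : G, MeasurePreserving (act h) P P) ∧
      ∀ᵐ w ∂P, ∀ i, ∃ j, Good i fun a => w a j := by
  obtain ⟨μ, τ, hμ, hinv, hτm, hτ, hae⟩ := LLLAux.core (G := G) (T := Fin J → S) supp
    (fun i w => ∃ j, Good i fun a => w a j)
    (fun i w w' h ⟨j, hj⟩ => ⟨j, hdep i _ _ (fun a ha => by rw [h a ha]) hj⟩) hsupp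
    (fun h i w => exists_congr fun j => hgood h i fun a => w a j) d m hm hd ((31 / 32 : ℝ) ^ J)
    (by positivity) (fun i => LLLAux.count_pow (supp i) (Good i) (hdep i) _
      (hp i fun _ => Classical.arbitrary S) J) hJ
  let Φ : (ℕ → Λ → Fin J → S) → Λ → Fin (2 * J) → S := fun ϖ a j =>
    if hj : (j : ℕ) < J then ϖ 0 a ⟨j, hj⟩ else ϖ (τ ϖ a) a ⟨j - J, by omega⟩
  have hΦ : Measurable Φ := by
    refine measurable_pi_lambda _ fun a => measurable_pi_lambda _ fun j => ?_
    by_cases hj : (j : ℕ) < J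
    · simp only [Φ, dif_pos hj]
      fun_prop
    · simp only [Φ, dif_neg hj]
      have h1 : Measurable fun p : (ℕ → Λ → Fin J → S) × ℕ => p.1 p.2 a ⟨j - J, by omega⟩ :=
        measurable_from_prod_countable_left fun t => by fun_prop
      exact h1.comp (measurable_id.prodMk (hτm a))
  refine ⟨μ.map Φ, Measure.isProbabilityMeasure_map hΦ.aemeasurable, fun h => ?_, ?_⟩
  · have h1 : Measurable (act h : (Λ → Fin (2 * J) → S) → Λ → Fin (2 * J) → S) :=
      measurable_pi_lambda _ fun _ => measurable_pi_apply _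
    refine ⟨h1, ?_⟩
    have h2 : act h ∘ Φ = Φ ∘ fun ϖ t => act h (ϖ t) := by
      funext ϖ a j
      have h3 := hτ h ϖ (h⁻¹ • a)
      rw [smul_inv_smul] at h3
      simp only [Function.comp, Φ, h3]
      rfl
    rw [Measure.map_map h1 hΦ, h2, ← Measure.map_map hΦ (hinv h).measurable, (hinv h).map_eq]
  · rw [ae_map_iff hΦ.aemeasurable]
    · filter_upwards [hae] with ϖ hϖ i
      rcases hϖ i with ⟨j, hj⟩ | ⟨j, hj⟩
      · refine ⟨⟨j, by omega⟩, ?_⟩
        simpa only [Φ, dif_pos j.2] using hj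
      · refine ⟨⟨J + j, by omega⟩, ?_⟩
        have h1 : ¬ J + j < J := by omega
        simpa only [Φ, dif_neg h1, Nat.add_sub_cancel_left] using hj
    · refine measurableSet_setOfPred.2 (Measurable.forall fun i => ?_)
      refine measurableSet_setOfPred.1 (LLLAux.meas_of_dep (F := supp i)
        (A := {w : Λ → Fin (2 * J) → S | ∃ j, Good i fun a => w a j}) ?_)
      rintro w w' h ⟨j, hj⟩
      exact ⟨j, hdep i _ _ (fun a ha => by rw [h a ha]) hj⟩

end Crest.Agent.R192
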