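import Crest.Agent.R192.LabDefs

/-! Row 192: labels: local finiteness, smoothness, symmetries. -/

set_option autoImplicit false
set_option linter.unusedSectionVars false

namespace Crest.Agent.R192

open Crest.AlgebraR.L1 MeasureTheory Matrix
open scoped ContDiff BoundedContinuousFunction

variable {G : Type} [Group G] [TopologicalSpace G] [DiscreteTopology G] {ℓ : Len G} {R : ℕ}
  {p : LP G}

theorem OT.countable [Countable G] {T : Type} [Countable T] : Countable (OT G T) := by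
  refine Function.Surjective.countable (f := fun q : G × G × T => OT.mk' q.1 q.2.1 q.2.2) ?_
  rintro ⟨c, s, t, x, rfl⟩
  exact ⟨(c, x, t), rfl⟩

theorem Len.countable (ℓ : Len G) : Countable G := by
  refine Set.countable_univ_iff.1 ((Set.countable_iUnion fun r : ℕ =>
    (ℓ.ball r).countable_toSet).mono fun g _ => ?_)
  exact Set.mem_iUnion.2 ⟨ℓ.len g, (ℓ.mem_ball _ _).2 le_rfl⟩

theorem Lab1.one_mem_ball (ℓ : Len G) (r : ℕ) : (1 : G) ∈ ℓ.ball r := by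
  rw [ℓ.mem_ball, ℓ.len_one]
  exact Nat.zero_le r

theorem Lab1.sum_pos (β : ℝ) (x : G) (η : G → ℝ) (a : G →ᵇ ℝ) : 0 < ∑ z ∈ ℓ.ball (2 * R),
    (Real.exp (β * (a (x * z) - η z)) + Real.exp (-(β * (a (x * z) - η z)))) :=
  Finset.sum_pos (fun _ _ => by positivity) ⟨1, Lab1.one_mem_ball ℓ _⟩

theorem Lab1.u0_pos (p : LP G) : 0 < p.u0 := Real.exp_pos _

theorem uu_pos (β : ℝ) (x : G) (η : G → ℝ) (a : G →ᵇ ℝ) : 0 < uu ℓ R β x η a :=
  inv_pos.2 (Lab1.sum_pos β x η a)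

theorem rr_nonneg (x : G) (η : G → ℝ) (a : G →ᵇ ℝ) : 0 ≤ rr ℓ R p x η a :=
  mul_nonneg (uu_pos _ _ _ _).le (Real.smoothTransition.nonneg _)

theorem uu_smooth (β : ℝ) (x : G) (η : G → ℝ) : ContDiff ℝ ∞ (uu ℓ R β x η) := by
  refine ContDiff.inv (ContDiff.sum fun z _ => ?_) fun a => (Lab1.sum_pos β x η a).ne'
  have h : ContDiff ℝ ∞ fun a : G →ᵇ ℝ => β * (a (x * z) - η z) :=
    contDiff_const.mul
      ((BoundedContinuousFunction.evalCLM ℝ (x * z) : (G →ᵇ ℝ) →L[ℝ] ℝ).contDiff.sub contDiff_const)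
  exact h.exp.add h.neg.exp

theorem rr_smooth (x : G) (η : G → ℝ) : ContDiff ℝ ∞ (rr ℓ R p x η) :=
  (uu_smooth p.β x η).mul (Real.smoothTransition.contDiff.comp
    (((uu_smooth p.β x η).div_const _).sub contDiff_const))

/-- a template above the cut-off is uniformly `t`-close -/
theorem abs_sub_lt_of_uu (h : p.Ok ℓ R) {x : G} {η : G → ℝ} {a : G →ᵇ ℝ}
    (hu : p.u0 < uu ℓ R p.β x η a) {z : G} (hz : z ∈ ℓ.ball (2 * R)) :
    |a (x * z) - η z| < p.t := by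
  rw [uu, LP.u0, Real.exp_neg, inv_lt_inv₀ (Real.exp_pos _) (Lab1.sum_pos _ _ _ _)] at hu
  have h1 := (Finset.single_le_sum (f := fun z => Real.exp (p.β * (a (x * z) - η z)) +
    Real.exp (-(p.β * (a (x * z) - η z)))) (fun _ _ => by positivity) hz).trans_lt hu
  have h2 := Real.exp_pos (p.β * (a (x * z) - η z))
  have h3 := Real.exp_pos (-(p.β * (a (x * z) - η z)))
  have h4 : p.β * (a (x * z) - η z) < p.β * p.t := Real.exp_lt_exp.1 (by linarith)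
  have h5 : -(p.β * (a (x * z) - η z)) < p.β * p.t := Real.exp_lt_exp.1 (by linarith)
  rw [← mul_neg] at h5
  exact abs_lt.2 ⟨neg_lt.1 (lt_of_mul_lt_mul_left h5 h.β_pos.le),
    lt_of_mul_lt_mul_left h4 h.β_pos.le⟩

theorem uu_gt_of_rr_ne_zero {x : G} {η : G → ℝ} {a : G →ᵇ ℝ} (h : rr ℓ R p x η a ≠ 0) :
    p.u0 < uu ℓ R p.β x η a := by
  by_contra hle
  refine h ?_
  rw [rr, Real.smoothTransition.zero_of_nonpos, mul_zero]
  rw [sub_nonpos, div_le_one (Lab1.u0_pos p)]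
  exact not_lt.1 hle

/-- a valid template whose anchor is not a majority point does not contribute -/
theorem rr_eq_zero (h : p.Ok ℓ R) {x : G} (η : p.Sh) {a : G →ᵇ ℝ} (ha : a x ≤ 1 / 2) :
    rr ℓ R p x η a = 0 := by
  by_contra h0
  have h1 := abs_lt.1 (abs_sub_lt_of_uu h (uu_gt_of_rr_ne_zero h0) (Lab1.one_mem_ball ℓ _))
  rw [mul_one] at h1
  linarith [h.valid η η.2, h.t_le, h1.1]

theorem T0_pos (h : p.Ok ℓ R) : 0 < p.T0 := by
  have h1 : (0 : ℝ) < p.N1 := by exact_mod_cast h.N1_pos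
  have h2 : (0 : ℝ) < p.Q := by exact_mod_cast h.Q_pos
  exact mul_pos (mul_pos h1 (Lab1.u0_pos p)) (pow_pos h2 _)

theorem T0_le_Xi (v : Lab p → Fin p.Q) (c : G) (a : G →ᵇ ℝ) : p.T0 ≤ Xi ℓ R p v c a :=
  le_add_of_nonneg_right (finsum_nonneg fun _ => Finset.sum_nonneg fun _ _ =>
    mul_nonneg (rr_nonneg _ _ _) (zero_le_one.trans (one_le_pw _ _ _)))

/-! finite formulas: `X` contains all majority points of `a` -/

theorem Xi_eq (h : p.Ok ℓ R) (v : Lab p → Fin p.Q) (c : G) {a : G →ᵇ ℝ} (X : Finset G)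
    (hX : ∀ x, x ∉ X → a x ≤ 1 / 2) : Xi ℓ R p v c a =
      p.T0 + ∑ x ∈ X, ∑ η : p.Sh, rr ℓ R p x η a * pw p.Q p.P (v (OT.mk' c x η)) := by
  rw [Xi, finsum_eq_sum_of_support_subset (s := X)]
  intro x hx
  by_contra h0
  exact hx (Finset.sum_eq_zero fun η _ => by rw [rr_eq_zero h η (hX x h0), zero_mul])

open Classical in
theorem Sl_eq (h : p.Ok ℓ R) (l : Lab p) {a : G →ᵇ ℝ} (X : Finset G)
    (hX : ∀ x, x ∉ X → a x ≤ 1 / 2) :
    Sl ℓ R p l a = ∑ x ∈ X.filter (· ∈ l.s), rr ℓ R p x l.tag a := by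
  refine finsum_mem_eq_sum_of_inter_support_eq _ (Set.ext fun x => ?_)
  simp only [Set.mem_inter_iff, Function.mem_support, Finset.coe_filter, Set.mem_ofPred_eq]
  refine ⟨fun hx => ⟨⟨?_, hx.1⟩, hx.2⟩, fun hx => ⟨hx.1.2, hx.2⟩⟩
  by_contra h0
  exact hx.2 (rr_eq_zero h _ (hX x h0))

open Classical in
theorem Zl_eq (h : p.Ok ℓ R) (l : Lab p) {a : G →ᵇ ℝ} (X : Finset G)
    (hX : ∀ x, x ∉ X → a x ≤ 1 / 2) : Zl ℓ R p l a =
      ∑ x ∈ X.filter (· ∈ l.s), (rr ℓ R p x l.tag a : ℂ) * ee (ang p l * l.idx x) := by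
  refine finsum_mem_eq_sum_of_inter_support_eq _ (Set.ext fun x => ?_)
  simp only [Set.mem_inter_iff, Function.mem_support, Finset.coe_filter, Set.mem_ofPred_eq]
  refine ⟨fun hx => ⟨⟨?_, hx.1⟩, hx.2⟩, fun hx => ⟨hx.1.2, hx.2⟩⟩
  by_contra h0
  exact hx.2 (by rw [rr_eq_zero h _ (hX x h0), Complex.ofReal_zero, zero_mul])

open Classical in
theorem Lab1.feat_eq_zero (hR : 0 < R) {μ : G →₀ ℝ} {X : Finset G} (hμ : μ.support ⊆ X) {x : G}
    (hx : x ∉ X.biUnion fun g => (ℓ.ball R).image fun z => g * z) : feat ℓ R μ x = 0 := by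
  have hR' : (0 : ℝ) < R := by exact_mod_cast hR
  rw [feat, pr, Finsupp.linearCombination_apply, Finsupp.sum, BoundedContinuousFunction.sum_apply]
  refine Finset.sum_eq_zero fun g hg => ?_
  have h1 : R ≤ ℓ.len (g⁻¹ * x) := by
    by_contra h0
    exact hx (Finset.mem_biUnion.2 ⟨g, hμ hg, Finset.mem_image.2
      ⟨g⁻¹ * x, (ℓ.mem_ball _ _).2 (not_le.1 h0).le, mul_inv_cancel_left g x⟩⟩)
  have h2 : (1 : ℝ) ≤ (ℓ.len (g⁻¹ * x) : ℝ) / R := by
    rw [one_le_div hR']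
    exact_mod_cast h1
  rw [BoundedContinuousFunction.smul_apply, bump_apply, max_eq_left (by linarith), smul_zero]

/-- near the feature vector of a finitely supported measure, majority points stay in a finite set -/
theorem exists_finset_nhds (hR : 0 < R) (μ : G →₀ ℝ) :
    ∃ X : Finset G, ∀ᶠ a in nhds (feat ℓ R μ), ∀ x, x ∉ X → a x ≤ 1 / 2 := by
  classical
  refine ⟨μ.support.biUnion fun g => (ℓ.ball R).image fun z => g * z, ?_⟩
  filter_upwards [Metric.ball_mem_nhds (feat ℓ R μ) (show (0 : ℝ) < 1 / 2 by norm_num)]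
    with a ha x hx
  have h1 := BoundedContinuousFunction.dist_coe_le_dist (f := a) (g := feat ℓ R μ) x
  rw [Lab1.feat_eq_zero hR subset_rfl (by convert hx), Real.dist_eq, sub_zero] at h1
  exact (le_abs_self _).trans (h1.trans (le_of_lt ha))

theorem mk'_eq_iff_mem {T : Type} (l : OT G T) (x : G) : OT.mk' l.c x l.tag = l ↔ x ∈ l.s := by
  constructor
  · intro h
    rw [← h]
    exact ⟨0, by simp⟩
  · intro h
    refine OT.ext rfl ?_ rfl
    change orbS l.c x = l.s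
    rw [l.s_eq] at h ⊢
    obtain ⟨m, rfl⟩ := h
    ext g
    constructor
    · rintro ⟨k, rfl⟩
      exact ⟨k + m, by simp only [_root_.zpow_add, mul_assoc]⟩
    · rintro ⟨k, rfl⟩
      exact ⟨k - m, by simp only [← mul_assoc, ← _root_.zpow_add, sub_add_cancel]⟩

theorem Lab1.Xi_smooth (h : p.Ok ℓ R) (v : Lab p → Fin p.Q) (c : G) (μ : G →₀ ℝ) :
    ContDiffAt ℝ ∞ (Xi ℓ R p v c) (feat ℓ R μ) := by
  obtain ⟨X, hX⟩ := exists_finset_nhds (ℓ := ℓ) h.R_pos μ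
  refine ContDiffAt.congr_of_eventuallyEq ?_ (hX.mono fun a ha => Xi_eq h v c X ha)
  exact (contDiff_const.add (ContDiff.sum fun x _ => ContDiff.sum fun η _ =>
    (rr_smooth x _).mul contDiff_const)).contDiffAt

theorem Lab1.Sl_smooth (h : p.Ok ℓ R) (l : Lab p) (μ : G →₀ ℝ) :
    ContDiffAt ℝ ∞ (Sl ℓ R p l) (feat ℓ R μ) := by
  obtain ⟨X, hX⟩ := exists_finset_nhds (ℓ := ℓ) h.R_pos μ
  refine ContDiffAt.congr_of_eventuallyEq ?_ (hX.mono fun a ha => Sl_eq h l X ha)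
  exact (ContDiff.sum fun x _ => rr_smooth x _).contDiffAt

theorem Lab1.Zl_smooth (h : p.Ok ℓ R) (l : Lab p) (μ : G →₀ ℝ) :
    ContDiffAt ℝ ∞ (Zl ℓ R p l) (feat ℓ R μ) := by
  obtain ⟨X, hX⟩ := exists_finset_nhds (ℓ := ℓ) h.R_pos μ
  refine ContDiffAt.congr_of_eventuallyEq ?_ (hX.mono fun a ha => Zl_eq h l X ha)
  exact (ContDiff.sum fun x _ =>
    (Complex.ofRealCLM.contDiff.comp (rr_smooth x _)).mul contDiff_const).contDiffAt

theorem share_smooth (h : p.Ok ℓ R) (v : Lab p → Fin p.Q) (l : Lab p) (μ : G →₀ ℝ) :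
    ContDiffAt ℝ ∞ (share ℓ R p v l) (feat ℓ R μ) :=
  (contDiffAt_const.mul (Lab1.Sl_smooth h l μ)).div (Lab1.Xi_smooth h v l.c μ)
    ((T0_pos h).trans_le (T0_le_Xi _ _ _)).ne'

theorem Y1_smooth (h : p.Ok ℓ R) (v : Lab p → Fin p.Q) (l : Lab p) (μ : G →₀ ℝ) :
    ContDiffAt ℝ ∞ (Y1 ℓ R p v l) (feat ℓ R μ) := by
  refine ContDiffAt.mul (Complex.ofRealCLM.contDiff.contDiffAt.comp _ (ContDiffAt.mul ?_ ?_))
    (Lab1.Zl_smooth h l μ)
  · exact Real.smoothTransition.contDiff.contDiffAt.comp _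
      ((contDiffAt_const.mul (share_smooth h v l μ)).sub contDiffAt_const)
  · exact contDiffAt_const.div (Lab1.Xi_smooth h v l.c μ)
      ((T0_pos h).trans_le (T0_le_Xi _ _ _)).ne'

theorem Y1_fin (h : p.Ok ℓ R) (c : G) (X : Finset G) :
    ∃ F : Finset (Lab p), (∀ l ∈ F, l.c = c) ∧ ∀ μ : G →₀ ℝ, μ.support ⊆ X →
      (∀ v l, l.c = c → l ∉ F → Y1 ℓ R p v l (feat ℓ R μ) = 0) ∧
      ∀ v v', (∀ a ∈ F, v a = v' a) → ∀ l ∈ F,
        Y1 ℓ R p v l (feat ℓ R μ) = Y1 ℓ R p v' l (feat ℓ R μ) := by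
  classical
  let X' : Finset G := X.biUnion fun g => (ℓ.ball R).image fun z => g * z
  let F : Finset (Lab p) := (X' ×ˢ (Finset.univ : Finset p.Sh)).image fun q => OT.mk' c q.1 q.2
  have hF : ∀ x ∈ X', ∀ η : p.Sh, OT.mk' c x η ∈ F := fun x hx η =>
    Finset.mem_image.2 ⟨(x, η), Finset.mem_product.2 ⟨hx, Finset.mem_univ _⟩, rfl⟩
  have hFc : ∀ l ∈ F, l.c = c := fun l hl => by
    obtain ⟨q, -, rfl⟩ := Finset.mem_image.1 hl
    rfl
  refine ⟨F, hFc, fun μ hμ => ?_⟩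
  have hX : ∀ x, x ∉ X' → feat ℓ R μ x ≤ 1 / 2 := fun x hx => by
    rw [Lab1.feat_eq_zero h.R_pos hμ (by convert hx)]
    norm_num
  refine ⟨fun v l hl hlF => ?_, fun v v' hv l hl => ?_⟩
  · rw [Y1, Zl_eq h l X' hX, Finset.sum_eq_zero, mul_zero]
    intro x hx
    obtain ⟨h1, h2⟩ := Finset.mem_filter.1 hx
    have := hF x h1 l.tag
    rw [← hl, (mk'_eq_iff_mem l x).2 h2] at this
    exact absurd this hlF
  · have h1 : Xi ℓ R p v l.c (feat ℓ R μ) = Xi ℓ R p v' l.c (feat ℓ R μ) := by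
      rw [Xi_eq h v _ X' hX, Xi_eq h v' _ X' hX, hFc l hl]
      congr 1
      exact Finset.sum_congr rfl fun x hx => Finset.sum_congr rfl fun η _ => by
        rw [hv _ (hF x hx η)]
    rw [Y1, Y1, share, share, h1, hv l hl]

end Crest.Agent.R192
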