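import Crest.Agent.R192.Lab1

/-! Row 192: labels: equivariance and the combinatorics of the events. -/

set_option autoImplicit false
set_option linter.unusedSectionVars false

namespace Crest.Agent.R192

open Crest.AlgebraR.L1 MeasureTheory Matrix
open scoped ContDiff BoundedContinuousFunction

variable {G : Type} [Group G] [TopologicalSpace G] [DiscreteTopology G] {ℓ : Len G} {R : ℕ}
  {p : LP G}

namespace Lab2

omit [TopologicalSpace G] [DiscreteTopology G]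

theorem mem_s {T : Type} (l : OT G T) {x : G} : x ∈ l.s ↔ ∃ m : ℤ, l.c ^ m * l.base = x := by
  rw [l.s_eq]
  rfl

theorem base_mem {T : Type} (l : OT G T) : l.base ∈ l.s := (mem_s l).2 ⟨0, by simp⟩

theorem zpow_mul_mem {T : Type} (l : OT G T) {x : G} (hx : x ∈ l.s) (m : ℤ) :
    l.c ^ m * x ∈ l.s := by
  obtain ⟨k, rfl⟩ := (mem_s l).1 hx
  exact (mem_s l).2 ⟨m + k, by rw [_root_.zpow_add, mul_assoc]⟩

theorem exists_zpow {T : Type} (l : OT G T) {x y : G} (hx : x ∈ l.s) (hy : y ∈ l.s) :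
    ∃ m : ℤ, l.c ^ m * x = y := by
  obtain ⟨k, rfl⟩ := (mem_s l).1 hx
  obtain ⟨j, rfl⟩ := (mem_s l).1 hy
  exact ⟨j - k, by rw [← mul_assoc, ← _root_.zpow_add, sub_add_cancel]⟩

theorem image_zpow {T : Type} (l : OT G T) (m : ℤ) : (fun g => l.c ^ m * g) '' l.s = l.s := by
  ext y
  constructor
  · rintro ⟨x, hx, rfl⟩
    exact zpow_mul_mem l hx m
  · intro hy
    exact ⟨_, zpow_mul_mem l hy (-m), by simp⟩

theorem zpow_smul {T : Type} (l : OT G T) (m : ℤ) : l.c ^ m • l = l :=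
  OT.ext (by rw [OT.smul_c]; group) (image_zpow l m) rfl

theorem mem_mk' {T : Type} (c x : G) (t : T) : x ∈ (OT.mk' c x t).s := ⟨0, by simp⟩

theorem act_smul {Λ S : Type} [MulAction G Λ] (g : G) (v : Λ → S) (l : Λ) :
    act g v (g • l) = v l := by
  rw [act, inv_smul_smul]

theorem act_inv_act {Λ S : Type} [MulAction G Λ] (g : G) (v : Λ → S) :
    act g⁻¹ (act g v) = v := by
  funext l
  rw [act, inv_inv, act_smul]

theorem tr_tr_inv (g : G) (μ : G →₀ ℝ) : tr g (tr g⁻¹ μ) = μ := by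
  rw [tr, tr, ← Finsupp.mapDomain_comp]
  have : ((fun x => g * x) ∘ fun x => g⁻¹ * x) = id := by
    funext x
    simp
  rw [this, Finsupp.mapDomain_id]

theorem ee_zero : ee 0 = 1 := by simpa using ee_int 0

end Lab2

open Lab2

theorem OT.conj_eq {T : Type} (l : OT G T) {x : G} (hx : x ∈ l.s) :
    x⁻¹ * l.c * x = l.base⁻¹ * l.c * l.base := by
  obtain ⟨m, rfl⟩ := (mem_s l).1 hx
  group

theorem OT.idx_spec {T : Type} (l : OT G T) {x : G} (hx : x ∈ l.s) :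
    l.c ^ l.idx x * l.base = x := by
  have h := (mem_s l).1 hx
  rw [OT.idx, dif_pos h]
  exact h.choose_spec

theorem OT.c_smul {T : Type} (l : OT G T) : l.c • l = l := by
  simpa using zpow_smul l 1

theorem ang_smul (g : G) (l : Lab p) : ang p (g • l) = ang p l := by
  have h : g * l.base ∈ (g • l).s := ⟨l.base, base_mem l, rfl⟩
  rw [ang, ang, ← OT.conj_eq _ h, OT.smul_c, OT.smul_tag]
  congr 1
  group

/-- the phase along an orbit is a character -/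
theorem ee_idx (h : p.Ok ℓ R) (l : Lab p) {x : G} (hx : x ∈ l.s) (m : ℤ) :
    ee (ang p l * l.idx (l.c ^ m * x)) = ee (ang p l * m) * ee (ang p l * l.idx x) := by
  have h1 := l.idx_spec (zpow_mul_mem l hx m)
  have h2 := l.idx_spec hx
  generalize l.idx (l.c ^ m * x) = a at h1 ⊢
  generalize l.idx x = b at h2 ⊢
  rw [← h2, ← mul_assoc, ← _root_.zpow_add, mul_left_inj] at h1
  have h3 : (l.base⁻¹ * l.c * l.base) ^ (a - (m + b)) = 1 := by
    have := conj_zpow (a := l.base⁻¹) (b := l.c) (i := a - (m + b))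
    rw [inv_inv] at this
    rw [this, _root_.zpow_sub, h1]
    simp
  have h4 : ee (ang p l * (a - (m + b) : ℤ)) = 1 := h.ϑ_int _ _ _ h3
  rw [← ee_add, ← mul_one (ee (_ + _)), ← h4, ← ee_add]
  congr 1
  push_cast
  ring

theorem rr_tr (g x : G) (η : G → ℝ) (μ : G →₀ ℝ) :
    rr ℓ R p (g * x) η (feat ℓ R (tr g μ)) = rr ℓ R p x η (feat ℓ R μ) := by
  simp only [rr, uu, mul_assoc g x, feat_tr]

namespace Lab2

theorem Sl_equiv (g : G) (l : Lab p) (μ : G →₀ ℝ) :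
    Sl ℓ R p (g • l) (feat ℓ R (tr g μ)) = Sl ℓ R p l (feat ℓ R μ) := by
  rw [Sl, Sl, OT.smul_s, finsum_mem_image (mul_right_injective g).injOn]
  simp only [rr_tr, OT.smul_tag]

theorem Xi_equiv (g : G) (v : Lab p → Fin p.Q) (c : G) (μ : G →₀ ℝ) :
    Xi ℓ R p (act g v) (g * c * g⁻¹) (feat ℓ R (tr g μ)) = Xi ℓ R p v c (feat ℓ R μ) := by
  rw [Xi, Xi, ← finsum_comp_equiv (Equiv.mulLeft g)]
  simp only [Equiv.coe_mulLeft, rr_tr, ← OT.smul_mk', act_smul]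

theorem Xi_congr {v v' : Lab p → Fin p.Q} {c : G} {a : G →ᵇ ℝ}
    (h : ∀ x (η : p.Sh), rr ℓ R p x η a ≠ 0 → v (OT.mk' c x η) = v' (OT.mk' c x η)) :
    Xi ℓ R p v c a = Xi ℓ R p v' c a := by
  rw [Xi, Xi]
  congr 1
  refine finsum_congr fun x => Finset.sum_congr rfl fun η _ => ?_
  by_cases h0 : rr ℓ R p x η a = 0
  · rw [h0, zero_mul, zero_mul]
  · rw [h x η h0]

theorem Xi_quasi (v : Lab p → Fin p.Q) (c : G) (μ : G →₀ ℝ) (m : ℤ) :
    Xi ℓ R p v c (feat ℓ R (tr (c ^ m) μ)) = Xi ℓ R p v c (feat ℓ R μ) := by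
  rw [← Xi_equiv (c ^ m) v c μ, show c ^ m * c * (c ^ m)⁻¹ = c by group]
  refine Xi_congr fun x η _ => ?_
  conv_rhs => rw [← zpow_smul (OT.mk' c x η) m]
  exact (act_smul _ _ _).symm

theorem Sl_quasi (l : Lab p) (μ : G →₀ ℝ) (m : ℤ) :
    Sl ℓ R p l (feat ℓ R (tr (l.c ^ m) μ)) = Sl ℓ R p l (feat ℓ R μ) := by
  rw [← Sl_equiv (l.c ^ m) l μ, zpow_smul]

theorem Zl_quasi (h : p.Ok ℓ R) (l : Lab p) (μ : G →₀ ℝ) (m : ℤ) :
    Zl ℓ R p l (feat ℓ R (tr (l.c ^ m) μ)) = ee (ang p l * m) * Zl ℓ R p l (feat ℓ R μ) := by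
  rw [Zl, Zl, mul_finsum_mem]
  conv_lhs => rw [← image_zpow l m, finsum_mem_image (mul_right_injective _).injOn]
  refine finsum_mem_congr rfl fun x hx => ?_
  rw [rr_tr, ee_idx h l hx]
  ring

theorem Zl_equiv (h : p.Ok ℓ R) (g : G) (l : Lab p) : ∃ u : ℂ, ‖u‖ = 1 ∧ ∀ μ,
    Zl ℓ R p (g • l) (feat ℓ R (tr g μ)) = u * Zl ℓ R p l (feat ℓ R μ) := by
  obtain ⟨y, hy, hy'⟩ := base_mem (g • l)
  refine ⟨ee (-(ang p l * l.idx y)), norm_ee _, fun μ => ?_⟩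
  rw [Zl, Zl, mul_finsum_mem, OT.smul_s, finsum_mem_image (mul_right_injective g).injOn]
  refine finsum_mem_congr rfl fun x hx => ?_
  have h1 := (g • l).idx_spec (x := g * x) ⟨x, hx, rfl⟩
  rw [← hy', OT.smul_c, conj_zpow] at h1
  have h2 : l.c ^ (g • l).idx (g * x) * y = x := by
    apply mul_left_cancel (a := g)
    refine Eq.trans ?_ h1
    simp only [mul_assoc, inv_mul_cancel_left]
  have h3 := ee_idx h l hy ((g • l).idx (g * x))
  rw [h2] at h3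
  rw [rr_tr, ang_smul, OT.smul_tag, h3, mul_left_comm, mul_left_comm (ee _), ← ee_add,
    neg_add_cancel, ee_zero, mul_one]

end Lab2

theorem share_equiv (g : G) (v : Lab p → Fin p.Q) (l : Lab p) (μ : G →₀ ℝ) :
    share ℓ R p (act g v) (g • l) (feat ℓ R (tr g μ)) = share ℓ R p v l (feat ℓ R μ) := by
  rw [share, share, act_smul, Sl_equiv, OT.smul_c, Xi_equiv]

theorem share_quasi (v : Lab p → Fin p.Q) (l : Lab p) (μ : G →₀ ℝ) (m : ℤ) :
    share ℓ R p v l (feat ℓ R (tr (l.c ^ m) μ)) = share ℓ R p v l (feat ℓ R μ) := by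
  rw [share, share, Sl_quasi, Xi_quasi]

theorem Y1_quasi (h : p.Ok ℓ R) (v : Lab p → Fin p.Q) (l : Lab p) (μ : G →₀ ℝ) :
    Y1 ℓ R p v l (feat ℓ R (tr l.c μ)) = ee (ang p l) * Y1 ℓ R p v l (feat ℓ R μ) := by
  have h1 := share_quasi (ℓ := ℓ) (R := R) v l μ 1
  have h2 := Xi_quasi (ℓ := ℓ) (R := R) v l.c μ 1
  have h3 := Zl_quasi h l μ 1
  rw [zpow_one] at h1 h2 h3
  rw [Int.cast_one, mul_one] at h3
  rw [Y1, Y1, h1, h2, h3, mul_left_comm]

theorem Y1_equiv (h : p.Ok ℓ R) (g : G) (l : Lab p) : ∃ u : ℂ, ‖u‖ = 1 ∧ ∀ v μ,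
    Y1 ℓ R p (act g v) (g • l) (feat ℓ R (tr g μ)) = u * Y1 ℓ R p v l (feat ℓ R μ) := by
  obtain ⟨u, hu, hZ⟩ := Zl_equiv h g l
  refine ⟨u, hu, fun v μ => ?_⟩
  rw [Y1, Y1, share_equiv, act_smul, OT.smul_c, Xi_equiv, hZ, mul_left_comm]

theorem mem_esupp {T : Type} (i : OT G T) (l : Lab p) :
    l ∈ esupp ℓ R p i ↔ l.c = i.c ∧ ∃ x ∈ i.s, ∃ z ∈ ℓ.ball (2 * R), x * z ∈ l.s := by
  classical
  simp only [esupp, Finset.mem_image, Finset.mem_product, Finset.mem_univ, and_true, Prod.exists]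
  constructor
  · rintro ⟨z, η, hz, rfl⟩
    exact ⟨rfl, i.base, base_mem i, z, hz, mem_mk' _ _ _⟩
  · rintro ⟨hc, x, hx, z, hz, hxz⟩
    obtain ⟨m, hm⟩ := exists_zpow i hx (base_mem i)
    refine ⟨z, l.tag, hz, ?_⟩
    rw [← hc, mk'_eq_iff_mem, ← hm, mul_assoc, ← hc]
    exact zpow_mul_mem l hxz m

theorem esupp_smul {T : Type} (g : G) (i : OT G T) (l : Lab p) :
    g • l ∈ esupp ℓ R p (g • i) ↔ l ∈ esupp ℓ R p i := by
  rw [mem_esupp, mem_esupp, OT.smul_c, OT.smul_c, mul_left_inj, mul_right_inj, OT.smul_s,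
    OT.smul_s]
  refine and_congr_right fun _ => ⟨?_, ?_⟩
  · rintro ⟨_, ⟨x, hx, rfl⟩, z, hz, y, hy, e⟩
    refine ⟨x, hx, z, hz, ?_⟩
    have : y = x * z := mul_left_cancel (a := g) (by simpa only [mul_assoc] using e)
    exact this ▸ hy
  · rintro ⟨x, hx, z, hz, e⟩
    exact ⟨_, ⟨x, hx, rfl⟩, z, hz, _, e, (mul_assoc _ _ _).symm⟩

theorem card_esupp (h : p.Ok ℓ R) {T : Type} (i : OT G T) : (esupp ℓ R p i).card ≤ p.N1 := by
  classical
  refine Finset.card_image_le.trans ?_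
  rw [Finset.card_product, Finset.card_univ, Fintype.card_coe]
  exact h.N1_ge

theorem esupp_deg {T : Type} [Fintype T] (i : OT G T) :
    ∃ t : Finset (OT G T), t.card ≤ (ℓ.ball (4 * R)).card * Fintype.card T ∧
      ∀ i', ¬ Disjoint (esupp ℓ R p i) (esupp ℓ R p i') → i' ∈ t := by
  classical
  refine ⟨(ℓ.ball (4 * R) ×ˢ (Finset.univ : Finset T)).image
    fun q => OT.mk' i.c (i.base * q.1) q.2, Finset.card_image_le.trans ?_, fun i' hi' => ?_⟩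
  · rw [Finset.card_product, Finset.card_univ]
  obtain ⟨l, hl, hl'⟩ := Finset.not_disjoint_iff.1 hi'
  obtain ⟨hc, x, hx, z, hz, hxz⟩ := (mem_esupp i l).1 hl
  obtain ⟨hc', x', hx', z', hz', hxz'⟩ := (mem_esupp i' l).1 hl'
  obtain ⟨m, hm⟩ := exists_zpow i hx (base_mem i)
  obtain ⟨k, hk⟩ := exists_zpow l hxz' hxz
  refine Finset.mem_image.2 ⟨(z * z'⁻¹, i'.tag), Finset.mem_product.2 ⟨?_, Finset.mem_univ _⟩, ?_⟩
  · rw [ℓ.mem_ball] at hz hz' ⊢
    have := ℓ.len_mul z z'⁻¹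
    rw [ℓ.len_inv] at this
    change ℓ.len (z * z'⁻¹) ≤ _
    omega
  · have e : i.base * (z * z'⁻¹) = i'.c ^ m * (i'.c ^ k * x') := by
      rw [← hm, ← hc, ← hc', mul_assoc, ← mul_assoc x, ← hk]
      group
    change OT.mk' i.c (i.base * (z * z'⁻¹)) i'.tag = i'
    rw [e, ← hc, hc', mk'_eq_iff_mem]
    exact zpow_mul_mem i' (zpow_mul_mem i' hx' k) m

theorem Lab2.goodEv_smul' {Sh' : Finset (G → ℝ)} {w' : ℝ} (g : G) {i : OT G Sh'}
    {v : Lab p → Fin p.Q} (h : GoodEv ℓ R p Sh' w' i v) :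
    GoodEv ℓ R p Sh' w' (g • i) (act g v) := by
  rintro _ ⟨x, hx, rfl⟩ μ hμ h1 h2
  rw [← tr_tr_inv g μ] at h1 h2 ⊢
  simp only [mul_assoc g x, feat_tr] at h1 h2
  obtain ⟨l, hl, hs⟩ := h x hx _ (NetAux.isProb_tr hμ g⁻¹) h1 h2
  exact ⟨g • l, by rw [OT.smul_c, OT.smul_c, hl], by rwa [share_equiv]⟩

theorem goodEv_smul (Sh' : Finset (G → ℝ)) (w' : ℝ) (g : G) (i : OT G Sh')
    (v : Lab p → Fin p.Q) :
    GoodEv ℓ R p Sh' w' (g • i) (act g v) ↔ GoodEv ℓ R p Sh' w' i v := by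
  refine ⟨fun h => ?_, goodEv_smul' g⟩
  have := goodEv_smul' g⁻¹ h
  rwa [inv_smul_smul, act_inv_act] at this

theorem goodEv_dep (h : p.Ok ℓ R) (Sh' : Finset (G → ℝ)) (w' : ℝ) (i : OT G Sh')
    (v v' : Lab p → Fin p.Q) (hv : ∀ a ∈ esupp ℓ R p i, v a = v' a)
    (hg : GoodEv ℓ R p Sh' w' i v) : GoodEv ℓ R p Sh' w' i v' := by
  intro x hx μ hμ h1 h2
  obtain ⟨l, hl, hs⟩ := hg x hx μ hμ h1 h2
  have key : ∀ (l' : Lab p), l'.c = i.c → ∀ y ∈ l'.s, rr ℓ R p y l'.tag (feat ℓ R μ) ≠ 0 →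
      v l' = v' l' := by
    intro l' hl' y hy h0
    refine hv l' ((mem_esupp i l').2 ⟨hl', x, hx, x⁻¹ * y, ?_, by simpa using hy⟩)
    rw [ℓ.mem_ball]
    refine majority ℓ R h.R_pos μ hμ x y (by linarith) ?_
    by_contra h3
    exact h0 (rr_eq_zero h _ (not_lt.1 h3))
  refine ⟨l, hl, ?_⟩
  have hS : Sl ℓ R p l (feat ℓ R μ) ≠ 0 := by
    intro h0
    rw [share, h0, mul_zero, zero_div] at hs
    norm_num at hs
  have hvl : v l = v' l := by
    by_contra hne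
    refine hS (finsum_mem_eq_zero_of_forall_eq_zero fun y hy => ?_)
    by_contra h0
    exact hne (key l hl y hy h0)
  have hX : Xi ℓ R p v l.c (feat ℓ R μ) = Xi ℓ R p v' l.c (feat ℓ R μ) :=
    Xi_congr fun y η h0 => key (OT.mk' l.c y η) hl y (mem_mk' _ _ _) h0
  rwa [share, hvl, hX] at hs

end Crest.Agent.R192
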