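import Crest.Agent.R192.Kernel

/-! Row 192: algebraic properties of occupation measures. -/

set_option autoImplicit false

namespace Crest.Agent.R192

open Crest.AlgebraR.L1 MeasureTheory Matrix
open scoped ContDiff BoundedContinuousFunction

variable {G : Type} [Group G] {n : ℕ} {K : ℝ → ℝ}

theorem Occ_ext_castSucc (θ : V (n + 1)) (i : Fin (n + 1)) : ext θ i.castSucc = θ i := by
  simp [ext]

theorem Occ_ext_last (θ : V (n + 1)) : ext θ (Fin.last _) = θ 0 + 1 := by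
  simp [ext]

theorem Occ_ext_zero (θ : V (n + 1)) : ext θ 0 = θ 0 := Occ_ext_castSucc θ 0

theorem Occ_abs_ext (θ : V (n + 1)) (j : Fin (n + 2)) : |ext θ j| ≤ ‖θ‖ + 1 := by
  refine Fin.lastCases ?_ (fun i => ?_) j
  · rw [Occ_ext_last]
    have := norm_le_pi_norm θ 0
    rw [Real.norm_eq_abs] at this
    have h2 := abs_add_le (θ 0) 1
    rw [abs_one] at h2
    linarith
  · rw [Occ_ext_castSucc]
    have := norm_le_pi_norm θ i
    rw [Real.norm_eq_abs] at this
    linarith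

theorem Occ_hi (hK : Step K) {θ : V (n + 1)} {φ : ℝ} {r : ℕ} (hr : ‖θ‖ + |φ| + 2 ≤ r) {m : ℤ}
    (hm : (r : ℤ) ≤ m) (j : Fin (n + 2)) : K (φ - m - ext θ j) = 0 := by
  have h1 : (r : ℝ) ≤ m := by exact_mod_cast hm
  have h2 := abs_le.1 (Occ_abs_ext θ j)
  exact hK.zero _ (by linarith [le_abs_self φ])

theorem Occ_lo (hK : Step K) {θ : V (n + 1)} {φ : ℝ} {r : ℕ} (hr : ‖θ‖ + |φ| + 2 ≤ r) {m : ℤ}
    (hm : m ≤ -(r : ℤ)) (j : Fin (n + 2)) : K (φ - m - ext θ j) = 1 := by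
  have h1 : (m : ℝ) ≤ -r := by exact_mod_cast hm
  have h2 := abs_le.1 (Occ_abs_ext θ j)
  exact hK.one _ (by linarith [neg_abs_le φ])

theorem Occ_out (hK : Step K) {K' : ℝ → ℝ} (hK' : Step K') {θ : V (n + 1)} {φ : ℝ} {r : ℕ}
    (hr : ‖θ‖ + |φ| + 2 ≤ r) {m : ℤ} (hm : m ∉ Finset.Icc (-r : ℤ) r) (j j' : Fin (n + 2)) :
    K (φ - m - ext θ j) - K' (φ - m - ext θ j') = 0 := by
  rw [Finset.mem_Icc, not_and_or, not_le, not_le] at hm
  rcases hm with hm | hm
  · rw [Occ_lo hK hr hm.le, Occ_lo hK' hr hm.le, sub_self]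
  · rw [Occ_hi hK hr hm.le, Occ_hi hK' hr hm.le, sub_self]

theorem Occ_exists_r (θ : V (n + 1)) (φ : ℝ) : ∃ r : ℕ, ‖θ‖ + |φ| + 2 ≤ r := exists_nat_ge _

theorem Occ_fin1 (hK : Step K) (g : ℤ → G) (θ : V (n + 1)) (φ : ℝ) (j j' : Fin (n + 2)) :
    Function.HasFiniteSupport fun m : ℤ =>
      Finsupp.single (g m) (K (φ - m - ext θ j) - K (φ - m - ext θ j')) := by
  obtain ⟨r, hr⟩ := Occ_exists_r θ φ
  refine (Finset.Icc (-r : ℤ) r).finite_toSet.subset fun m hm => ?_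
  by_contra h
  exact hm (by simp only [Occ_out hK hK hr h, Finsupp.single_zero])

theorem Occ_fin (hK : Step K) (c : G) (x : Fin (n + 1) → G) (θ : V (n + 1)) (φ : ℝ) :
    Function.HasFiniteSupport fun m : ℤ => ∑ i : Fin (n + 1),
      Finsupp.single (c ^ m * x i) (K (φ - m - ext θ i.castSucc) - K (φ - m - ext θ i.succ)) := by
  obtain ⟨r, hr⟩ := Occ_exists_r θ φ
  refine (Finset.Icc (-r : ℤ) r).finite_toSet.subset fun m hm => ?_
  by_contra h
  exact hm (by simp only [Occ_out hK hK hr h, Finsupp.single_zero, Finset.sum_const_zero])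

theorem Occ_tr_occ (hK : Step K) (h c : G) (x : Fin (n + 1) → G) (θ : V (n + 1)) (φ : ℝ) :
    tr h (occ K c x θ φ) = ∑ᶠ m : ℤ, ∑ i : Fin (n + 1), Finsupp.single (h * (c ^ m * x i))
      (K (φ - m - ext θ i.castSucc) - K (φ - m - ext θ i.succ)) := by
  have := (Finsupp.mapDomain.addMonoidHom (M := ℝ) fun g : G => h * g).map_finsum
    (Occ_fin hK c x θ φ)
  simp only [map_sum, Finsupp.mapDomain.addMonoidHom_apply, Finsupp.mapDomain_single] at this
  exact this

theorem Occ_tele_fin {E : Type} [AddCommGroup E] (g : Fin (n + 2) → E) :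
    ∑ i : Fin (n + 1), (g i.castSucc - g i.succ) = g 0 - g (Fin.last _) := by
  have h1 := Fin.sum_univ_succ g
  have h2 := Fin.sum_univ_castSucc g
  rw [Finset.sum_sub_distrib, eq_sub_of_add_eq h2.symm, eq_sub_of_add_eq' h1.symm]
  abel

theorem Occ_tele_int {E : Type} [AddCommGroup E] (f : ℤ → E) (r : ℕ) :
    ∑ m ∈ Finset.Icc (-r : ℤ) r, (f m - f (m + 1)) = f (-r) - f (r + 1) := by
  induction r with
  | zero => simp
  | succ r ih =>
    have : Finset.Icc (-(r + 1 : ℕ) : ℤ) (r + 1 : ℕ) =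
        insert (-(r + 1 : ℤ)) (insert (r + 1 : ℤ) (Finset.Icc (-r : ℤ) r)) := by
      ext m
      simp only [Finset.mem_Icc, Finset.mem_insert]
      omega
    rw [this, Finset.sum_insert (by simp only [Finset.mem_Icc, Finset.mem_insert]; omega),
      Finset.sum_insert (by simp only [Finset.mem_Icc]; omega), ih,
      show -(r + 1 : ℤ) + 1 = -r by ring]
    push_cast
    abel

theorem Occ_pr_single {E : Type} [AddCommGroup E] [Module ℝ E] (ξ : G → E) (g : G) (a : ℝ) :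
    pr ξ (Finsupp.single g a) = a • ξ g := Finsupp.linearCombination_single ℝ a g

theorem Occ_total (hK : Step K) {θ : V (n + 1)} {φ : ℝ} {r : ℕ} (hr : ‖θ‖ + |φ| + 2 ≤ r) :
    ∑ m ∈ Finset.Icc (-r : ℤ) r, ∑ i : Fin (n + 1),
      (K (φ - m - ext θ i.castSucc) - K (φ - m - ext θ i.succ)) = 1 := by
  have h1 : ∀ m : ℤ, ∑ i : Fin (n + 1),
      (K (φ - m - ext θ i.castSucc) - K (φ - m - ext θ i.succ)) =
      K (φ - m - ext θ 0) - K (φ - (m + 1 : ℤ) - ext θ 0) := by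
    intro m
    rw [Occ_tele_fin (fun j => K (φ - m - ext θ j)), Occ_ext_last, Occ_ext_zero]
    congr 2
    push_cast
    ring
  simp only [h1]
  rw [Occ_tele_int (fun m : ℤ => K (φ - m - ext θ 0)), Occ_lo hK hr le_rfl,
    Occ_hi hK hr (by omega), sub_zero]

theorem Occ_coef_nonneg (hK : Step K) {θ : V (n + 1)} (hθ : θ ∈ cell n) (t : ℝ) (i : Fin (n + 1)) :
    0 ≤ K (t - ext θ i.castSucc) - K (t - ext θ i.succ) :=
  sub_nonneg.2 (hK.mono (sub_le_sub_left (hθ i.castSucc_le_succ) t))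

theorem Occ_ext_face (p : Fin (n + 2)) (θ : V (n + 1)) (j : Fin (n + 3)) :
    ext (faceθ p θ) j = ext θ (p.predAbove j) := by
  refine Fin.lastCases ?_ (fun i => ?_) j
  · rw [Occ_ext_last, Fin.predAbove_right_last, Occ_ext_last, faceθ, Fin.castSucc_zero,
      Fin.predAbove_right_zero, Occ_ext_zero]
  · rw [Occ_ext_castSucc, faceθ]

theorem Occ_one_of_sum {ι : Type} (s : Finset ι) (a : ι → ℝ) (h : ∀ i ∈ s, a i = 0 ∨ a i = 1)
    (hs : ∑ i ∈ s, a i = 1) : ∃ j ∈ s, a j = 1 ∧ ∀ k ∈ s, k ≠ j → a k = 0 := by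
  classical
  obtain ⟨j, hj, hj0⟩ := Finset.exists_ne_zero_of_sum_ne_zero (hs ▸ one_ne_zero)
  have hj1 := (h j hj).resolve_left hj0
  refine ⟨j, hj, hj1, fun k hk hkj => ?_⟩
  rw [← Finset.add_sum_erase s a hj, hj1, add_eq_left] at hs
  refine (Finset.sum_eq_zero_iff_of_nonneg fun i hi => ?_).1 hs k (Finset.mem_erase.2 ⟨hkj, hk⟩)
  rcases h i (Finset.mem_of_mem_erase hi) with h0 | h0 <;> rw [h0] <;> norm_num

theorem occ_eq_sum (hK : Step K) (c : G) (x : Fin (n + 1) → G) (θ : V (n + 1)) (φ : ℝ) (r : ℕ)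
    (hr : ‖θ‖ + |φ| + 2 ≤ r) : occ K c x θ φ = ∑ m ∈ Finset.Icc (-r : ℤ) r, ∑ i : Fin (n + 1),
      Finsupp.single (c ^ m * x i)
        (K (φ - m - ext θ i.castSucc) - K (φ - m - ext θ i.succ)) := by
  refine finsum_eq_sum_of_support_subset _ fun m hm => ?_
  by_contra h
  exact hm (by simp only [Occ_out hK hK hr h, Finsupp.single_zero, Finset.sum_const_zero])

theorem occ_add_one (hK : Step K) (c : G) (x : Fin (n + 1) → G) (θ : V (n + 1)) (φ : ℝ) :
    occ K c x θ (φ + 1) = tr c (occ K c x θ φ) := by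
  rw [Occ_tr_occ hK, occ, ← finsum_comp_equiv (Equiv.addRight (1 : ℤ))]
  refine finsum_congr fun m => Finset.sum_congr rfl fun i _ => ?_
  simp only [Equiv.coe_addRight, Int.cast_add, Int.cast_one, add_sub_add_right_eq_sub]
  rw [add_comm, _root_.zpow_one_add, mul_assoc]

theorem occ_rot (c : G) (x : Fin (n + 1) → G) (θ : V (n + 1)) (φ t : ℝ) :
    occ K c x (fun i => θ i + t) (φ + t) = occ K c x θ φ := by
  have h : ∀ j, ext (fun i => θ i + t) j = ext θ j + t := fun j => by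
    refine Fin.lastCases ?_ (fun i => ?_) j
    · rw [Occ_ext_last, Occ_ext_last]; ring
    · rw [Occ_ext_castSucc, Occ_ext_castSucc]
  have h2 : ∀ a b : ℝ, φ + t - a - (b + t) = φ - a - b := fun a b => by ring
  simp only [occ, h, h2]

theorem occ_conj (hK : Step K) (c h : G) (x : Fin (n + 1) → G) (θ : V (n + 1)) (φ : ℝ) :
    occ K (h * c * h⁻¹) (fun i => h * x i) θ φ = tr h (occ K c x θ φ) := by
  rw [Occ_tr_occ hK, occ]
  refine finsum_congr fun m => Finset.sum_congr rfl fun i _ => ?_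
  rw [conj_zpow]
  congr 1
  group

theorem occ_face (c : G) (x : Fin (n + 2) → G) (p : Fin (n + 2)) (θ : V (n + 1)) (φ : ℝ) :
    occ K c x (faceθ p θ) φ = occ K c (fun i => x (p.succAbove i)) θ φ := by
  refine finsum_congr fun m => ?_
  rw [Fin.sum_univ_succAbove _ p]
  simp only [Occ_ext_face]
  rw [Fin.predAbove_castSucc_self, Fin.predAbove_succ_self, sub_self, Finsupp.single_zero, zero_add]
  refine Finset.sum_congr rfl fun i _ => ?_
  have hv : ∀ j : Fin (n + 3), ((p.predAbove j : Fin (n + 2)) : ℕ) =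
      if (p : ℕ) < j then (j : ℕ) - 1 else j := fun j => by
    unfold Fin.predAbove
    by_cases hj : p.castSucc < j
    · rw [dif_pos hj, if_pos (by simpa [Fin.lt_def] using hj)]; simp
    · rw [dif_neg hj, if_neg (by simpa [Fin.lt_def] using hj)]; simp
  have hs : ((p.succAbove i : Fin (n + 2)) : ℕ) = if (i : ℕ) < p then (i : ℕ) else i + 1 := by
    unfold Fin.succAbove
    by_cases hj : i.castSucc < p
    · rw [if_pos hj, if_pos (by simpa [Fin.lt_def] using hj)]; simp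
    · rw [if_neg hj, if_neg (by simpa [Fin.lt_def] using hj)]; simp
  have h1 : p.predAbove (p.succAbove i).castSucc = i.castSucc := by
    ext
    rw [hv, Fin.val_castSucc, Fin.val_castSucc, hs]
    split_ifs <;> omega
  have h2 : p.predAbove (p.succAbove i).succ = i.succ := by
    ext
    rw [hv, Fin.val_succ, Fin.val_succ, hs]
    split_ifs <;> omega
  rw [h1, h2]

theorem occ_cyc (hK : Step K) (c : G) (x : Fin (n + 1) → G) (θ : V (n + 1)) (φ : ℝ) :
    occ K c (rotx c x) (rotθ θ) φ = occ K c x θ φ := by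
  have hx1 : ∀ j : Fin n, rotx c x j.castSucc = x j.succ := fun j => by
    rw [rotx, Fin.succ_castSucc, Fin.snoc_castSucc]
  have hx2 : rotx c x (Fin.last n) = c * x 0 := by
    rw [rotx, Fin.succ_last, Fin.snoc_last]
  have h1 : ∀ i : Fin (n + 1), ext (rotθ θ) i.castSucc = ext θ i.succ := fun i => by
    rw [Occ_ext_castSucc, rotθ]
  have h2 : ext (rotθ θ) (Fin.last n).succ = ext θ (0 : Fin (n + 1)).succ + 1 := by
    rw [Fin.succ_last, Occ_ext_last, rotθ]
  have h3 : ext θ (Fin.last n).succ = ext θ (0 : Fin (n + 1)).castSucc + 1 := by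
    rw [Fin.succ_last, Occ_ext_last, Occ_ext_castSucc]
  rw [occ, occ, finsum_sum_comm _ _ fun i _ => Occ_fin1 hK _ _ _ _ _,
    finsum_sum_comm _ _ fun i _ => Occ_fin1 hK _ _ _ _ _, Fin.sum_univ_castSucc,
    Fin.sum_univ_succ, add_comm]
  congr 1
  · rw [← finsum_comp_equiv (Equiv.addRight (1 : ℤ)) (f := fun m : ℤ => Finsupp.single (c ^ m * x 0)
      (K (φ - m - ext θ (0 : Fin (n + 1)).castSucc) - K (φ - m - ext θ (0 : Fin (n + 1)).succ)))]
    refine finsum_congr fun m => ?_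
    rw [hx2, h1, h2, h3]
    simp only [Equiv.coe_addRight, Int.cast_add, Int.cast_one]
    rw [_root_.zpow_add_one, mul_assoc]
    congr 3 <;> ring
  · refine Finset.sum_congr rfl fun j _ => finsum_congr fun m => ?_
    rw [hx1, h1, Fin.succ_castSucc, h1]

theorem mass_occ (hK : Step K) (c : G) (x : Fin (n + 1) → G) (θ : V (n + 1)) (φ : ℝ) :
    mass (occ K c x θ φ) = 1 := by
  obtain ⟨r, hr⟩ := Occ_exists_r θ φ
  rw [occ_eq_sum hK c x θ φ r hr]
  simp only [mass, pr, map_sum, Finsupp.linearCombination_single, smul_eq_mul, mul_one]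
  exact Occ_total hK hr

theorem isProb_occ (hK : Step K) (c : G) (x : Fin (n + 1) → G) {θ : V (n + 1)} (hθ : θ ∈ cell n)
    (φ : ℝ) : IsProb (occ K c x θ φ) := by
  classical
  refine ⟨fun g => ?_, mass_occ hK c x θ φ⟩
  obtain ⟨r, hr⟩ := Occ_exists_r θ φ
  rw [occ_eq_sum hK c x θ φ r hr, Finsupp.finsetSum_apply]
  refine Finset.sum_nonneg fun m _ => ?_
  rw [Finsupp.finsetSum_apply]
  refine Finset.sum_nonneg fun i _ => ?_
  rw [Finsupp.single_apply]
  split_ifs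
  · exact Occ_coef_nonneg hK hθ _ i
  · exact le_rfl

theorem occ_support (hK : Step K) (c : G) (x : Fin (n + 1) → G) (r : ℝ) :
    ∃ X : Finset G, ∀ θ φ, ‖θ‖ ≤ r → |φ| ≤ r → (occ K c x θ φ).support ⊆ X := by
  classical
  obtain ⟨R, hR⟩ := exists_nat_ge (2 * r + 2)
  refine ⟨(Finset.Icc (-R : ℤ) R).biUnion fun m => Finset.univ.image fun i => c ^ m * x i,
    fun θ φ h1 h2 => ?_⟩
  rw [occ_eq_sum hK c x θ φ R (by linarith)]
  refine Finsupp.support_finsetSum.trans (Finset.biUnion_mono fun m _ => ?_)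
  refine Finsupp.support_finsetSum.trans (Finset.biUnion_subset.2 fun i _ => ?_)
  exact Finsupp.support_single_subset.trans
    (Finset.singleton_subset_iff.2 (Finset.mem_image_of_mem _ (Finset.mem_univ i)))

theorem occ_two_mul {δ0 δ : ℝ} (h0 : 0 < δ0) (h : 0 < δ) (h1 : 2 * δ + δ0 ≤ 1) (c : G)
    (x : Fin (n + 1) → G) (θ : V (n + 1)) (φ : ℝ) :
    occ (kerK δ0 (2 * δ)) c x θ (φ + δ) =
      (1 / 2 : ℝ) • occ (kerK δ0 δ) c x θ φ + (1 / 2 : ℝ) • occ (kerK δ0 δ) c x θ (φ + δ) := by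
  obtain ⟨r, hr⟩ := exists_nat_ge (‖θ‖ + |φ| + |φ + δ| + 2)
  have s1 := kerK_step h0 h (by linarith)
  have s2 := kerK_step h0 (by linarith : 0 < 2 * δ) h1
  rw [occ_eq_sum s2 c x θ _ r (by linarith [abs_nonneg φ]),
    occ_eq_sum s1 c x θ φ r (by linarith [abs_nonneg (φ + δ)]),
    occ_eq_sum s1 c x θ (φ + δ) r (by linarith [abs_nonneg φ])]
  simp only [Finset.smul_sum, ← Finset.sum_add_distrib, Finsupp.smul_single, ← Finsupp.single_add]
  refine Finset.sum_congr rfl fun m _ => Finset.sum_congr rfl fun i _ => ?_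
  have e : ∀ a : ℝ, φ + δ - m - a - δ = φ - m - a := fun a => by ring
  rw [kerK_two_mul, kerK_two_mul, e, e]
  congr 1
  simp only [smul_eq_mul]
  ring

theorem occ_heav (c : G) (x : Fin (n + 1) → G) {θ : V (n + 1)} (hθ : θ ∈ cell n) (φ : ℝ) :
    ∃ z, occ heav c x θ φ = Finsupp.single z 1 := by
  obtain ⟨r, hr⟩ := Occ_exists_r θ φ
  have ht := Occ_total heav_step hr
  rw [← Finset.sum_product'] at ht
  obtain ⟨j, hj, hj1, hj0⟩ := Occ_one_of_sum _ _ (fun p _ => by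
    have := Occ_coef_nonneg heav_step hθ (φ - p.1) p.2
    unfold heav at this ⊢
    split_ifs at this ⊢ <;> first | (norm_num; done) | norm_num at this) ht
  refine ⟨c ^ j.1 * x j.2, ?_⟩
  rw [occ_eq_sum heav_step c x θ φ r hr, ← Finset.sum_product',
    Finset.sum_eq_single_of_mem j hj fun k hk hkj => by rw [hj0 k hk hkj, Finsupp.single_zero], hj1]

/-- Abel summation: an array `a m i` (the weight of the jump at `θ i + m`) with finite support -/
theorem norm_abel_le {E : Type} [NormedAddCommGroup E] [NormedSpace ℝ E] (ℓ : Len G) (ξ : G → E)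
    (hξ : ∀ a b, ‖ξ a - ξ b‖ ≤ ℓ.len (a⁻¹ * b)) (c : G) (x : Fin (n + 1) → G) (r : ℕ)
    (a : ℤ → Fin (n + 2) → ℝ) (hl : ∀ m, a m (Fin.last _) = a (m + 1) 0)
    (h0 : a (-r) 0 = 0) (h1 : a (r + 1) 0 = 0) :
    ‖∑ m ∈ Finset.Icc (-r : ℤ) r, ∑ i : Fin (n + 1),
        (a m i.castSucc - a m i.succ) • ξ (c ^ m * x i)‖ ≤
      ∑ i : Fin (n + 1), slen ℓ c x i * ∑ m ∈ Finset.Icc (-r : ℤ) r, |a m i.castSucc| := by
  have key : ∀ m : ℤ, ∑ i : Fin (n + 1), (a m i.castSucc - a m i.succ) • ξ (c ^ m * x i) =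
      ∑ i : Fin (n + 1), a m i.castSucc • (ξ (c ^ m * x i) - ξ (c ^ m * prev c x i)) +
        (a m 0 • ξ (c ^ m * (c⁻¹ * x (Fin.last n))) -
          a (m + 1) 0 • ξ (c ^ (m + 1) * (c⁻¹ * x (Fin.last n)))) := by
    intro m
    have h := Occ_tele_fin fun j : Fin (n + 2) =>
      a m j • ξ (c ^ m * (Fin.cons (c⁻¹ * x (Fin.last n)) x : Fin (n + 2) → G) j)
    rw [← Fin.succ_last] at h
    simp only [Fin.cons_succ, Fin.cons_zero] at h
    rw [Fin.succ_last, hl m] at h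
    rw [_root_.zpow_add_one, mul_assoc, mul_inv_cancel_left, ← h, ← Finset.sum_add_distrib]
    refine Finset.sum_congr rfl fun i _ => ?_
    rw [sub_smul, smul_sub, prev]
    abel
  simp only [key]
  rw [Finset.sum_add_distrib,
    Occ_tele_int fun m => a m 0 • ξ (c ^ m * (c⁻¹ * x (Fin.last n))), h0, h1, zero_smul, zero_smul,
    sub_self, add_zero, Finset.sum_comm]
  refine (norm_sum_le _ _).trans (Finset.sum_le_sum fun i _ => ?_)
  rw [Finset.mul_sum]
  refine (norm_sum_le _ _).trans (Finset.sum_le_sum fun m _ => ?_)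
  rw [norm_smul, Real.norm_eq_abs, mul_comm, norm_sub_rev]
  refine mul_le_mul_of_nonneg_right ((hξ _ _).trans (le_of_eq ?_)) (abs_nonneg _)
  rw [slen]
  congr 2
  group

theorem norm_pr_occ_sub_le {E : Type} [NormedAddCommGroup E] [NormedSpace ℝ E] (ℓ : Len G)
    (ξ : G → E) (hξ : ∀ a b, ‖ξ a - ξ b‖ ≤ ℓ.len (a⁻¹ * b)) {K' : ℝ → ℝ} (hK : Step K)
    (hK' : Step K') (c : G) (x : Fin (n + 1) → G) (θ : V (n + 1)) (φ : ℝ) :
    ‖pr ξ (occ K c x θ φ) - pr ξ (occ K' c x θ φ)‖ ≤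
      ∑ i, slen ℓ c x i * per (fun t => K t - K' t) (φ - θ i) := by
  obtain ⟨r, hr⟩ := Occ_exists_r θ φ
  have h := norm_abel_le ℓ ξ hξ c x r (fun m j => K (φ - m - ext θ j) - K' (φ - m - ext θ j))
    (fun m => by
      have : φ - m - ext θ (Fin.last _) = φ - (m + 1 : ℤ) - ext θ 0 := by
        rw [Occ_ext_last, Occ_ext_zero]; push_cast; ring
      simp only [this])
    (by rw [Occ_lo hK hr le_rfl, Occ_lo hK' hr le_rfl, sub_self])
    (by rw [Occ_hi hK hr (by omega), Occ_hi hK' hr (by omega), sub_self])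
  rw [occ_eq_sum hK c x θ φ r hr, occ_eq_sum hK' c x θ φ r hr]
  simp only [pr, map_sum, Finsupp.linearCombination_single, ← Finset.sum_sub_distrib, ← sub_smul]
  convert h using 3 with m _ i _
  · refine Finset.sum_congr rfl fun i _ => ?_
    congr 1
    ring
  · have e : ∀ m : ℤ, φ - θ i - m = φ - m - ext θ i.castSucc := fun m => by
      rw [Occ_ext_castSucc]; ring
    simp only [per, e]
    refine finsum_eq_sum_of_support_subset _ fun m hm => ?_
    by_contra h'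
    exact hm (by simp only [Occ_out hK hK' hr h', abs_zero])

theorem IsProb.norm_pr_le {E : Type} [NormedAddCommGroup E] [NormedSpace ℝ E] {μ : G →₀ ℝ}
    (hμ : IsProb μ) (ξ : G → E) {B : ℝ} (hξ : ∀ a, ‖ξ a‖ ≤ B) : ‖pr ξ μ‖ ≤ B := by
  have h := hμ.2
  simp only [mass, pr, Finsupp.linearCombination_apply, Finsupp.sum, smul_eq_mul, mul_one] at h ⊢
  calc _ ≤ ∑ a ∈ μ.support, μ a * B := (norm_sum_le _ _).trans (Finset.sum_le_sum fun a _ => by
        rw [norm_smul, Real.norm_of_nonneg (hμ.1 a)]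
        exact mul_le_mul_of_nonneg_left (hξ a) (hμ.1 a))
    _ = B := by rw [← Finset.sum_mul, h, one_mul]

theorem IsProb.tr {μ : G →₀ ℝ} (hμ : IsProb μ) (h : G) : IsProb (tr h μ) := by
  refine ⟨fun g => ?_, ?_⟩
  · have := Finsupp.mapDomain_apply (mul_right_injective h) μ (h⁻¹ * g)
    rw [mul_inv_cancel_left] at this
    exact this ▸ hμ.1 _
  · rw [mass, pr, R192.tr, Finsupp.linearCombination_mapDomain]
    exact hμ.2

theorem IsProb.convex {μ μ' : G →₀ ℝ} (hμ : IsProb μ) (hμ' : IsProb μ') {t : ℝ} (h0 : 0 ≤ t)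
    (h1 : t ≤ 1) : IsProb ((1 - t) • μ + t • μ') := by
  refine ⟨fun g => ?_, ?_⟩
  · rw [Finsupp.add_apply, Finsupp.smul_apply, Finsupp.smul_apply, smul_eq_mul, smul_eq_mul]
    exact add_nonneg (mul_nonneg (by linarith) (hμ.1 g)) (mul_nonneg h0 (hμ'.1 g))
  · have e1 := hμ.2
    have e2 := hμ'.2
    simp only [mass, pr] at e1 e2 ⊢
    rw [map_add, map_smul, map_smul, e1, e2, smul_eq_mul, smul_eq_mul]
    ring

theorem mass_tr (μ : G →₀ ℝ) (h : G) : mass (tr h μ) = mass μ := by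
  rw [mass, pr, tr, Finsupp.linearCombination_mapDomain]
  rfl

end Crest.Agent.R192
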