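import Crest.Agent.R192.Lab1
import Crest.Agent.R192.Occ

/-! Row 192: labels: derivative bounds and multiplicity. -/

set_option autoImplicit false
set_option linter.unusedSectionVars false

namespace Crest.Agent.R192

open Crest.AlgebraR.L1 MeasureTheory Matrix
open scoped ContDiff BoundedContinuousFunction

namespace Lab3

section HB
variable {E F : Type} [NormedAddCommGroup E] [NormedSpace ℝ E] [NormedAddCommGroup F]
  [NormedSpace ℝ F] {f g : E → F} {s : E → ℝ} {a : E} {C C' : ℝ}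

/-- `f` is differentiable at `a` with derivative of norm at most `C` -/
def HB (f : E → F) (a : E) (C : ℝ) : Prop := ∃ L : E →L[ℝ] F, HasFDerivAt f L a ∧ ‖L‖ ≤ C

theorem HB.mono (h : HB f a C) (hC : C ≤ C') : HB f a C' :=
  let ⟨L, h1, h2⟩ := h
  ⟨L, h1, h2.trans hC⟩

theorem HB.nonneg (h : HB f a C) : 0 ≤ C :=
  let ⟨_, _, h2⟩ := h
  (norm_nonneg _).trans h2

theorem HB.fderiv_le (h : HB f a C) : ‖fderiv ℝ f a‖ ≤ C := by
  obtain ⟨L, h1, h2⟩ := h
  rwa [h1.fderiv]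

theorem HB.congr (h : HB f a C) (e : g =ᶠ[nhds a] f) : HB g a C :=
  let ⟨L, h1, h2⟩ := h
  ⟨L, h1.congr_of_eventuallyEq e, h2⟩

theorem HB.const (c : F) (a : E) : HB (fun _ => c) a 0 := ⟨0, hasFDerivAt_const c a, norm_zero.le⟩

theorem HB.const_add (h : HB f a C) (c : F) : HB (fun x => c + f x) a C :=
  let ⟨L, h1, h2⟩ := h
  ⟨L, h1.const_add c, h2⟩

theorem HB.sum {ι : Type} (t : Finset ι) {f : ι → E → F} {C : ι → ℝ}
    (h : ∀ i, HB (f i) a (C i)) : HB (fun x => ∑ i ∈ t, f i x) a (∑ i ∈ t, C i) := by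
  choose L h1 h2 using h
  exact ⟨∑ i ∈ t, L i, HasFDerivAt.fun_sum fun i _ => h1 i, norm_sum_le_of_le t fun i _ => h2 i⟩

theorem HB.smul (h : HB s a C) (h' : HB f a C') :
    HB (fun x => s x • f x) a (|s a| * C' + C * ‖f a‖) := by
  obtain ⟨L, h1, h2⟩ := h
  obtain ⟨L', h1', h2'⟩ := h'
  refine ⟨_, h1.fun_smul h1', (norm_add_le _ _).trans ?_⟩
  rw [norm_smul, ContinuousLinearMap.norm_smulRight_apply, Real.norm_eq_abs]
  gcongr

theorem HB.comp (h : HB s a C) {φ : ℝ → ℝ} {φ' : ℝ} (hφ : HasDerivAt φ φ' (s a)) :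
    HB (fun x => φ (s x)) a (|φ'| * C) := by
  obtain ⟨L, h1, h2⟩ := h
  refine ⟨_, hφ.comp_hasFDerivAt a h1, ?_⟩
  rw [norm_smul, Real.norm_eq_abs]
  gcongr

end HB

local notation "σ" => Real.smoothTransition

theorem hasDerivAt_sig (y : ℝ) : HasDerivAt σ (deriv σ y) y :=
  ((Real.smoothTransition.contDiff (n := 1)).differentiable (by norm_num) y).hasDerivAt

theorem deriv_sig_of_nonpos {y : ℝ} (hy : y ≤ 0) : deriv σ y = 0 :=
  IsLocalMin.deriv_eq_zero (.of_forall fun x => by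
    rw [Real.smoothTransition.zero_of_nonpos hy]
    exact Real.smoothTransition.nonneg x)

theorem deriv_sig_of_one_le {y : ℝ} (hy : 1 ≤ y) : deriv σ y = 0 :=
  IsLocalMax.deriv_eq_zero (.of_forall fun x => by
    rw [Real.smoothTransition.one_of_one_le hy]
    exact Real.smoothTransition.le_one x)

theorem cut_bound {u u0 : ℝ} (hu : 0 < u) (h0 : 0 < u0) :
    |1 * σ (u / u0 - 1) + u * (deriv σ (u / u0 - 1) * (1 / u0))| * u ≤
      u * σ (u / u0 - 1) + if u0 < u then 4 * Ksig * u0 else 0 := by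
  have hK := one_le_Ksig
  have hs := Real.smoothTransition.nonneg (u / u0 - 1)
  have h1 : |u * (deriv σ (u / u0 - 1) * (1 / u0))| * u ≤ if u0 < u then 4 * Ksig * u0 else 0 := by
    split_ifs with h
    · rcases le_total u (2 * u0) with h2 | h2
      · rw [abs_mul, abs_mul, abs_of_pos hu, abs_of_pos (one_div_pos.2 h0)]
        calc _ ≤ 2 * u0 * (Ksig * (1 / u0)) * (2 * u0) := by
              gcongr
              exact abs_deriv_le_Ksig _
          _ = _ := by field_simp; norm_num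
      · rw [deriv_sig_of_one_le (by rw [le_sub_iff_add_le, le_div_iff₀ h0]; linarith)]
        simp only [zero_mul, mul_zero, abs_zero]
        positivity
    · rw [deriv_sig_of_nonpos (by rw [sub_nonpos, div_le_one h0]; linarith)]
      simp
  calc _ ≤ (|1 * σ (u / u0 - 1)| + |u * (deriv σ (u / u0 - 1) * (1 / u0))|) * u := by
        gcongr
        exact abs_add_le _ _
    _ ≤ _ := by
        rw [add_mul, one_mul, abs_of_nonneg hs, mul_comm _ u]
        linarith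

variable {G : Type} [Group G] [TopologicalSpace G] [DiscreteTopology G] {ℓ : Len G} {R : ℕ}
  {p : LP G}

theorem hb_uu {β : ℝ} (hβ : 0 < β) (x : G) (η : G → ℝ) (a : G →ᵇ ℝ) :
    HB (uu ℓ R β x η) a (β * uu ℓ R β x η a) := by
  have h1 : ∀ z, HB (fun a : G →ᵇ ℝ => Real.exp (β * (a (x * z) - η z)) +
      Real.exp (-(β * (a (x * z) - η z)))) a
      (β * (Real.exp (β * (a (x * z) - η z)) + Real.exp (-(β * (a (x * z) - η z))))) := by
    intro z
    have e : HB (fun a : G →ᵇ ℝ => a (x * z)) a 1 :=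
      ⟨BoundedContinuousFunction.evalCLM ℝ (x * z),
        (BoundedContinuousFunction.evalCLM ℝ (x * z) : (G →ᵇ ℝ) →L[ℝ] ℝ).hasFDerivAt,
        ContinuousLinearMap.opNorm_le_bound _ zero_le_one fun f => by
          rw [one_mul]
          exact f.norm_coe_le_norm _⟩
    have d := ((hasDerivAt_id' (a (x * z))).sub_const (η z)).const_mul β
    refine (e.comp (d.exp.fun_add d.fun_neg.exp)).mono ?_
    have := Real.exp_pos (β * (a (x * z) - η z))
    have := Real.exp_pos (-(β * (a (x * z) - η z)))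
    rw [mul_one, abs_le]
    constructor <;> nlinarith
  have h2 := HB.sum (ℓ.ball (2 * R)) h1
  have h3 := inv_pos.1 (uu_pos (ℓ := ℓ) (R := R) β x η a)
  refine (h2.comp (hasDerivAt_inv h3.ne')).mono (le_of_eq ?_)
  rw [← Finset.mul_sum, uu, abs_neg, abs_of_pos (by positivity)]
  field_simp

open Classical in
/-- bound for the derivative of `rr` -/
noncomputable def bd (ℓ : Len G) (R : ℕ) (p : LP G) (x : G) (η : G → ℝ) (a : G →ᵇ ℝ) : ℝ :=
  p.β * (rr ℓ R p x η a + if p.u0 < uu ℓ R p.β x η a then 4 * Ksig * p.u0 else 0)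

theorem hb_rr (h : p.Ok ℓ R) (x : G) (η : G → ℝ) (a : G →ᵇ ℝ) :
    HB (rr ℓ R p x η) a (bd ℓ R p x η a) := by
  have d := (hasDerivAt_id' (uu ℓ R p.β x η a)).fun_mul ((hasDerivAt_sig _).comp _
    (((hasDerivAt_id' (uu ℓ R p.β x η a)).div_const p.u0).sub_const 1))
  refine ((hb_uu h.β_pos x η a).comp d).mono ?_
  rw [mul_left_comm]
  exact mul_le_mul_of_nonneg_left (cut_bound (uu_pos _ _ _ _) (Real.exp_pos _)) h.β_pos.le

section num
variable {F : Type} [NormedAddCommGroup F] [NormedSpace ℝ F] (ℓ R p) (v : Lab p → Fin p.Q) (c : G)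
  (X : Finset G)

/-- weighted sum over the templates with anchor in `X` -/
noncomputable def num (k : G → p.Sh → F) (a : G →ᵇ ℝ) : F :=
  ∑ x ∈ X, ∑ η : p.Sh, (rr ℓ R p x η a * pw p.Q p.P (v (OT.mk' c x η))) • k x η

/-- finite version of the total weight -/
noncomputable def den (a : G →ᵇ ℝ) : ℝ := p.T0 + num ℓ R p v c X (fun _ _ => (1 : ℝ)) a

/-- normalised weighted sum -/
noncomputable def quo (k : G → p.Sh → F) (a : G →ᵇ ℝ) : F :=
  (den ℓ R p v c X a)⁻¹ • num ℓ R p v c X k a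

/-- bound for the derivatives of the weighted sums -/
noncomputable def tot (a : G →ᵇ ℝ) : ℝ :=
  ∑ x ∈ X, ∑ η : p.Sh, bd ℓ R p x η a * pw p.Q p.P (v (OT.mk' c x η))

variable {ℓ R p} {k : G → p.Sh → F}

theorem pw_nonneg (l : Lab p) : 0 ≤ pw p.Q p.P (v l) := zero_le_one.trans (one_le_pw _ _ _)

theorem norm_num_le (hk : ∀ x η, ‖k x η‖ ≤ 1) (a : G →ᵇ ℝ) :
    ‖num ℓ R p v c X k a‖ ≤ num ℓ R p v c X (fun _ _ => (1 : ℝ)) a := by
  refine norm_sum_le_of_le _ fun x _ => norm_sum_le_of_le _ fun η _ => ?_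
  have := mul_nonneg (rr_nonneg (ℓ := ℓ) (R := R) (p := p) x η a) (pw_nonneg v (OT.mk' c x η))
  rw [norm_smul, Real.norm_of_nonneg this]
  exact mul_le_mul_of_nonneg_left (hk x η) this

theorem T0_le_den (a : G →ᵇ ℝ) : p.T0 ≤ den ℓ R p v c X a :=
  le_add_of_nonneg_right ((norm_nonneg _).trans
    (norm_num_le v c X (k := fun _ _ => (1 : ℝ)) (fun _ _ => norm_one.le) a))

theorem den_pos (h : p.Ok ℓ R) (a : G →ᵇ ℝ) : 0 < den ℓ R p v c X a :=
  (T0_pos h).trans_le (T0_le_den v c X a)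

theorem norm_quo_le (h : p.Ok ℓ R) (hk : ∀ x η, ‖k x η‖ ≤ 1) (a : G →ᵇ ℝ) :
    ‖quo ℓ R p v c X k a‖ ≤ 1 := by
  have h0 := den_pos v c X h a
  rw [quo, norm_smul, norm_inv, Real.norm_of_nonneg h0.le, inv_mul_le_iff₀ h0, mul_one]
  exact (norm_num_le v c X hk a).trans (le_add_of_nonneg_left (T0_pos h).le)

theorem hb_num (h : p.Ok ℓ R) (hk : ∀ x η, ‖k x η‖ ≤ 1) (a : G →ᵇ ℝ) :
    HB (num ℓ R p v c X k) a (tot ℓ R p v c X a) := by
  refine HB.sum X fun x => HB.sum Finset.univ fun η => ?_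
  have h1 := hb_rr h x η a
  refine ((h1.smul (HB.const (pw p.Q p.P (v (OT.mk' c x η)) • k x η) a)).congr
    (.of_forall fun b => mul_smul _ _ _)).mono ?_
  rw [mul_zero, zero_add, norm_smul, Real.norm_of_nonneg (pw_nonneg v _)]
  exact mul_le_mul_of_nonneg_left (mul_le_of_le_one_right (pw_nonneg v _) (hk x η)) h1.nonneg

theorem hb_quo (h : p.Ok ℓ R) (hk : ∀ x η, ‖k x η‖ ≤ 1) (a : G →ᵇ ℝ) :
    HB (quo ℓ R p v c X k) a (2 * (tot ℓ R p v c X a / den ℓ R p v c X a)) := by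
  have h0 := den_pos v c X h a
  have h1 := hb_num v c X h hk a
  have h2 : HB (den ℓ R p v c X) a (tot ℓ R p v c X a) :=
    (hb_num v c X h (k := fun _ _ => (1 : ℝ)) (fun _ _ => norm_one.le) a).const_add _
  have h3 : ‖num ℓ R p v c X k a‖ ≤ den ℓ R p v c X a :=
    (norm_num_le v c X hk a).trans (le_add_of_nonneg_left (T0_pos h).le)
  have h4 := h1.nonneg
  refine ((h2.comp (hasDerivAt_inv h0.ne')).smul h1).mono ?_
  rw [abs_neg, abs_of_pos (by positivity), abs_of_pos (by positivity)]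
  calc _ ≤ (den ℓ R p v c X a)⁻¹ * tot ℓ R p v c X a +
        (den ℓ R p v c X a ^ 2)⁻¹ * tot ℓ R p v c X a * den ℓ R p v c X a := by gcongr
    _ = _ := by field_simp; norm_num

open Classical in
theorem card_active_le (h : p.Ok ℓ R) {μ : G →₀ ℝ} (hμ : IsProb μ) :
    ((X ×ˢ (Finset.univ : Finset p.Sh)).filter
      fun q => p.u0 < uu ℓ R p.β q.1 q.2 (feat ℓ R μ)).card ≤ p.N1 := by
  have hm : ∀ (x : G) (η : p.Sh), p.u0 < uu ℓ R p.β x η (feat ℓ R μ) → 1 / 2 < feat ℓ R μ x := by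
    intro x η hx
    have h1 := abs_sub_lt_of_uu h hx (z := 1) (by rw [ℓ.mem_ball, ℓ.len_one]; exact Nat.zero_le _)
    have h2 := h.valid η η.2
    have h3 := h.t_le
    rw [mul_one] at h1
    linarith [(abs_lt.1 h1).1]
  rcases Finset.eq_empty_or_nonempty ((X ×ˢ (Finset.univ : Finset p.Sh)).filter
      fun q => p.u0 < uu ℓ R p.β q.1 q.2 (feat ℓ R μ)) with h0 | ⟨q0, h0⟩
  · rw [h0]
    exact Nat.zero_le _
  refine le_trans ?_ h.N1_ge
  rw [← Fintype.card_coe p.Sh, ← Finset.card_univ, ← Finset.card_product]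
  refine Finset.card_le_card_of_injOn (fun q => (q0.1⁻¹ * q.1, q.2)) (fun q hq => ?_)
    fun q _ q' _ e => ?_
  · refine Finset.mem_coe.2 (Finset.mem_product.2 ⟨(ℓ.mem_ball _ _).2 ?_, Finset.mem_univ _⟩)
    exact majority ℓ R h.R_pos μ hμ _ _ (hm _ _ (Finset.mem_filter.1 h0).2)
      (hm _ _ (Finset.mem_filter.1 hq).2)
  · obtain ⟨e1, e2⟩ := Prod.mk.inj e
    exact Prod.ext (mul_left_cancel e1) e2

theorem tot_le (h : p.Ok ℓ R) {μ : G →₀ ℝ} (hμ : IsProb μ) :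
    tot ℓ R p v c X (feat ℓ R μ) / den ℓ R p v c X (feat ℓ R μ) ≤ (1 + 4 * Ksig) * p.β := by
  classical
  have hK := one_le_Ksig
  have hu : 0 < p.u0 := Real.exp_pos _
  have h1 : ∑ x ∈ X, ∑ η : p.Sh, (if p.u0 < uu ℓ R p.β x η (feat ℓ R μ) then 4 * Ksig * p.u0 else 0) *
      pw p.Q p.P (v (OT.mk' c x η)) ≤ 4 * Ksig * p.T0 := by
    calc _ ≤ ∑ x ∈ X, ∑ η : p.Sh, if p.u0 < uu ℓ R p.β x η (feat ℓ R μ) then
          4 * Ksig * p.u0 * (p.Q : ℝ) ^ p.P else 0 := by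
          refine Finset.sum_le_sum fun x _ => Finset.sum_le_sum fun η _ => ?_
          split_ifs
          · exact mul_le_mul_of_nonneg_left (pw_le _ _ _) (by positivity)
          · rw [zero_mul]
      _ ≤ p.N1 * (4 * Ksig * p.u0 * (p.Q : ℝ) ^ p.P) := by
          rw [← Finset.sum_product', ← Finset.sum_filter, Finset.sum_const, nsmul_eq_mul]
          gcongr
          exact card_active_le X h hμ
      _ = _ := by rw [LP.T0]; ring
  have h2 := T0_le_den (ℓ := ℓ) (R := R) v c X (feat ℓ R μ)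
  have h3 := T0_pos h
  have h4 : tot ℓ R p v c X (feat ℓ R μ) = p.β * (den ℓ R p v c X (feat ℓ R μ) - p.T0 +
      ∑ x ∈ X, ∑ η : p.Sh, (if p.u0 < uu ℓ R p.β x η (feat ℓ R μ) then 4 * Ksig * p.u0 else 0) *
        pw p.Q p.P (v (OT.mk' c x η))) := by
    simp only [tot, den, num, bd, add_sub_cancel_left, smul_eq_mul, mul_one, Finset.mul_sum,
      ← Finset.sum_add_distrib, mul_assoc p.β, add_mul]
  rw [div_le_iff₀ (den_pos v c X h _), h4, mul_comm _ p.β, mul_assoc p.β]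
  refine mul_le_mul_of_nonneg_left ?_ h.β_pos.le
  nlinarith

end num

open Classical in
/-- coefficients that select the templates of the label `l` -/
noncomputable def sel {F : Type} [Zero F] (l : Lab p) (f : G → F) (x : G) (η : p.Sh) : F :=
  if OT.mk' l.c x η = l then f x else 0

theorem norm_sel_le {F : Type} [NormedAddCommGroup F] (l : Lab p) {f : G → F}
    (hf : ∀ x, ‖f x‖ ≤ 1) (x : G) (η : p.Sh) : ‖sel l f x η‖ ≤ 1 := by
  unfold sel
  split_ifs
  exacts [hf x, norm_zero.trans_le zero_le_one]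

open Classical in
theorem num_sel {F : Type} [NormedAddCommGroup F] [NormedSpace ℝ F] (v : Lab p → Fin p.Q)
    (l : Lab p) (X : Finset G) (f : G → F) (a : G →ᵇ ℝ) : num ℓ R p v l.c X (sel l f) a =
      pw p.Q p.P (v l) • ∑ x ∈ X.filter (· ∈ l.s), rr ℓ R p x l.tag a • f x := by
  rw [num, Finset.sum_filter, Finset.smul_sum]
  refine Finset.sum_congr rfl fun x _ => ?_
  rw [Finset.sum_eq_single l.tag (fun η _ hη => ?_) (by simp), sel]
  · by_cases hx : x ∈ l.s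
    · rw [if_pos hx, (mk'_eq_iff_mem l x).2 hx, if_pos rfl, mul_comm, mul_smul]
    · rw [if_neg hx, if_neg (mt (mk'_eq_iff_mem l x).1 hx), smul_zero, smul_zero]
  · rw [sel, if_neg fun e => hη (congrArg OT.tag e), smul_zero]

theorem Xi_eq_den (h : p.Ok ℓ R) (v : Lab p → Fin p.Q) (c : G) {a : G →ᵇ ℝ} {X : Finset G}
    (hX : ∀ x, x ∉ X → a x ≤ 1 / 2) : Xi ℓ R p v c a = den ℓ R p v c X a := by
  simp only [Xi_eq h v c X hX, den, num, smul_eq_mul, mul_one]

theorem share_eq (h : p.Ok ℓ R) (v : Lab p → Fin p.Q) (l : Lab p) {a : G →ᵇ ℝ} {X : Finset G}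
    (hX : ∀ x, x ∉ X → a x ≤ 1 / 2) :
    share ℓ R p v l a = quo ℓ R p v l.c X (sel l fun _ => (1 : ℝ)) a := by
  rw [share, quo, num_sel, Xi_eq_den h v _ hX, Sl_eq h l X hX]
  simp only [smul_eq_mul, mul_one]
  rw [div_eq_inv_mul]

theorem Y1_eq (h : p.Ok ℓ R) (v : Lab p → Fin p.Q) (l : Lab p) {a : G →ᵇ ℝ} {X : Finset G}
    (hX : ∀ x, x ∉ X → a x ≤ 1 / 2) : Y1 ℓ R p v l a = σ (10 * share ℓ R p v l a - 6) •
      quo ℓ R p v l.c X (sel l fun x => ee (ang p l * l.idx x)) a := by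
  rw [Y1, quo, num_sel, Xi_eq_den h v _ hX, Zl_eq h l X hX, smul_smul, smul_smul, mul_assoc,
    div_eq_inv_mul]
  simp only [Complex.real_smul]

theorem norm_sel_one (l : Lab p) (x : G) (η : p.Sh) : ‖sel l (fun _ => (1 : ℝ)) x η‖ ≤ 1 :=
  norm_sel_le l (fun _ => norm_one.le) x η

theorem norm_sel_ee (l : Lab p) (x : G) (η : p.Sh) :
    ‖sel l (fun x => ee (ang p l * l.idx x)) x η‖ ≤ 1 :=
  norm_sel_le l (fun _ => (norm_ee _).le) x η

/-- the derivative bounds, in terms of a constant that is controlled for probability measures -/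
theorem exists_hb (h : p.Ok ℓ R) (v : Lab p → Fin p.Q) (l : Lab p) (μ : G →₀ ℝ) :
    ∃ C, (IsProb μ → C ≤ 2 * (1 + 4 * Ksig) * p.β) ∧ HB (share ℓ R p v l) (feat ℓ R μ) C ∧
      HB (Y1 ℓ R p v l) (feat ℓ R μ) ((σ (10 * share ℓ R p v l (feat ℓ R μ) - 6) +
        10 * |deriv σ (10 * share ℓ R p v l (feat ℓ R μ) - 6)|) * C) := by
  obtain ⟨X, hX⟩ := exists_finset_nhds (ℓ := ℓ) h.R_pos μ
  have h1 := (hb_quo v l.c X h (norm_sel_one l) (feat ℓ R μ)).congr
    (hX.mono fun a ha => share_eq h v l ha)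
  refine ⟨_, fun hμ => ?_, h1, ?_⟩
  · rw [mul_assoc]
    exact mul_le_mul_of_nonneg_left (tot_le v l.c X h hμ) zero_le_two
  · have d := (hasDerivAt_sig _).comp _
      (((hasDerivAt_id' (share ℓ R p v l (feat ℓ R μ))).const_mul 10).sub_const 6)
    refine (((h1.comp d).smul (hb_quo v l.c X h (norm_sel_ee l) (feat ℓ R μ))).congr
      (hX.mono fun a ha => Y1_eq h v l ha)).mono ?_
    have h2 := norm_quo_le v l.c X h (norm_sel_ee l) (feat ℓ R μ)
    have h3 := h1.nonneg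
    rw [add_mul, Function.comp_apply, abs_of_nonneg (Real.smoothTransition.nonneg _), abs_mul,
      mul_one, abs_of_pos (by norm_num : (0 : ℝ) < 10), mul_comm _ (10 : ℝ)]
    exact add_le_add le_rfl (mul_le_of_le_one_right (by positivity) h2)

end Lab3

open Lab3

variable {G : Type} [Group G] [TopologicalSpace G] [DiscreteTopology G] {ℓ : Len G} {R : ℕ}
  {p : LP G}

theorem share_nonneg (h : p.Ok ℓ R) (v : Lab p → Fin p.Q) (l : Lab p) (a : G →ᵇ ℝ) :
    0 ≤ share ℓ R p v l a :=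
  div_nonneg (mul_nonneg (pw_nonneg v l)
    (finsum_nonneg fun x => finsum_nonneg fun _ => rr_nonneg x _ a))
    ((T0_pos h).le.trans (T0_le_Xi v _ a))

theorem share_add_le (h : p.Ok ℓ R) (v : Lab p → Fin p.Q) {l l' : Lab p} (hc : l.c = l'.c)
    (hne : l ≠ l') (μ : G →₀ ℝ) :
    share ℓ R p v l (feat ℓ R μ) + share ℓ R p v l' (feat ℓ R μ) ≤ 1 := by
  obtain ⟨X, hX⟩ := exists_finset_nhds (ℓ := ℓ) h.R_pos μ
  have h1 := norm_quo_le v l.c X h
    (k := fun x η => sel l (fun _ => (1 : ℝ)) x η + sel l' (fun _ => (1 : ℝ)) x η) (fun x η => by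
      unfold sel
      rw [← hc]
      split_ifs with h1 h2
      · exact absurd (h1.symm.trans h2) hne
      all_goals simp) (feat ℓ R μ)
  rw [share_eq h v l hX.self_of_nhds, share_eq h v l' hX.self_of_nhds, ← hc]
  refine le_trans (le_of_eq ?_) ((le_abs_self _).trans h1)
  simp only [quo, num, smul_add, Finset.sum_add_distrib]

theorem share_fderiv_le (h : p.Ok ℓ R) (v : Lab p → Fin p.Q) (l : Lab p) {μ : G →₀ ℝ}
    (hμ : IsProb μ) : ‖fderiv ℝ (share ℓ R p v l) (feat ℓ R μ)‖ ≤ 2 * (1 + 4 * Ksig) * p.β := by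
  obtain ⟨C, h1, h2, -⟩ := exists_hb h v l μ
  exact h2.fderiv_le.trans (h1 hμ)

theorem Y1_norm_le (h : p.Ok ℓ R) (v : Lab p → Fin p.Q) (l : Lab p) (μ : G →₀ ℝ) :
    ‖Y1 ℓ R p v l (feat ℓ R μ)‖ ≤ 1 := by
  obtain ⟨X, hX⟩ := exists_finset_nhds (ℓ := ℓ) h.R_pos μ
  rw [Y1_eq h v l hX.self_of_nhds, norm_smul,
    Real.norm_of_nonneg (Real.smoothTransition.nonneg _)]
  exact mul_le_one₀ (Real.smoothTransition.le_one _) (norm_nonneg _)
    (norm_quo_le v l.c X h (norm_sel_ee l) _)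

theorem Y1_fderiv_le (h : p.Ok ℓ R) (v : Lab p → Fin p.Q) (l : Lab p) {μ : G →₀ ℝ}
    (hμ : IsProb μ) :
    ‖fderiv ℝ (Y1 ℓ R p v l) (feat ℓ R μ)‖ ≤ 22 * Ksig * (1 + 4 * Ksig) * p.β := by
  obtain ⟨C, h1, h2, h3⟩ := exists_hb h v l μ
  have hK := one_le_Ksig
  have h4 := Real.smoothTransition.le_one (10 * share ℓ R p v l (feat ℓ R μ) - 6)
  have h5 := abs_deriv_le_Ksig (10 * share ℓ R p v l (feat ℓ R μ) - 6)
  calc _ ≤ _ := h3.fderiv_le
    _ ≤ 11 * Ksig * (2 * (1 + 4 * Ksig) * p.β) :=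
        mul_le_mul (by linarith) (h1 hμ) h2.nonneg (by linarith)
    _ = _ := by ring

theorem Y1_inactive (h : p.Ok ℓ R) (v : Lab p → Fin p.Q) (l : Lab p) (μ : G →₀ ℝ)
    (hs : share ℓ R p v l (feat ℓ R μ) ≤ 6 / 10) :
    Y1 ℓ R p v l (feat ℓ R μ) = 0 ∧ fderiv ℝ (Y1 ℓ R p v l) (feat ℓ R μ) = 0 := by
  obtain ⟨C, -, -, h3⟩ := exists_hb h v l μ
  have h4 : 10 * share ℓ R p v l (feat ℓ R μ) - 6 ≤ 0 := by linarith
  have h5 := h3.fderiv_le
  rw [Real.smoothTransition.zero_of_nonpos h4, deriv_sig_of_nonpos h4, abs_zero, mul_zero, add_zero,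
    zero_mul] at h5
  exact ⟨by simp [Y1, Real.smoothTransition.zero_of_nonpos h4],
    (ContinuousLinearMap.opNorm_zero_iff _).1 (le_antisymm h5 (norm_nonneg _))⟩

theorem active_unique (h : p.Ok ℓ R) (v : Lab p → Fin p.Q) {l l' : Lab p} (hc : l.c = l'.c)
    {μ μ' : G →₀ ℝ} (hμ : IsProb μ) (hμ' : IsProb μ')
    (hd : 20 * (1 + 4 * Ksig) * p.β * ‖feat ℓ R μ - feat ℓ R μ'‖ ≤ 1)
    (hs : 6 / 10 < share ℓ R p v l (feat ℓ R μ)) (hs' : 6 / 10 < share ℓ R p v l' (feat ℓ R μ')) :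
    l = l' := by
  by_contra hne
  have h1 := share_add_le h v hc hne μ
  have h2 : ∀ a ∈ segment ℝ (feat ℓ R μ') (feat ℓ R μ), ∃ ν, IsProb ν ∧ a = feat ℓ R ν := by
    rw [segment_eq_image]
    rintro _ ⟨t, ht, rfl⟩
    exact ⟨_, hμ'.convex hμ ht.1 ht.2, by simp only [feat, pr, map_add, map_smul]⟩
  have h3 := (convex_segment (feat ℓ R μ') (feat ℓ R μ)).norm_image_sub_le_of_norm_fderiv_le
    (f := share ℓ R p v l') (C := 2 * (1 + 4 * Ksig) * p.β) (fun a ha => by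
      obtain ⟨ν, -, rfl⟩ := h2 a ha
      exact (share_smooth h v l' ν).differentiableAt (by simp)) (fun a ha => by
      obtain ⟨ν, hν, rfl⟩ := h2 a ha
      exact share_fderiv_le h v l' hν) (left_mem_segment _ _ _) (right_mem_segment _ _ _)
  linarith [(abs_le.1 h3).1]

end Crest.Agent.R192
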