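import Crest.Agent.R192.Lab2
import Crest.Agent.R192.Lab3

/-! Row 192: labels: lower bounds. -/

set_option autoImplicit false
set_option linter.unusedSectionVars false

namespace Crest.Agent.R192

open Crest.AlgebraR.L1 MeasureTheory Matrix
open scoped ContDiff BoundedContinuousFunction

variable {G : Type} [Group G] [TopologicalSpace G] [DiscreteTopology G] {ℓ : Len G} {R : ℕ}
  {p : LP G}

namespace Lab4

/-- an active anchor reads the thresholded shape up to the error `t` -/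
theorem fη_close (h : p.Ok ℓ R) (η : p.Sh) {μ : G →₀ ℝ} (hμ : IsProb μ) {x : G}
    (hx : rr ℓ R p x η (feat ℓ R μ) ≠ 0) (z : G) :
    |fη ℓ R η z - max 0 (feat ℓ R μ (x * z) - 1 / 2)| ≤ p.t := by
  unfold fη
  split_ifs with hz
  · have h1 := abs_sub_lt_of_uu h (uu_gt_of_rr_ne_zero hx) hz
    rw [max_comm, max_comm 0]
    refine (abs_max_sub_max_le_abs _ _ _).trans ?_
    rw [sub_sub_sub_cancel_right, abs_sub_comm]
    exact h1.le
  · have h1 : 1 / 2 < feat ℓ R μ x := by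
      by_contra hc
      exact hx (rr_eq_zero h η (not_lt.1 hc))
    have h2 : feat ℓ R μ (x * z) ≤ 1 / 2 := by
      by_contra hc
      have := majority ℓ R h.R_pos μ hμ x (x * z) h1 (not_le.1 hc)
      rw [inv_mul_cancel_left] at this
      exact hz ((ℓ.mem_ball _ _).2 this)
    rw [max_eq_left (by linarith), sub_zero, abs_zero]
    exact h.t_pos.le

theorem u0_pos : 0 < p.u0 := Real.exp_pos _

theorem rr_le_uu (x : G) (η : G → ℝ) (a : G →ᵇ ℝ) : rr ℓ R p x η a ≤ uu ℓ R p.β x η a :=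
  mul_le_of_le_one_right (uu_pos _ _ _ _).le (Real.smoothTransition.le_one _)

theorem uu_sub_le_rr (x : G) (η : G → ℝ) (a : G →ᵇ ℝ) :
    uu ℓ R p.β x η a - 2 * p.u0 ≤ rr ℓ R p x η a := by
  have h0 := u0_pos (p := p)
  rcases le_total (2 * p.u0) (uu ℓ R p.β x η a) with h | h
  · have : 1 ≤ uu ℓ R p.β x η a / p.u0 - 1 := by
      rw [le_sub_iff_add_le, le_div_iff₀ h0]
      linarith
    rw [rr, Real.smoothTransition.one_of_one_le this]
    linarith
  · have := rr_nonneg (ℓ := ℓ) (R := R) (p := p) x η a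
    linarith

theorem one_mem_ball (r : ℕ) : (1 : G) ∈ ℓ.ball r := by
  rw [ℓ.mem_ball, ℓ.len_one]
  exact Nat.zero_le _

theorem uu_le_two_mul {β : ℝ} (hβ : 0 < β) {x : G} (η : G → ℝ) {a a' : G →ᵇ ℝ}
    (h : ∀ z ∈ ℓ.ball (2 * R), β * |a (x * z) - a' (x * z)| ≤ 1 / 2) :
    uu ℓ R β x η a ≤ 2 * uu ℓ R β x η a' := by
  have he : Real.exp (1 / 2) ≤ 2 := by
    have h1 : Real.exp (1 / 2) ^ 2 = Real.exp 1 := by
      rw [← Real.exp_nat_mul]
      norm_num
    have h2 := Real.exp_one_lt_d9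
    refine le_of_pow_le_pow_left₀ two_ne_zero zero_le_two ?_
    rw [h1]
    linarith
  have key : ∀ s s' : ℝ, s' - s ≤ 1 / 2 → Real.exp s' ≤ 2 * Real.exp s := by
    intro s s' hs
    calc Real.exp s' ≤ Real.exp (1 / 2 + s) := Real.exp_le_exp.2 (by linarith)
      _ = Real.exp (1 / 2) * Real.exp s := Real.exp_add _ _
      _ ≤ _ := mul_le_mul_of_nonneg_right he (Real.exp_pos _).le
  have hpos : ∀ a : G →ᵇ ℝ, 0 < ∑ z ∈ ℓ.ball (2 * R),
      (Real.exp (β * (a (x * z) - η z)) + Real.exp (-(β * (a (x * z) - η z)))) :=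
    fun a => inv_pos.1 (uu_pos (ℓ := ℓ) (R := R) β x η a)
  unfold uu
  rw [← div_eq_mul_inv, inv_eq_one_div, div_le_div_iff₀ (hpos a) (hpos a'), one_mul,
    Finset.mul_sum]
  refine Finset.sum_le_sum fun z hz => ?_
  have h1 := h z hz
  rw [← abs_of_pos hβ, ← abs_mul, abs_le] at h1
  have h2 := key (β * (a (x * z) - η z)) (β * (a' (x * z) - η z)) (by linarith [h1.1])
  have h3 := key (-(β * (a (x * z) - η z))) (-(β * (a' (x * z) - η z))) (by linarith [h1.2])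
  linarith

theorem le_uu {β τ : ℝ} (hβ : 0 < β) {x : G} {η : G → ℝ} {a : G →ᵇ ℝ}
    (h : ∀ z ∈ ℓ.ball (2 * R), |a (x * z) - η z| ≤ τ) :
    (2 * (ℓ.ball (2 * R)).card * Real.exp (β * τ))⁻¹ ≤ uu ℓ R β x η a := by
  refine inv_anti₀ (inv_pos.1 (uu_pos (ℓ := ℓ) (R := R) β x η a)) ?_
  refine (Finset.sum_le_card_nsmul _ _ (2 * Real.exp (β * τ)) fun z hz => ?_).trans (le_of_eq ?_)
  · have h1 := abs_le.1 (h z hz)
    have h2 : Real.exp (β * (a (x * z) - η z)) ≤ Real.exp (β * τ) :=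
      Real.exp_le_exp.2 (mul_le_mul_of_nonneg_left h1.2 hβ.le)
    have h3 : Real.exp (-(β * (a (x * z) - η z))) ≤ Real.exp (β * τ) :=
      Real.exp_le_exp.2 (by nlinarith [h1.1])
    linarith
  · rw [nsmul_eq_mul]
    ring

theorem base_mem {T : Type} (i : OT G T) : i.base ∈ i.s := by
  rw [i.s_eq]
  exact ⟨0, by simp⟩

/-- it is enough to test the event at the base point -/
theorem goodEv_of_base (Sh' : Finset (G → ℝ)) (w' : ℝ) (i : OT G Sh') (v : Lab p → Fin p.Q)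
    (hb : ∀ μ : G →₀ ℝ, IsProb μ → 9 / 10 ≤ feat ℓ R μ i.base →
      (∀ z ∈ ℓ.ball (4 * R), |feat ℓ R μ (i.base * z) - (i.tag : G → ℝ) z| ≤ w') →
      ∃ l : Lab p, l.c = i.c ∧ 7 / 10 ≤ share ℓ R p v l (feat ℓ R μ)) :
    GoodEv ℓ R p Sh' w' i v := by
  intro x hx μ hμ h9 hz
  rw [i.s_eq] at hx
  obtain ⟨m, rfl⟩ := hx
  have e : ∀ z, feat ℓ R (tr (i.c ^ (-m)) μ) (i.base * z) = feat ℓ R μ (i.c ^ m * i.base * z) := by
    intro z
    rw [← feat_tr ℓ R μ (i.c ^ (-m))]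
    congr 1
    group
  obtain ⟨l, hl, hs⟩ := hb (tr (i.c ^ (-m)) μ) (NetAux.isProb_tr hμ _)
    (by have := e 1; rw [mul_one, mul_one] at this; rw [this]; exact h9)
    (fun z hz' => by rw [e]; exact hz z hz')
  refine ⟨l, hl, ?_⟩
  rwa [← hl, share_quasi] at hs

open Classical in
/-- the points near the base point -/
noncomputable def nb (ℓ : Len G) (R : ℕ) (b : G) : Finset G := (ℓ.ball (2 * R)).image (b * ·)

theorem mem_nb {b y : G} : y ∈ nb ℓ R b ↔ ∃ z ∈ ℓ.ball (2 * R), b * z = y := by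
  simp only [nb, Finset.mem_image]

theorem card_nb (b : G) : (nb ℓ R b).card ≤ (ℓ.ball (2 * R)).card := by
  classical
  unfold nb
  convert Finset.card_image_le

theorem nb_major (hR : 0 < R) {μ : G →₀ ℝ} (hμ : IsProb μ) {b : G} (hb : 9 / 10 ≤ feat ℓ R μ b)
    (x : G) (hx : x ∉ nb ℓ R b) : feat ℓ R μ x ≤ 1 / 2 := by
  by_contra hc
  have := majority ℓ R hR μ hμ b x (by linarith) (not_le.1 hc)
  exact hx (mem_nb.2 ⟨_, (ℓ.mem_ball _ _).2 this, mul_inv_cancel_left _ _⟩)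

theorem mk'_mem {T : Type} (i : OT G T) {y : G} (hy : y ∈ nb ℓ R i.base) (η : p.Sh) :
    OT.mk' i.c y η ∈ esupp ℓ R p i := by
  obtain ⟨z, hz, rfl⟩ := mem_nb.1 hy
  exact (mem_esupp i _).2 ⟨rfl, _, base_mem i, z, hz, 0, by simp⟩

theorem Xi_eq_sum (h : p.Ok ℓ R) {T : Type} (i : OT G T) (v : Lab p → Fin p.Q) {a : G →ᵇ ℝ}
    (ha : ∀ x, x ∉ nb ℓ R i.base → a x ≤ 1 / 2) :
    Xi ℓ R p v i.c a = p.T0 + ∑ l ∈ esupp ℓ R p i, pw p.Q p.P (v l) * Sl ℓ R p l a := by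
  classical
  rw [Xi_eq h v i.c _ ha]
  congr 1
  simp only [Sl_eq h _ _ ha, Finset.sum_filter, Finset.mul_sum]
  rw [Finset.sum_comm (s := esupp ℓ R p i)]
  refine Finset.sum_congr rfl fun y hy => ?_
  simp only [mul_ite, mul_zero]
  rw [← Finset.sum_filter]
  have e : (esupp ℓ R p i).filter (fun l => y ∈ l.s)
      = Finset.univ.image fun η : p.Sh => OT.mk' i.c y η := by
    ext l
    simp only [Finset.mem_filter, Finset.mem_image, Finset.mem_univ, true_and]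
    constructor
    · rintro ⟨h1, h2⟩
      refine ⟨l.tag, ?_⟩
      rw [← ((mem_esupp i l).1 h1).1]
      exact (mk'_eq_iff_mem l y).2 h2
    · rintro ⟨η, rfl⟩
      exact ⟨mk'_mem i hy η, 0, by simp⟩
  rw [e, Finset.sum_image fun η _ η' _ hη => congrArg OT.tag hη]
  exact Finset.sum_congr rfl fun η _ => mul_comm _ _

end Lab4

open Lab4

/-- a dominant label has a large amplitude if the character is close to `1` on ties -/
theorem Y1_lower (h : p.Ok ℓ R) (v : Lab p → Fin p.Q) (l : Lab p)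
    (hϑ : ∀ m : ℤ, (∀ z, |fη ℓ R l.tag z -
        fη ℓ R l.tag (((l.base⁻¹ * l.c * l.base) ^ m)⁻¹ * z)| ≤ 2 * p.t) →
      ‖ee (ang p l * m) - 1‖ ≤ 1 / 2)
    {μ : G →₀ ℝ} (hμ : IsProb μ) (hs : 7 / 10 ≤ share ℓ R p v l (feat ℓ R μ)) :
    1 / 3 ≤ ‖Y1 ℓ R p v l (feat ℓ R μ)‖ := by
  classical
  obtain ⟨X, hX⟩ := exists_finset_nhds (ℓ := ℓ) h.R_pos μ
  have hX := hX.self_of_nhds
  have hZ : Sl ℓ R p l (feat ℓ R μ) / 2 ≤ ‖Zl ℓ R p l (feat ℓ R μ)‖ := by
    rw [Sl_eq h l X hX, Zl_eq h l X hX]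
    by_cases hex : ∃ x0 ∈ l.s, rr ℓ R p x0 l.tag (feat ℓ R μ) ≠ 0
    · obtain ⟨x0, hx0, hr0⟩ := hex
      have hph : ∀ x ∈ l.s, rr ℓ R p x l.tag (feat ℓ R μ) ≠ 0 →
          ‖ee (ang p l * l.idx x0) - ee (ang p l * l.idx x)‖ ≤ 1 / 2 := by
        intro x hx hr
        have hm : x = l.c ^ (l.idx x - l.idx x0) * x0 := by
          conv_rhs => rw [← l.idx_spec hx0]
          conv_lhs => rw [← l.idx_spec hx]
          rw [l.idx_spec hx0, ← l.idx_spec hx0, l.idx_spec hx0]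
          conv_rhs => enter [2]; rw [← l.idx_spec hx0]
          group
        generalize l.idx x - l.idx x0 = m at hm
        subst hm
        rw [ee_idx h l hx0, norm_sub_rev, ← sub_one_mul, norm_mul, norm_ee, mul_one]
        refine hϑ m fun z => ?_
        have h1 := abs_le.1 (fη_close h l.tag hμ hr0 z)
        have h2 := abs_le.1 (fη_close h l.tag hμ hr (((l.base⁻¹ * l.c * l.base) ^ m)⁻¹ * z))
        have e : l.c ^ m * x0 * (((l.base⁻¹ * l.c * l.base) ^ m)⁻¹ * z) = x0 * z := by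
          rw [← l.conj_eq hx0]
          have := conj_zpow (a := x0⁻¹) (b := l.c) (i := m)
          rw [inv_inv] at this
          rw [this]
          group
        rw [e] at h2
        rw [abs_le]
        constructor <;> linarith [h1.1, h1.2, h2.1, h2.2]
      set S := ∑ x ∈ X.filter (· ∈ l.s), rr ℓ R p x l.tag (feat ℓ R μ) with hS
      have hS0 : 0 ≤ S := Finset.sum_nonneg fun _ _ => rr_nonneg _ _ _
      have h1 : ‖(S : ℂ) * ee (ang p l * l.idx x0) - ∑ x ∈ X.filter (· ∈ l.s),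
          (rr ℓ R p x l.tag (feat ℓ R μ) : ℂ) * ee (ang p l * l.idx x)‖ ≤ S / 2 := by
        rw [hS, Complex.ofReal_sum, Finset.sum_mul, ← Finset.sum_sub_distrib, Finset.sum_div]
        refine (norm_sum_le _ _).trans (Finset.sum_le_sum fun x hx => ?_)
        rw [← mul_sub, norm_mul, Complex.norm_real, Real.norm_of_nonneg (rr_nonneg _ _ _)]
        by_cases hr : rr ℓ R p x l.tag (feat ℓ R μ) = 0
        · simp [hr]
        · rw [div_eq_mul_one_div]
          exact mul_le_mul_of_nonneg_left (hph x (Finset.mem_filter.1 hx).2 hr) (rr_nonneg _ _ _)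
      have h2 := (norm_sub_norm_le _ _).trans h1
      rw [norm_mul, norm_ee, mul_one, Complex.norm_real, Real.norm_of_nonneg hS0] at h2
      linarith
    · push Not at hex
      rw [Finset.sum_eq_zero fun x hx => hex x (Finset.mem_filter.1 hx).2, zero_div]
      exact norm_nonneg _
  have hXi : 0 < Xi ℓ R p v l.c (feat ℓ R μ) := (T0_pos h).trans_le (T0_le_Xi _ _ _)
  have hW : 0 ≤ pw p.Q p.P (v l) / Xi ℓ R p v l.c (feat ℓ R μ) :=
    div_nonneg (zero_le_one.trans (one_le_pw _ _ _)) hXi.le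
  rw [Y1, Real.smoothTransition.one_of_one_le (by linarith), one_mul, norm_mul, Complex.norm_real,
    Real.norm_of_nonneg hW]
  have h3 := mul_le_mul_of_nonneg_left hZ hW
  have e : pw p.Q p.P (v l) / Xi ℓ R p v l.c (feat ℓ R μ) * (Sl ℓ R p l (feat ℓ R μ) / 2)
      = share ℓ R p v l (feat ℓ R μ) / 2 := by
    unfold share
    ring
  linarith

open Classical in
/-- each event has probability at least `1/32` -/
theorem goodEv_prob (h : p.Ok ℓ R) (Sh' : Finset (G → ℝ)) (w' : ℝ)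
    (hnet : ∀ μ : G →₀ ℝ, IsProb μ → ∀ x, 9 / 10 ≤ feat ℓ R μ x →
      ∃ η ∈ p.Sh, ∀ z ∈ ℓ.ball (2 * R), |feat ℓ R μ (x * z) - η z| ≤ p.t / 2)
    (hw' : 4 * p.β * w' ≤ 1) (hQ : 32 * p.N1 ≤ p.Q) (hP : 22 * p.N1 ≤ 2 ^ p.P)
    (hβ : 2 * (ℓ.ball (2 * R)).card * p.N1 * (p.Q : ℝ) ^ p.P ≤ Real.exp (p.β * p.t / 2))
    (i : OT G Sh') (w0 : Lab p → Fin p.Q) :
    Fintype.card (Fin p.Q) ^ (esupp ℓ R p i).card ≤ 32 *
      (Finset.univ.filter fun f : esupp ℓ R p i → Fin p.Q => GoodEv ℓ R p Sh' w' i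
        fun a => if ha : a ∈ esupp ℓ R p i then f ⟨a, ha⟩ else w0 a).card := by
  by_cases hex : ∃ μ0 : G →₀ ℝ, IsProb μ0 ∧ 9 / 10 ≤ feat ℓ R μ0 i.base ∧
      ∀ z ∈ ℓ.ball (4 * R), |feat ℓ R μ0 (i.base * z) - (i.tag : G → ℝ) z| ≤ w'
  swap
  · rw [Finset.filter_true_of_mem fun f _ => goodEv_of_base Sh' w' i _
      fun μ h1 h2 h3 => absurd ⟨μ, h1, h2, h3⟩ hex, Finset.card_univ, Fintype.card_fun,
      Fintype.card_coe]
    exact Nat.le_mul_of_pos_left _ (by norm_num)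
  obtain ⟨μ0, hμ0, h90, hz0⟩ := hex
  obtain ⟨η0, hη0, hn0⟩ := hnet μ0 hμ0 i.base h90
  have hN1 := h.N1_pos
  have hN1' : (1 : ℝ) ≤ p.N1 := by exact_mod_cast hN1
  have hE := card_esupp h i
  have hP0 : 0 < p.P := by
    by_contra hc
    have : p.P = 0 := by omega
    rw [this] at hP
    omega
  have hbX : i.base ∈ nb ℓ R i.base := mem_nb.2 ⟨1, one_mem_ball _, mul_one _⟩
  have hXc : ((nb ℓ R i.base).card : ℝ) ≤ p.N1 := by
    have h1 := card_nb (ℓ := ℓ) (R := R) i.base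
    have h2 : 1 ≤ p.Sh.card := Finset.card_pos.2 ⟨η0, hη0⟩
    have h3 := h.N1_ge
    have h4 := Nat.mul_le_mul_left (ℓ.ball (2 * R)).card h2
    exact_mod_cast (by omega : (nb ℓ R i.base).card ≤ p.N1)
  let s : esupp ℓ R p i → ℝ := fun l =>
    ∑ y ∈ (nb ℓ R i.base).filter (· ∈ l.1.s), uu ℓ R p.β y l.1.tag (feat ℓ R μ0)
  have hs : ∀ l, 0 ≤ s l := fun l => Finset.sum_nonneg fun _ _ => (uu_pos _ _ _ _).le
  let l0 : esupp ℓ R p i := ⟨OT.mk' i.c i.base ⟨η0, hη0⟩, mk'_mem i hbX _⟩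
  have hT0 := T0_pos h
  have hl0 : p.T0 ≤ s l0 := by
    have h1 : uu ℓ R p.β i.base η0 (feat ℓ R μ0) ≤ s l0 :=
      Finset.single_le_sum (f := fun y => uu ℓ R p.β y η0 (feat ℓ R μ0))
        (fun _ _ => (uu_pos _ _ _ _).le) (Finset.mem_filter.2 ⟨hbX, 0, by simp⟩)
    refine le_trans ?_ ((le_uu h.β_pos hn0).trans h1)
    have hc : (0 : ℝ) < (ℓ.ball (2 * R)).card := by
      exact_mod_cast Finset.card_pos.2 ⟨1, one_mem_ball _⟩
    rw [inv_eq_one_div, le_div_iff₀ (by positivity), LP.T0, LP.u0]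
    have e : Real.exp (-(p.β * p.t)) * Real.exp (p.β * (p.t / 2)) * Real.exp (p.β * p.t / 2)
        = 1 := by
      rw [← Real.exp_add, ← Real.exp_add, ← Real.exp_zero]
      congr 1
      ring
    have h2 := mul_le_mul_of_nonneg_left hβ
      (mul_pos (Real.exp_pos (-(p.β * p.t))) (Real.exp_pos (p.β * (p.t / 2)))).le
    rw [e] at h2
    linarith
  have H := pareto p.Q p.P (L := esupp ℓ R p i) (by rw [Fintype.card_coe]; omega) hP0 s hs l0
    (hT0.trans_le hl0)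
  rw [Fintype.card_coe] at H
  rw [Fintype.card_fin]
  refine H.trans (Nat.mul_le_mul_left _ (Finset.card_le_card fun f hf => ?_))
  simp only [Finset.mem_filter, Finset.mem_univ, true_and] at hf ⊢
  obtain ⟨l, x, hx, hwin, hrest⟩ := hf
  refine goodEv_of_base Sh' w' i _ fun μ hμ h9 hz => ?_
  set v : Lab p → Fin p.Q := fun a => if ha : a ∈ esupp ℓ R p i then f ⟨a, ha⟩ else w0 a with hv
  have hvf : ∀ l' : esupp ℓ R p i, v l' = f l' := fun l' => by simp only [hv, dif_pos l'.2]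
  have hlc : l.1.c = i.c := ((mem_esupp i l.1).1 l.2).1
  refine ⟨l, hlc, ?_⟩
  have hmaj := nb_major h.R_pos hμ h9
  have hclose : ∀ y ∈ nb ℓ R i.base, ∀ z ∈ ℓ.ball (2 * R),
      p.β * |feat ℓ R μ (y * z) - feat ℓ R μ0 (y * z)| ≤ 1 / 2 := by
    intro y hy z hz'
    obtain ⟨z', hz'', rfl⟩ := mem_nb.1 hy
    have h1 : z' * z ∈ ℓ.ball (4 * R) := by
      rw [ℓ.mem_ball] at hz' hz'' ⊢
      have := ℓ.len_mul z' z
      omega
    have h2 := abs_le.1 (hz _ h1)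
    have h3 := abs_le.1 (hz0 _ h1)
    have h4 : |feat ℓ R μ (i.base * z' * z) - feat ℓ R μ0 (i.base * z' * z)| ≤ 2 * w' := by
      rw [mul_assoc, abs_le]
      constructor <;> linarith [h2.1, h2.2, h3.1, h3.2]
    have := mul_le_mul_of_nonneg_left h4 h.β_pos.le
    linarith
  have hup : ∀ l' : esupp ℓ R p i, Sl ℓ R p l' (feat ℓ R μ) ≤ 2 * s l' := by
    intro l'
    rw [Sl_eq h _ _ hmaj, Finset.mul_sum]
    exact Finset.sum_le_sum fun y hy => (rr_le_uu _ _ _).trans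
      (uu_le_two_mul h.β_pos _ (hclose y (Finset.mem_filter.1 hy).1))
  have hlow : s l / 2 - 2 * p.u0 * p.N1 ≤ Sl ℓ R p l (feat ℓ R μ) := by
    rw [Sl_eq h _ _ hmaj]
    have h1 : s l / 2 ≤ ∑ y ∈ (nb ℓ R i.base).filter (· ∈ l.1.s),
        (rr ℓ R p y l.1.tag (feat ℓ R μ) + 2 * p.u0) := by
      rw [Finset.sum_div]
      refine Finset.sum_le_sum fun y hy => ?_
      have h2 := uu_le_two_mul (a := feat ℓ R μ0) (a' := feat ℓ R μ) h.β_pos l.1.tag
        fun z hz' => by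
          rw [abs_sub_comm]
          exact hclose y (Finset.mem_filter.1 hy).1 z hz'
      have h3 := uu_sub_le_rr (ℓ := ℓ) (R := R) (p := p) y l.1.tag (feat ℓ R μ)
      linarith
    rw [Finset.sum_add_distrib, Finset.sum_const, nsmul_eq_mul] at h1
    have h2 : (((nb ℓ R i.base).filter (· ∈ l.1.s)).card : ℝ) ≤ p.N1 :=
      le_trans (by exact_mod_cast Finset.card_filter_le _ _) hXc
    have h3 := mul_le_mul_of_nonneg_right h2 (by linarith [u0_pos (p := p)] : 0 ≤ 2 * p.u0)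
    linarith
  have hxT : p.T0 ≤ x := hl0.trans hx
  have hx0 : 0 < x := hT0.trans_le hxT
  have hW1 := one_le_pw p.Q p.P (f l)
  have hW2 := pw_le p.Q p.P (f l)
  have hA : 9 * (p.N1 * x) ≤ pw p.Q p.P (f l) * Sl ℓ R p l (feat ℓ R μ) := by
    have h1 := mul_le_mul_of_nonneg_left hlow (zero_le_one.trans hW1)
    have h2 : (22 * p.N1 : ℝ) ≤ 2 ^ p.P := by exact_mod_cast hP
    have h3 := mul_le_mul_of_nonneg_right h2 hx0.le
    have h4 : pw p.Q p.P (f l) * (p.u0 * p.N1) ≤ p.T0 := by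
      have := mul_le_mul_of_nonneg_right hW2
        (mul_pos (u0_pos (p := p)) (by linarith : (0 : ℝ) < p.N1)).le
      unfold LP.T0
      linarith
    have h5 : x ≤ p.N1 * x := le_mul_of_one_le_left hx0.le hN1'
    linarith
  have hXi : Xi ℓ R p v i.c (feat ℓ R μ) ≤
      pw p.Q p.P (f l) * Sl ℓ R p l (feat ℓ R μ) + 3 * (p.N1 * x) := by
    rw [Xi_eq_sum h i v hmaj, ← Finset.sum_coe_sort, ← Finset.add_sum_erase _ _ (Finset.mem_univ l),
      hvf]
    have h1 : ∑ l' ∈ Finset.univ.erase l, pw p.Q p.P (v l') * Sl ℓ R p l' (feat ℓ R μ)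
        ≤ (Finset.univ.erase l).card • (2 * x) := by
      refine Finset.sum_le_card_nsmul _ _ _ fun l' hl' => ?_
      have h2 := hrest l' (Finset.ne_of_mem_erase hl')
      have h3 := mul_le_mul_of_nonneg_left (hup l') (zero_le_one.trans (one_le_pw p.Q p.P (f l')))
      rw [hvf]
      linarith
    have h2 : ((Finset.univ.erase l).card : ℝ) ≤ p.N1 := by
      have h3 : (Finset.univ.erase l).card ≤ p.N1 := by
        refine (Finset.card_erase_le.trans (le_of_eq ?_)).trans hE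
        rw [Finset.card_univ, Fintype.card_coe]
      exact_mod_cast h3
    rw [nsmul_eq_mul] at h1
    have h3 := mul_le_mul_of_nonneg_right h2 (by linarith : 0 ≤ 2 * x)
    have h5 : x ≤ p.N1 * x := le_mul_of_one_le_left hx0.le hN1'
    linarith
  have hXi0 : 0 < Xi ℓ R p v i.c (feat ℓ R μ) := hT0.trans_le (T0_le_Xi _ _ _)
  rw [share, hlc, hvf, le_div_iff₀ hXi0]
  have : 0 < p.N1 * x := by positivity
  linarith

end Crest.Agent.R192
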