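import Crest.Agent.R192.Lab4
import Crest.Agent.R192.LLL

/-! Row 192: existence of labels with polynomial constants. -/

set_option autoImplicit false

namespace Crest.Agent.R192

open Crest.AlgebraR.L1 MeasureTheory Matrix
open scoped ContDiff BoundedContinuousFunction

variable {G : Type} [Group G] [TopologicalSpace G] [DiscreteTopology G]

namespace Lab5

omit [TopologicalSpace G] [DiscreteTopology G] in
theorem exists_rho (f : G → ℝ) (C : ℝ) (hf : ∀ z, |f z| ≤ C) :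
    ∃ ϱ : G → ℝ, (∀ g, 0 ≤ ϱ g) ∧ ϱ 1 = 0 ∧ (∀ g, ϱ g⁻¹ = ϱ g) ∧
      (∀ g g', ϱ (g * g') ≤ ϱ g + ϱ g') ∧ (∀ g z, |f z - f (g⁻¹ * z)| ≤ ϱ g) ∧
      ∀ g a, (∀ z, |f z - f (g⁻¹ * z)| ≤ a) → ϱ g ≤ a := by
  have h1 : ∀ g z : G, |f z - f (g⁻¹ * z)| ≤ ⨆ z, |f z - f (g⁻¹ * z)| := fun g z =>
    le_ciSup (f := fun z => |f z - f (g⁻¹ * z)|) ⟨C + C, by
      rintro _ ⟨y, rfl⟩
      exact (abs_sub _ _).trans (add_le_add (hf _) (hf _))⟩ z
  have h2 : ∀ g : G, ⨆ z, |f z - f (g⁻¹⁻¹ * z)| ≤ ⨆ z, |f z - f (g⁻¹ * z)| := fun g =>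
    ciSup_le fun z => by
      have := h1 g (g * z)
      rwa [inv_mul_cancel_left, abs_sub_comm, ← inv_inv g, inv_inv g⁻¹] at this
  refine ⟨fun g => ⨆ z, |f z - f (g⁻¹ * z)|, fun g => (abs_nonneg _).trans (h1 g 1), ?_,
    fun g => le_antisymm (h2 g) ?_, fun g g' => ciSup_le fun z => ?_, h1,
    fun g a ha => ciSup_le ha⟩
  · simp
  · simpa only [inv_inv] using h2 g⁻¹
  · have a1 := h1 g z
    have a2 := h1 g' (g⁻¹ * z)
    have a3 := abs_sub_le (f z) (f (g⁻¹ * z)) (f (g'⁻¹ * (g⁻¹ * z)))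
    rw [_root_.mul_inv_rev, mul_assoc]
    linarith

/-- labels with the number of the system -/
def PL (Λ T : Type) : Type := Λ × T

instance {Λ T : Type} [MulAction G Λ] : MulAction G (PL Λ T) where
  smul h l := (h • l.1, l.2)
  one_smul l := Prod.ext (one_smul G l.1) rfl
  mul_smul a b l := Prod.ext (mul_smul a b l.1) rfl

/-- polynomially bounded -/
def PB (f : ℕ → ℕ) : Prop := ∃ C k : ℕ, ∀ R, 0 < R → f R ≤ C * R ^ k

theorem PB.const (a : ℕ) : PB fun _ => a := ⟨a, 0, fun _ _ => by simp⟩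

theorem PB.id : PB fun R => R := ⟨1, 1, fun _ _ => by simp⟩

theorem PB.add {f g : ℕ → ℕ} (hf : PB f) (hg : PB g) : PB fun R => f R + g R := by
  obtain ⟨C, k, h⟩ := hf
  obtain ⟨C', k', h'⟩ := hg
  refine ⟨C + C', k + k', fun R hR => ?_⟩
  rw [add_mul]
  exact add_le_add ((h R hR).trans (Nat.mul_le_mul_left _ (Nat.pow_le_pow_right hR (by omega))))
    ((h' R hR).trans (Nat.mul_le_mul_left _ (Nat.pow_le_pow_right hR (by omega))))

theorem PB.mul {f g : ℕ → ℕ} (hf : PB f) (hg : PB g) : PB fun R => f R * g R := by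
  obtain ⟨C, k, h⟩ := hf
  obtain ⟨C', k', h'⟩ := hg
  refine ⟨C * C', k + k', fun R hR => (Nat.mul_le_mul (h R hR) (h' R hR)).trans (le_of_eq ?_)⟩
  ring

theorem PB.pow {f : ℕ → ℕ} (hf : PB f) (n : ℕ) : PB fun R => f R ^ n := by
  obtain ⟨C, k, h⟩ := hf
  refine ⟨C ^ n, k * n, fun R hR => (Nat.pow_le_pow_left (h R hR) n).trans (le_of_eq ?_)⟩
  rw [mul_pow, pow_mul]

def pM (z : ℕ) : ℕ := 512 * z ^ 3
def pz1 (z : ℕ) : ℕ := z * (pM z + 1)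
def pE (z : ℕ) : ℕ := 1 + z + pz1 z + (pz1 z + 5) ^ 2
def pB (z : ℕ) : ℕ := 16 * z * pE z
def pM' (z : ℕ) : ℕ := 32 * pB z ^ 2 * z
def pz2 (z : ℕ) : ℕ := z * (pM' z + 1)
def pJ (z : ℕ) : ℕ := 32 * (6 + 2 * pz2 z + pz1 z)
def pZ (K z : ℕ) : ℕ := K * pB z + 2 * pJ z + (13 * z ^ 2 + 1)

theorem PB_pZ (K : ℕ) {f : ℕ → ℕ} (hf : PB f) : PB fun R => pZ K (f R) := by
  have hM : PB fun R => pM (f R) := (PB.const _).mul (hf.pow _)
  have h1 : PB fun R => pz1 (f R) := hf.mul (hM.add (PB.const _))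
  have hE : PB fun R => pE (f R) :=
    (((PB.const _).add hf).add h1).add ((h1.add (PB.const _)).pow _)
  have hB : PB fun R => pB (f R) := ((PB.const _).mul hf).mul hE
  have hM' : PB fun R => pM' (f R) := ((PB.const _).mul (hB.pow _)).mul hf
  have h2 : PB fun R => pz2 (f R) := hf.mul (hM'.add (PB.const _))
  have hJ : PB fun R => pJ (f R) :=
    (PB.const _).mul (((PB.const _).add ((PB.const _).mul h2)).add h1)
  exact (((PB.const _).mul hB).add ((PB.const _).mul hJ)).add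
    (((PB.const _).mul (hf.pow _)).add (PB.const _))

theorem two_pow_lt_exp {n : ℕ} (hn : 0 < n) : (2 : ℝ) ^ n < Real.exp n := by
  rw [← mul_one (n : ℝ), Real.exp_nat_mul]
  exact pow_lt_pow_left₀ (by linarith [Real.exp_one_gt_d9]) (by norm_num) hn.ne'

theorem net_cond {a z : ℕ} (h : a < z) : 2 * (2 : ℝ) ^ a < Real.exp z := by
  refine lt_of_le_of_lt ?_ (two_pow_lt_exp (by omega))
  rw [← pow_succ']
  exact pow_le_pow_right₀ (by norm_num) h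

omit [TopologicalSpace G] [DiscreteTopology G] in
theorem card_le (ℓ : Len G) {r r' n n' M z : ℕ} (h1 : ℓ.D * r ≤ z) (h2 : ℓ.D * r' + 1 ≤ z)
    (h3 : n ≤ 2 ^ ((ℓ.D * r' + 1) * M)) (h4 : n' ≤ n) :
    (ℓ.ball r).card * n' ≤ 2 ^ (z * (M + 1)) := by
  rw [mul_add, mul_one, pow_add, mul_comm (2 ^ (z * M))]
  exact Nat.mul_le_mul ((ℓ.card_ball r).trans (Nat.pow_le_pow_right two_pos h1))
    (h4.trans (h3.trans (Nat.pow_le_pow_right two_pos (Nat.mul_le_mul_right _ h2))))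

theorem J_cond {d z1 z2 : ℕ} (hd : d ≤ 2 ^ z2) :
    (31 / 32 : ℝ) ^ (32 * (6 + 2 * z2 + z1)) *
      (8 * ((d : ℝ) + 1) ^ 2 * (((2 ^ z1 : ℕ) : ℝ) + 1)) ≤ 1 := by
  have h1 : (d : ℝ) + 1 ≤ 2 * 2 ^ z2 := by
    have a1 : (d : ℝ) ≤ 2 ^ z2 := by exact_mod_cast hd
    have a2 : (1 : ℝ) ≤ 2 ^ z2 := one_le_pow₀ one_le_two
    linarith
  have h2 : ((2 ^ z1 : ℕ) : ℝ) + 1 ≤ 2 * 2 ^ z1 := by
    have a2 : (1 : ℝ) ≤ 2 ^ z1 := one_le_pow₀ one_le_two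
    push_cast
    linarith
  have h3 : (31 / 32 : ℝ) ^ (32 * (6 + 2 * z2 + z1)) ≤ (1 / 2) ^ (6 + 2 * z2 + z1) := by
    rw [pow_mul]
    exact pow_le_pow_left₀ (by positivity) (by norm_num) _
  calc _ ≤ (1 / 2 : ℝ) ^ (6 + 2 * z2 + z1) * (8 * (2 * 2 ^ z2) ^ 2 * (2 * 2 ^ z1)) := by gcongr
    _ = (1 / 2 : ℝ) ^ (6 + 2 * z2 + z1) * 2 ^ (6 + 2 * z2 + z1) := by ring
    _ = 1 := by rw [← mul_pow]; norm_num

theorem far_cond {b : ℕ} {Z : ℝ} (hZ : 13 * (b : ℝ) ^ 2 + 1 ≤ Z) :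
    Real.exp (-Z) ≤ 1 / ((13 * (b : ℝ)) ^ b + 1) := by
  rw [Real.exp_neg, ← one_div]
  refine one_div_le_one_div_of_le (by positivity) (le_trans ?_ (Real.exp_le_exp.2 hZ))
  have h1 : (13 * (b : ℝ)) ^ b ≤ Real.exp (13 * (b : ℝ) ^ 2) := by
    rw [show 13 * (b : ℝ) ^ 2 = b * (13 * b) by ring, Real.exp_nat_mul]
    exact pow_le_pow_left₀ (by positivity) (by linarith [Real.add_one_le_exp (13 * (b : ℝ))]) _
  have h2 : 1 ≤ Real.exp (13 * (b : ℝ) ^ 2) := Real.one_le_exp (by positivity)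
  have h3 : 2 ≤ Real.exp 1 := by linarith [Real.add_one_le_exp 1]
  rw [Real.exp_add]
  nlinarith

end Lab5

open Lab5

/-- the angles -/
theorem exists_angle (ℓ : Len G) (R b : ℕ) (hR : 0 < R) (hb : ℓ.D * (2 * R) < b) :
    ∃ ϑ : G → (G → ℝ) → ℝ, (∀ c η (m : ℤ), c ^ m = 1 → ee (ϑ c η * m) = 1) ∧
      ∀ c η, 4 / 5 ≤ η 1 → (¬ IsOfFinOrder c ∨ 8 * R * ((13 * b) ^ b + 1) < ℓ.len c) →
        1 / ((13 * (b : ℝ)) ^ b + 1) ≤ ‖1 - ee (ϑ c η)‖ ∧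
        ∀ m : ℤ, (∀ z, |fη ℓ R η z - fη ℓ R η ((c ^ m)⁻¹ * z)| ≤ 2 * (1 / (8 * b))) →
          ‖ee (ϑ c η * m) - 1‖ ≤ 1 / 2 := by
  have hb0 : (0 : ℝ) < b := by exact_mod_cast (Nat.zero_le _).trans_lt hb
  have key : ∀ (c : G) (η : G → ℝ), ∃ ϑ : ℝ, (∀ m : ℤ, c ^ m = 1 → ee (ϑ * m) = 1) ∧
      (4 / 5 ≤ η 1 → (¬ IsOfFinOrder c ∨ 8 * R * ((13 * b) ^ b + 1) < ℓ.len c) →
        1 / ((13 * (b : ℝ)) ^ b + 1) ≤ ‖1 - ee ϑ‖ ∧
        ∀ m : ℤ, (∀ z, |fη ℓ R η z - fη ℓ R η ((c ^ m)⁻¹ * z)| ≤ 2 * (1 / (8 * b))) →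
          ‖ee (ϑ * m) - 1‖ ≤ 1 / 2) := by
    intro c η
    by_cases H : 4 / 5 ≤ η 1 ∧ (¬ IsOfFinOrder c ∨ 8 * R * ((13 * b) ^ b + 1) < ℓ.len c)
    · obtain ⟨ϱ, r0, r1, r2, r3, r4, r5⟩ := exists_rho (fη ℓ R η)
        (∑ z ∈ ℓ.ball (2 * R), |max 0 (η z - 1 / 2)|) fun z => by
          unfold fη
          split_ifs with hz
          · exact Finset.single_le_sum (f := fun z => |max 0 (η z - 1 / 2)|)
              (fun _ _ => abs_nonneg _) hz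
          · rw [abs_zero]
            exact Finset.sum_nonneg fun _ _ => abs_nonneg _
      obtain ⟨ϑ, h1, h2, h3⟩ := exists_char ℓ c ϱ (3 / 10) (by norm_num) (2 * R) b hb r0 r1 r2 r3
        (fun g hg => by
          by_contra hcon
          have a1 := r4 g 1
          have a2 : fη ℓ R η (g⁻¹ * 1) = 0 := by
            unfold fη
            rw [if_neg]
            rwa [mul_one, ℓ.mem_ball, ℓ.len_inv]
          have a3 : 3 / 10 ≤ fη ℓ R η 1 := by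
            unfold fη
            rw [if_pos (by rw [ℓ.mem_ball, ℓ.len_one]; exact Nat.zero_le _)]
            exact le_max_of_le_right (by linarith [H.1])
          rw [a2, sub_zero] at a1
          linarith [le_abs_self (fη ℓ R η 1)])
        (by rw [show 4 * (2 * R) = 8 * R by ring]; exact H.2)
      refine ⟨ϑ, h1, fun _ _ => ⟨h2, fun m hm => h3 m ?_⟩⟩
      have a1 := mul_le_mul_of_nonneg_left (r5 _ _ hm) hb0.le
      have a2 : (b : ℝ) * (2 * (1 / (8 * b))) = 1 / 4 := by field_simp; norm_num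
      linarith
    · refine ⟨0, fun m _ => ?_, fun h1 h2 => absurd ⟨h1, h2⟩ H⟩
      simpa using ee_int 0
  choose ϑ h1 h2 using key
  exact ⟨ϑ, h1, h2⟩

/-- assembling the labels from parameters -/
theorem labels_of_params (ℓ : Len G) (R L0 : ℕ) (p : LP G) (h : p.Ok ℓ R) (Sh' : Finset (G → ℝ))
    (w' Z : ℝ) (J : ℕ)
    (hnet : ∀ μ : G →₀ ℝ, IsProb μ → ∀ x, 9 / 10 ≤ feat ℓ R μ x →
      ∃ η ∈ p.Sh, ∀ z ∈ ℓ.ball (2 * R), |feat ℓ R μ (x * z) - η z| ≤ p.t / 2)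
    (hnet' : ∀ μ : G →₀ ℝ, IsProb μ → ∀ x,
      ∃ η ∈ Sh', ∀ z ∈ ℓ.ball (4 * R), |feat ℓ R μ (x * z) - η z| ≤ w')
    (hw' : 4 * p.β * w' ≤ 1) (hQ : 32 * p.N1 ≤ p.Q) (hP : 22 * p.N1 ≤ 2 ^ p.P)
    (hβ : 2 * (ℓ.ball (2 * R)).card * p.N1 * (p.Q : ℝ) ^ p.P ≤ Real.exp (p.β * p.t / 2))
    (hJ : (31 / 32 : ℝ) ^ J *
      (8 * (((ℓ.ball (4 * R)).card * Sh'.card : ℕ) + 1) ^ 2 * (p.N1 + 1)) ≤ 1)
    (hϑ : ∀ c, ∀ η ∈ p.Sh, (¬ IsOfFinOrder c ∨ L0 < ℓ.len c) →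
      Real.exp (-Z) ≤ ‖1 - ee (p.ϑ c η)‖ ∧
        ∀ m : ℤ, (∀ z, |fη ℓ R η z - fη ℓ R η ((c ^ m)⁻¹ * z)| ≤ 2 * p.t) →
          ‖ee (p.ϑ c η * m) - 1‖ ≤ 1 / 2)
    (hZ : 22 * Ksig * (1 + 4 * Ksig) * p.β ≤ Z) (hZ' : 2 * (J : ℝ) ≤ Z) :
    Nonempty (Labels ℓ R L0 Z) := by
  have : Countable G := ℓ.countable
  have : Countable (Lab p) := OT.countable
  have : Countable (OT G Sh') := OT.countable
  have : Nonempty (Fin p.Q) := ⟨⟨0, h.Q_pos⟩⟩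
  obtain ⟨P, hP1, hP2, hP3⟩ := invariant_lll (G := G) (S := Fin p.Q)
    (fun i : OT G Sh' => esupp ℓ R p i) (GoodEv ℓ R p Sh' w') (goodEv_dep h Sh' w')
    (fun g i a => esupp_smul g i a) (goodEv_smul Sh' w') ((ℓ.ball (4 * R)).card * Sh'.card) p.N1 J
    (card_esupp h) (fun i => by simpa only [Fintype.card_coe] using esupp_deg (p := p) i)
    (fun i w0 => by convert goodEv_prob h Sh' w' hnet hw' hQ hP hβ i w0) hJ
  have hadm : ∀ l : Lab p, Adm ℓ L0 l.c → ¬ IsOfFinOrder (l.base⁻¹ * l.c * l.base) ∨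
      L0 < ℓ.len (l.base⁻¹ * l.c * l.base) := fun l hl =>
    hl.imp (fun h1 h2 => h1 (IsConj.isOfFinOrder (isConj_iff.2 ⟨l.base, by group⟩) h2))
      fun h1 => h1 _
  have hK := one_le_Ksig
  have hβ0 := h.β_pos
  have hZ2 : 20 * (1 + 4 * Ksig) * p.β ≤ Z := by
    refine le_trans ?_ hZ
    gcongr
    linarith
  have hZ0 : 0 < Z := lt_of_lt_of_le (by positivity) hZ2
  refine ⟨{
    Λ := Lab p
    S := Fin (2 * J) → Fin p.Q
    L := PL (Lab p) (Fin (2 * J))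
    P := P
    prob := hP1
    inv := hP2
    cls := fun l => l.1.c
    chi := fun l => ee (ang p l.1)
    Y := fun w l => Y1 ℓ R p (fun a => w a l.2) l.1
    Act := fun w l μ => 6 / 10 < share ℓ R p (fun a => w a l.2) l.1 (feat ℓ R μ)
    cls_smul := fun _ _ => rfl
    chi_smul := fun g l => congrArg ee (ang_smul g l.1)
    norm_chi := fun _ => norm_ee _
    chi_far := fun l hl => (hϑ _ _ l.1.tag.2 (hadm l.1 hl)).1
    smooth := fun _ _ μ => Y1_smooth h _ _ μ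
    fin := fun c X => ?_
    quasi := fun _ _ μ => Y1_quasi h _ _ μ
    equiv := fun g l => ?_
    norm_le := fun _ _ μ _ => Y1_norm_le h _ _ μ
    fderiv_le := fun _ _ _ hμ => (Y1_fderiv_le h _ _ hμ).trans hZ
    inactive := fun _ _ μ _ hA => Y1_inactive h _ _ μ (not_lt.1 hA)
    mult := fun w c s μ h1 h2 => ?_
    lower := ?_ }⟩
  · obtain ⟨F, hF1, hF2⟩ := Y1_fin h c X
    refine ⟨(F ×ˢ (Finset.univ : Finset (Fin (2 * J))) : Finset (Lab p × Fin (2 * J))), F,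
      fun l hl => hF1 _ (Finset.mem_product.1 hl).1, fun μ hμ => ⟨fun w l hc hl => ?_,
        fun w w' hw l hl => ?_⟩⟩
    · exact (hF2 μ hμ).1 _ _ hc fun h3 => hl (Finset.mem_product.2 ⟨h3, Finset.mem_univ _⟩)
    · exact (hF2 μ hμ).2 _ _ (fun a ha => by rw [hw a ha]) _ (Finset.mem_product.1 hl).1
  · obtain ⟨u, hu, hu'⟩ := Y1_equiv h g l.1
    exact ⟨u, hu, fun w μ => hu' (fun a => w a l.2) μ⟩
  · have h3 : s.card ≤ (Finset.univ : Finset (Fin (2 * J))).card := by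
      refine Finset.card_le_card_of_injOn (fun l => l.2) (fun _ _ => Finset.mem_univ _) ?_
      intro l hl l' hl' he
      have he' : l.2 = l'.2 := he
      refine Prod.ext (active_unique h (fun a => w a l.2) ((h1 l hl).1.trans (h1 l' hl').1.symm)
        (h1 l hl).2.1 (h1 l' hl').2.1 ?_ (h1 l hl).2.2 ?_) he'
      · refine (mul_le_mul hZ2 (h2 l hl l' hl') (norm_nonneg _) hZ0.le).trans (le_of_eq ?_)
        field_simp
      · rw [he']
        exact (h1 l' hl').2.2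
    rw [Finset.card_univ, Fintype.card_fin] at h3
    refine le_trans ?_ hZ'
    exact_mod_cast h3
  · filter_upwards [hP3] with w hw c hc μ hμ x hx
    obtain ⟨η, hη, hη'⟩ := hnet' μ hμ x
    obtain ⟨j, hj⟩ := hw (OT.mk' c x ⟨η, hη⟩)
    obtain ⟨l, hl, hs⟩ := hj x ⟨0, by simp⟩ μ hμ hx hη'
    have hl' : l.c = c := hl
    exact ⟨(l, j), hl', Y1_lower h _ l (hϑ _ _ l.tag.2 (hadm l (hl' ▸ hc))).2 hμ hs⟩

theorem exists_labels (ℓ : Len G) : ∃ (C : ℝ) (k : ℕ), ∀ R : ℕ, 0 < R →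
    ∃ (L0 : ℕ) (Z : ℝ), 1 ≤ Z ∧ Z ≤ C * (R : ℝ) ^ k ∧ Nonempty (Labels ℓ R L0 Z) := by
  classical
  obtain ⟨K, hK⟩ := exists_nat_ge (22 * Ksig * (1 + 4 * Ksig))
  obtain ⟨C, k, hC⟩ := PB_pZ K (f := fun R => ℓ.D * (5 * R) + 1)
    (((PB.const _).mul ((PB.const _).mul PB.id)).add (PB.const _))
  refine ⟨C, k, fun R hR => ?_⟩
  replace hC := hC R hR
  simp only at hC
  obtain ⟨z, hz⟩ : ∃ z, z = ℓ.D * (5 * R) + 1 := ⟨_, rfl⟩
  rw [← hz] at hC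
  have hz' : ∀ a, a ≤ 5 → ℓ.D * (a * R) < z := fun a ha => by
    rw [hz]
    exact Nat.lt_succ_of_le (Nat.mul_le_mul_left _ (Nat.mul_le_mul_right _ ha))
  have hz0 : 0 < z := by omega
  have hz1 : (1 : ℝ) ≤ z := by exact_mod_cast hz0
  have hE0 : 0 < pE z := by unfold pE; omega
  have hB0 : 0 < pB z := by unfold pB; positivity
  have hB0' : (0 : ℝ) < pB z := by exact_mod_cast hB0
  obtain ⟨ϑ, hϑ1, hϑ2⟩ := exists_angle ℓ R z hR (hz' 2 (by norm_num))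
  obtain ⟨N, hN1, hN2⟩ := exists_net ℓ R (2 * R) hR (1 / (8 * z) / 2) (by positivity) (pM z)
    (by unfold pM; positivity) (by
      refine (net_cond (hz' 2 (by norm_num))).trans_le (le_of_eq (congrArg _ ?_))
      unfold pM
      push_cast
      field_simp
      norm_num)
  obtain ⟨N', hN1', hN2'⟩ := exists_net ℓ R (4 * R) hR (1 / (4 * pB z)) (by positivity) (pM' z)
    (by unfold pM'; positivity) (by
      refine (net_cond (hz' 4 (by norm_num))).trans_le (le_of_eq (congrArg _ ?_))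
      unfold pM'
      push_cast
      field_simp
      norm_num)
  have ht : 1 / (8 * (z : ℝ)) ≤ 1 / 8 := one_div_le_one_div_of_le (by norm_num) (by linarith)
  let p : LP G := ⟨N.filter fun η => 4 / 5 ≤ η 1, pB z, 1 / (8 * z), 2 ^ pz1 z, 2 ^ (pz1 z + 5),
    pz1 z + 5, ϑ⟩
  have hp : p.Ok ℓ R :=
    { R_pos := hR
      β_pos := hB0'
      t_pos := by change (0 : ℝ) < 1 / (8 * z); positivity
      t_le := ht
      valid := fun η hη => (Finset.mem_filter.1 hη).2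
      N1_pos := Nat.two_pow_pos _
      N1_ge := card_le ℓ (hz' 2 (by norm_num)).le
        (by rw [show 2 * R + R = 3 * R by ring]; exact hz' 3 (by norm_num)) hN1
        (Finset.card_filter_le _ _)
      Q_pos := Nat.two_pow_pos _
      ϑ_int := hϑ1 }
  have hZ : (pZ K z : ℝ) = K * pB z + 2 * pJ z + (13 * (z : ℝ) ^ 2 + 1) := by
    unfold pZ; push_cast; ring
  have a1 : (0 : ℝ) ≤ K * pB z := by positivity
  have a2 : (0 : ℝ) ≤ 2 * pJ z := by positivity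
  have a3 : (0 : ℝ) ≤ 13 * (z : ℝ) ^ 2 := by positivity
  refine ⟨8 * R * ((13 * z) ^ z + 1), pZ K z, by linarith, by exact_mod_cast hC,
    labels_of_params ℓ R _ p hp N' (1 / (4 * pB z)) _ (pJ z) (fun μ hμ x hx => ?_) hN2' ?_ ?_ ?_ ?_
      (J_cond (card_le ℓ (hz' 4 (by norm_num)).le
        (by rw [show 4 * R + R = 5 * R by ring]; exact hz' 5 le_rfl) hN1' le_rfl))
      (fun c η hη hc => ?_) ?_ (by linarith)⟩
  · obtain ⟨η, hη, hη'⟩ := hN2 μ hμ x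
    refine ⟨η, Finset.mem_filter.2 ⟨hη, ?_⟩, hη'⟩
    have := (abs_le.1 (hη' 1 (by rw [ℓ.mem_ball, ℓ.len_one]; exact Nat.zero_le _))).2
    rw [mul_one] at this
    linarith
  · change 4 * (pB z : ℝ) * (1 / (4 * pB z)) ≤ 1
    rw [mul_one_div_cancel (by positivity)]
  · change 32 * 2 ^ pz1 z ≤ 2 ^ (pz1 z + 5)
    rw [pow_add]; omega
  · change 22 * 2 ^ pz1 z ≤ 2 ^ (pz1 z + 5)
    rw [pow_add]; omega
  · change 2 * ((ℓ.ball (2 * R)).card : ℝ) * ((2 ^ pz1 z : ℕ) : ℝ) *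
      ((2 ^ (pz1 z + 5) : ℕ) : ℝ) ^ (pz1 z + 5) ≤ Real.exp (pB z * (1 / (8 * z)) / 2)
    have b1 : (pB z : ℝ) * (1 / (8 * z)) / 2 = pE z := by
      unfold pB
      push_cast
      field_simp
      norm_num
    have b2 : ((ℓ.ball (2 * R)).card : ℝ) ≤ 2 ^ z := by
      exact_mod_cast (ℓ.card_ball _).trans (Nat.pow_le_pow_right two_pos (hz' 2 (by norm_num)).le)
    rw [b1]
    refine le_trans ?_ (two_pow_lt_exp hE0).le
    push_cast
    calc _ ≤ 2 * (2 : ℝ) ^ z * 2 ^ pz1 z * (2 ^ (pz1 z + 5)) ^ (pz1 z + 5) := by gcongr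
      _ = _ := by rw [pE, ← pow_mul, ← sq, pow_add, pow_add, pow_add, pow_one]
  · have := hϑ2 c η (Finset.mem_filter.1 hη).2 hc
    exact ⟨(far_cond (by linarith)).trans this.1, this.2⟩
  · have := mul_le_mul_of_nonneg_right hK hB0'.le
    change _ * (pB z : ℝ) ≤ _
    linarith

end Crest.Agent.R192
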