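import Crest.Agent.R192.Defs

/-! Row 192: Pareto weights isolate a winner with constant probability. -/

set_option autoImplicit false

namespace Crest.Agent.R192

open Crest.AlgebraR.L1 MeasureTheory Matrix
open scoped ContDiff BoundedContinuousFunction

/-- Pareto weight -/
noncomputable def pw (Q P : ℕ) (r : Fin Q) : ℝ := ((Q : ℝ) / ((r : ℕ) + 1)) ^ P

theorem one_le_pw (Q P : ℕ) (r : Fin Q) : 1 ≤ pw Q P r := by
  refine one_le_pow₀ ?_
  rw [le_div_iff₀ (by positivity), one_mul]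
  exact_mod_cast r.2

theorem pw_le (Q P : ℕ) (r : Fin Q) : pw Q P r ≤ (Q : ℝ) ^ P := by
  refine pow_le_pow_left₀ (by positivity) ?_ P
  refine div_le_self (by positivity) ?_
  have : (0 : ℝ) ≤ (r : ℕ) := by positivity
  linarith

namespace ParetoAux

open Finset

open Classical in
/-- the values of `r` for which the weighted size reaches `x` -/
noncomputable def hi (Q P : ℕ) (a x : ℝ) : Finset (Fin Q) := univ.filter fun r => x ≤ a * pw Q P r

theorem mem_hi {Q P : ℕ} {a x : ℝ} {r : Fin Q} : r ∈ hi Q P a x ↔ x ≤ a * pw Q P r := by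
  simp [hi]

theorem card_hi_le (Q P : ℕ) {a : ℝ} (ha : 0 ≤ a) (x : ℝ) :
    (hi Q P a x).card ≤ 2 * (hi Q P a (2 ^ P * x)).card + 1 := by
  classical
  let f : Fin Q → Fin Q := fun r => ⟨((r : ℕ) - 1) / 2, by have := r.2; omega⟩
  have h1 : ((hi Q P a x).filter fun r : Fin Q => (r : ℕ) ≠ 0).card
      ≤ 2 * (hi Q P a (2 ^ P * x)).card := by
    refine card_le_mul_card_image_of_maps_to (f := f) (fun r hr => ?_) 2 (fun b _ => ?_)
    · rw [mem_filter, mem_hi] at hr
      rw [mem_hi]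
      have h2 : 2 ^ P * pw Q P r ≤ pw Q P (f r) := by
        unfold pw
        rw [← mul_pow]
        refine pow_le_pow_left₀ (by positivity) ?_ P
        rw [← mul_div_assoc, div_le_div_iff₀ (by positivity) (by positivity)]
        have h3 : 2 * (((f r : Fin Q) : ℕ) + 1) ≤ (r : ℕ) + 1 := by
          have := hr.2
          simp only [f]
          omega
        have h4 : (2 : ℝ) * ((((f r : Fin Q) : ℕ) : ℝ) + 1) ≤ ((r : ℕ) : ℝ) + 1 := by
          exact_mod_cast h3
        have h5 : (0 : ℝ) ≤ Q := by positivity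
        nlinarith
      calc 2 ^ P * x ≤ 2 ^ P * (a * pw Q P r) := by gcongr; exact hr.1
        _ = a * (2 ^ P * pw Q P r) := by ring
        _ ≤ a * pw Q P (f r) := by gcongr
    · have h2 : (((hi Q P a x).filter fun r : Fin Q => (r : ℕ) ≠ 0).filter fun r => f r = b).card
          ≤ ({2 * (b : ℕ) + 1, 2 * (b : ℕ) + 2} : Finset ℕ).card := by
        refine card_le_card_of_injOn (fun r : Fin Q => (r : ℕ)) (fun r hr => ?_)
          (fun r _ r' _ h => Fin.ext h)
        simp only [coe_filter, mem_filter, Set.mem_ofPred_eq] at hr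
        have h3 := congrArg Fin.val hr.2
        have h4 := hr.1.2
        simp only [f] at h3
        simp only [coe_insert, coe_singleton, Set.mem_insert_iff, Set.mem_singleton_iff]
        omega
      exact h2.trans card_le_two
  have h2 : ((hi Q P a x).filter fun r : Fin Q => ¬ (r : ℕ) ≠ 0).card ≤ 1 := by
    refine card_le_one.2 fun r hr r' hr' => ?_
    rw [mem_filter] at hr hr'
    exact Fin.ext (by omega)
  have h3 := card_filter_add_card_filter_not (s := hi Q P a x) fun r : Fin Q => (r : ℕ) ≠ 0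
  omega

theorem one_sub_sum_le_prod {ι : Type*} (t : Finset ι) (a : ι → ℝ) (h0 : ∀ i, 0 ≤ a i)
    (h1 : ∀ i, a i ≤ 1) : 1 - ∑ i ∈ t, a i ≤ ∏ i ∈ t, (1 - a i) := by
  classical
  induction t using Finset.induction_on with
  | empty => simp
  | insert i t hi ih =>
    rw [sum_insert hi, prod_insert hi]
    have h2 : 0 ≤ ∑ j ∈ t, a j := sum_nonneg fun j _ => h0 j
    have h3 := mul_le_mul_of_nonneg_left ih (sub_nonneg.2 (h1 i))
    nlinarith [mul_nonneg (h0 i) h2]

/-- the choice of the level -/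
theorem exists_level {L : Type} [Fintype L] (Q P : ℕ) (hQ : 32 * Fintype.card L ≤ Q) (hP : 0 < P)
    (s : L → ℝ) (hs : ∀ l, 0 ≤ s l) (l0 : L) (hl0 : 0 < s l0) :
    ∃ x, s l0 ≤ x ∧ 2 * ∑ l, (hi Q P (s l) x).card ≤ Q ∧
      Q ≤ 16 * ∑ l, (hi Q P (s l) (2 ^ P * x)).card := by
  classical
  have hm : 1 ≤ Fintype.card L := Fintype.card_pos_iff.2 ⟨l0⟩
  have hK : (1 : ℝ) < 2 ^ P := one_lt_pow₀ (by norm_num) hP.ne'
  let N : ℝ → ℕ := fun x => ∑ l, (hi Q P (s l) x).card
  have hN : ∀ x, N x ≤ 2 * N (2 ^ P * x) + Fintype.card L := by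
    intro x
    calc N x ≤ ∑ l, (2 * (hi Q P (s l) (2 ^ P * x)).card + 1) :=
          sum_le_sum fun l _ => card_hi_le Q P (hs l) x
      _ = 2 * N (2 ^ P * x) + Fintype.card L := by
          simp [N, sum_add_distrib, mul_sum]
  have hex : ∃ t : ℕ, 2 * N ((2 ^ P) ^ t * s l0) ≤ Q := by
    obtain ⟨t, ht⟩ := pow_unbounded_of_one_lt ((∑ l, s l) * (Q : ℝ) ^ P / s l0) hK
    rw [div_lt_iff₀ hl0] at ht
    refine ⟨t, ?_⟩
    have : N ((2 ^ P) ^ t * s l0) = 0 := by
      refine sum_eq_zero fun l _ => card_eq_zero.2 (eq_empty_of_forall_notMem fun r hr => ?_)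
      rw [mem_hi] at hr
      have h1 : s l ≤ ∑ l, s l := single_le_sum (fun j _ => hs j) (mem_univ l)
      have h2 : s l * pw Q P r ≤ (∑ l, s l) * (Q : ℝ) ^ P :=
        mul_le_mul h1 (pw_le Q P r) (zero_le_one.trans (one_le_pw Q P r)) ((hs l).trans h1)
      linarith
    omega
  have h0 : ¬ 2 * N ((2 ^ P) ^ 0 * s l0) ≤ Q := by
    have h1 : hi Q P (s l0) ((2 ^ P) ^ 0 * s l0) = univ := by
      refine eq_univ_of_forall fun r => mem_hi.2 ?_
      rw [pow_zero, one_mul]
      exact le_mul_of_one_le_right hl0.le (one_le_pw Q P r)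
    have h2 : (hi Q P (s l0) ((2 ^ P) ^ 0 * s l0)).card ≤ N ((2 ^ P) ^ 0 * s l0) :=
      single_le_sum (f := fun l => (hi Q P (s l) ((2 ^ P) ^ 0 * s l0)).card)
        (fun j _ => Nat.zero_le _) (mem_univ l0)
    rw [h1, card_univ, Fintype.card_fin] at h2
    omega
  have ht0 : Nat.find hex ≠ 0 := fun h => h0 (by have := Nat.find_spec hex; rwa [h] at this)
  obtain ⟨u, hu⟩ := Nat.exists_eq_succ_of_ne_zero ht0
  have h1 := Nat.find_spec hex
  have h2 := Nat.find_min hex (m := u) (by omega)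
  rw [hu] at h1
  have h3 := hN ((2 ^ P) ^ u * s l0)
  have h4 : (2 : ℝ) ^ P * ((2 ^ P) ^ u * s l0) = (2 ^ P) ^ u.succ * s l0 := by
    rw [pow_succ]; ring
  rw [h4] at h3
  have h5 := hN ((2 ^ P) ^ u.succ * s l0)
  refine ⟨(2 ^ P) ^ u.succ * s l0, le_mul_of_one_le_left hl0.le (one_le_pow₀ hK.le), h1, ?_⟩
  change Q ≤ 16 * N _
  omega

end ParetoAux

open ParetoAux Finset in
open Classical in
theorem pareto {L : Type} [Fintype L] (Q P : ℕ) (hQ : 32 * Fintype.card L ≤ Q) (hP : 0 < P)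
    (s : L → ℝ) (hs : ∀ l, 0 ≤ s l) (l0 : L) (hl0 : 0 < s l0) :
    Q ^ Fintype.card L ≤ 32 * (Finset.univ.filter fun r : L → Fin Q =>
      ∃ (l : L) (x : ℝ), s l0 ≤ x ∧ 2 ^ P * x ≤ s l * pw Q P (r l) ∧
        ∀ l', l' ≠ l → s l' * pw Q P (r l') < x).card := by
  obtain ⟨x, hx, h1, h2⟩ := exists_level Q P hQ hP s hs l0 hl0
  have hm : 1 ≤ Fintype.card L := Fintype.card_pos_iff.2 ⟨l0⟩
  have hQ0 : (0 : ℝ) < Q := by exact_mod_cast (by omega : 0 < Q)
  have hx0 : 0 < x := hl0.trans_le hx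
  have hK : (1 : ℝ) ≤ 2 ^ P := one_le_pow₀ (by norm_num)
  let T : L → L → Finset (Fin Q) := fun l l' =>
    if l' = l then hi Q P (s l) (2 ^ P * x) else (hi Q P (s l') x)ᶜ
  let E : L → Finset (L → Fin Q) := fun l => Fintype.piFinset (T l)
  have hmem : ∀ l r, r ∈ E l → 2 ^ P * x ≤ s l * pw Q P (r l) ∧
      ∀ l', l' ≠ l → s l' * pw Q P (r l') < x := by
    intro l r hr
    rw [Fintype.mem_piFinset] at hr
    refine ⟨?_, fun l' hl' => ?_⟩
    · have := hr l
      simp only [T, if_true] at this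
      exact mem_hi.1 this
    · have := hr l'
      simp only [T, if_neg hl', mem_compl, mem_hi, not_le] at this
      exact this
  have hdisj : ((univ : Finset L) : Set L).PairwiseDisjoint E := by
    intro l _ l' _ hll'
    refine disjoint_left.2 fun r hr hr' => ?_
    have h3 := (hmem l r hr).1
    have h4 := (hmem l' r hr').2 l hll'
    have h5 : x ≤ 2 ^ P * x := le_mul_of_one_le_left hx0.le hK
    linarith
  have hsub : univ.biUnion E ⊆ Finset.univ.filter fun r : L → Fin Q =>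
      ∃ (l : L) (x : ℝ), s l0 ≤ x ∧ 2 ^ P * x ≤ s l * pw Q P (r l) ∧
        ∀ l', l' ≠ l → s l' * pw Q P (r l') < x := by
    intro r hr
    obtain ⟨l, _, hl⟩ := mem_biUnion.1 hr
    exact mem_filter.2 ⟨mem_univ _, l, x, hx, hmem l r hl⟩
  have hcard : ∀ l, ((hi Q P (s l) (2 ^ P * x)).card : ℝ) * ((Q : ℝ) ^ (Fintype.card L - 1) / 2)
      ≤ (E l).card := by
    intro l
    have hle : ∀ l', (hi Q P (s l') x).card ≤ Q := fun l' => by
      simpa using card_le_univ (hi Q P (s l') x)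
    have h3 : ((E l).card : ℝ) = (hi Q P (s l) (2 ^ P * x)).card
        * ∏ l' ∈ univ.erase l, (Q * (1 - ((hi Q P (s l') x).card : ℝ) / Q)) := by
      rw [Fintype.card_piFinset, ← mul_prod_erase univ _ (mem_univ l)]
      push_cast
      congr 1
      · simp [T]
      · refine prod_congr rfl fun l' hl' => ?_
        simp only [T, if_neg (ne_of_mem_erase hl'), card_compl, Fintype.card_fin]
        rw [Nat.cast_sub (hle l')]
        field_simp
    rw [h3, prod_mul_distrib, prod_const, card_erase_of_mem (mem_univ l), card_univ]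
    have h4 := one_sub_sum_le_prod (univ.erase l) (fun l' => ((hi Q P (s l') x).card : ℝ) / Q)
      (fun l' => by positivity)
      (fun l' => by rw [div_le_one hQ0]; exact_mod_cast hle l')
    have h5 : ∑ l' ∈ univ.erase l, ((hi Q P (s l') x).card : ℝ) / Q ≤ 1 / 2 := by
      rw [← sum_div, div_le_iff₀ hQ0]
      have h6 : ∑ l' ∈ univ.erase l, ((hi Q P (s l') x).card : ℝ)
          ≤ ∑ l', ((hi Q P (s l') x).card : ℝ) :=
        sum_le_sum_of_subset_of_nonneg (erase_subset _ _) fun _ _ _ => by positivity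
      have h7 : (2 : ℝ) * ∑ l', ((hi Q P (s l') x).card : ℝ) ≤ Q := by exact_mod_cast h1
      linarith
    refine mul_le_mul_of_nonneg_left ?_ (by positivity)
    rw [div_eq_mul_one_div]
    exact mul_le_mul_of_nonneg_left (by linarith) (by positivity)
  have h3 : (Q : ℝ) ^ Fintype.card L ≤ 32 * ((univ.biUnion E).card : ℝ) := by
    rw [card_biUnion hdisj]
    push_cast
    have h4 := sum_le_sum fun l (_ : l ∈ (univ : Finset L)) => hcard l
    rw [← sum_mul] at h4
    have h5 : (Q : ℝ) ≤ 16 * ∑ l, ((hi Q P (s l) (2 ^ P * x)).card : ℝ) := by exact_mod_cast h2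
    have h6 : (Q : ℝ) ^ Fintype.card L = Q * (Q : ℝ) ^ (Fintype.card L - 1) := by
      rw [← pow_succ']
      congr 1
      omega
    have h7 := mul_le_mul_of_nonneg_right h5
      (by positivity : (0 : ℝ) ≤ (Q : ℝ) ^ (Fintype.card L - 1))
    rw [h6]
    linarith
  have h4 : Q ^ Fintype.card L ≤ 32 * (univ.biUnion E).card := by exact_mod_cast h3
  exact h4.trans (Nat.mul_le_mul_left _ (card_le_card hsub))

end Crest.Agent.R192
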