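import Crest.Agent.R192.Char
import Crest.Agent.R192.Pareto
import Crest.Agent.R192.Net

/-! Row 192: definition of the random labels. -/

set_option autoImplicit false

namespace Crest.Agent.R192

open Crest.AlgebraR.L1 MeasureTheory Matrix
open scoped ContDiff BoundedContinuousFunction

theorem exists_Ksig : ∃ K : ℝ, 1 ≤ K ∧ ∀ x, |deriv Real.smoothTransition x| ≤ K := by
  have hc : Continuous (deriv Real.smoothTransition) :=
    (Real.smoothTransition.contDiff (n := 1)).continuous_deriv le_rfl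
  obtain ⟨C, hC⟩ := (isCompact_Icc (a := (-1 : ℝ)) (b := 2)).exists_bound_of_continuousOn
    hc.continuousOn
  refine ⟨max 1 C, le_max_left _ _, fun x => ?_⟩
  by_cases hx : x ∈ Set.Icc (-1 : ℝ) 2
  · exact (hC x hx).trans (le_max_right _ _)
  · have : deriv Real.smoothTransition x = 0 := by
      rw [Set.mem_Icc, not_and_or, not_le, not_le] at hx
      rcases hx with hx | hx
      · have : Real.smoothTransition =ᶠ[nhds x] fun _ => 0 := by
          filter_upwards [Iio_mem_nhds (show x < 0 by linarith)] with y hy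
          exact Real.smoothTransition.zero_of_nonpos (le_of_lt hy)
        rw [this.deriv_eq, deriv_const]
      · have : Real.smoothTransition =ᶠ[nhds x] fun _ => 1 := by
          filter_upwards [Ioi_mem_nhds (show 1 < x by linarith)] with y hy
          exact Real.smoothTransition.one_of_one_le (le_of_lt hy)
        rw [this.deriv_eq, deriv_const]
    rw [this, abs_zero]
    exact zero_le_one.trans (le_max_left _ _)

/-- a bound for the derivative of the smooth transition -/
noncomputable def Ksig : ℝ := exists_Ksig.choose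

theorem one_le_Ksig : 1 ≤ Ksig := exists_Ksig.choose_spec.1

theorem abs_deriv_le_Ksig (x : ℝ) : |deriv Real.smoothTransition x| ≤ Ksig :=
  exists_Ksig.choose_spec.2 x

section orbits
variable {G : Type} [Group G]

/-- the orbit `{c ^ m * x}` -/
def orbS (c x : G) : Set G := Set.range fun m : ℤ => c ^ m * x

/-- an element `c`, an orbit of `⟨c⟩` on `G`, and a tag -/
@[ext] structure OT (G : Type) [Group G] (T : Type) where
  c : G
  s : Set G
  tag : T
  ex : ∃ x, s = orbS c x

def OT.mk' {T : Type} (c x : G) (t : T) : OT G T := ⟨c, orbS c x, t, x, rfl⟩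

theorem orbS_conj (h c x : G) : (fun g => h * g) '' orbS c x = orbS (h * c * h⁻¹) (h * x) := by
  ext g
  simp only [orbS, Set.mem_image, Set.mem_range, conj_zpow]
  constructor
  · rintro ⟨_, ⟨m, rfl⟩, rfl⟩
    exact ⟨m, by group⟩
  · rintro ⟨m, rfl⟩
    exact ⟨_, ⟨m, rfl⟩, by group⟩

instance {T : Type} : MulAction G (OT G T) where
  smul h o := ⟨h * o.c * h⁻¹, (fun g => h * g) '' o.s, o.tag, by
    obtain ⟨x, hx⟩ := o.ex
    exact ⟨h * x, by rw [hx, orbS_conj]⟩⟩
  one_smul o := by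
    refine OT.ext ?_ ?_ rfl
    · change 1 * o.c * 1⁻¹ = o.c
      simp
    · change (fun g => 1 * g) '' o.s = o.s
      simp
  mul_smul a b o := by
    refine OT.ext ?_ ?_ rfl
    · change a * b * o.c * (a * b)⁻¹ = a * (b * o.c * b⁻¹) * a⁻¹
      group
    · change (fun g => a * b * g) '' o.s = (fun g => a * g) '' ((fun g => b * g) '' o.s)
      simp only [Set.image_image, mul_assoc]

theorem OT.smul_c {T : Type} (h : G) (o : OT G T) : (h • o).c = h * o.c * h⁻¹ := rfl
theorem OT.smul_s {T : Type} (h : G) (o : OT G T) : (h • o).s = (fun g => h * g) '' o.s := rfl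
theorem OT.smul_tag {T : Type} (h : G) (o : OT G T) : (h • o).tag = o.tag := rfl

theorem OT.smul_mk' {T : Type} (h c x : G) (t : T) :
    h • OT.mk' c x t = OT.mk' (h * c * h⁻¹) (h * x) t :=
  OT.ext rfl (orbS_conj h c x) rfl

/-- a base point of the orbit -/
noncomputable def OT.base {T : Type} (o : OT G T) : G := o.ex.choose

theorem OT.s_eq {T : Type} (o : OT G T) : o.s = orbS o.c o.base := o.ex.choose_spec

open Classical in
/-- position of `x` in the orbit relative to the base point -/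
noncomputable def OT.idx {T : Type} (o : OT G T) (x : G) : ℤ :=
  if h : ∃ m : ℤ, o.c ^ m * o.base = x then h.choose else 0

end orbits

/-- parameters of the labels -/
structure LP (G : Type) where
  /-- the valid shapes -/
  Sh : Finset (G → ℝ)
  β : ℝ
  t : ℝ
  N1 : ℕ
  Q : ℕ
  P : ℕ
  /-- angle of the character, as a function of the conjugate `x⁻¹ c x` and the shape -/
  ϑ : G → (G → ℝ) → ℝ

section labels
variable {G : Type} [Group G] [TopologicalSpace G] [DiscreteTopology G] (ℓ : Len G) (R : ℕ)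
  (p : LP G)

/-- labels -/
abbrev Lab := OT G p.Sh

/-- soft version of `exp (-β * dist (a, template (x, η)))` -/
noncomputable def uu (β : ℝ) (x : G) (η : G → ℝ) (a : G →ᵇ ℝ) : ℝ :=
  (∑ z ∈ ℓ.ball (2 * R),
    (Real.exp (β * (a (x * z) - η z)) + Real.exp (-(β * (a (x * z) - η z)))))⁻¹

noncomputable def LP.u0 : ℝ := Real.exp (-(p.β * p.t))

noncomputable def LP.T0 : ℝ := p.N1 * p.u0 * (p.Q : ℝ) ^ p.P

/-- cut-off version of `uu` -/
noncomputable def rr (x : G) (η : G → ℝ) (a : G →ᵇ ℝ) : ℝ :=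
  uu ℓ R p.β x η a * Real.smoothTransition (uu ℓ R p.β x η a / p.u0 - 1)

/-- total weight -/
noncomputable def Xi (v : Lab p → Fin p.Q) (c : G) (a : G →ᵇ ℝ) : ℝ :=
  p.T0 + ∑ᶠ x : G, ∑ η : p.Sh, rr ℓ R p x η a * pw p.Q p.P (v (OT.mk' c x η))

noncomputable def Sl (l : Lab p) (a : G →ᵇ ℝ) : ℝ := ∑ᶠ x ∈ l.s, rr ℓ R p x l.tag a

noncomputable def ang (l : Lab p) : ℝ := p.ϑ (l.base⁻¹ * l.c * l.base) l.tag

noncomputable def Zl (l : Lab p) (a : G →ᵇ ℝ) : ℂ :=
  ∑ᶠ x ∈ l.s, (rr ℓ R p x l.tag a : ℂ) * ee (ang p l * l.idx x)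

/-- share of the label `l` in the total weight -/
noncomputable def share (v : Lab p → Fin p.Q) (l : Lab p) (a : G →ᵇ ℝ) : ℝ :=
  pw p.Q p.P (v l) * Sl ℓ R p l a / Xi ℓ R p v l.c a

/-- amplitude of the label `l` -/
noncomputable def Y1 (v : Lab p → Fin p.Q) (l : Lab p) (a : G →ᵇ ℝ) : ℂ :=
  (Real.smoothTransition (10 * share ℓ R p v l a - 6) * (pw p.Q p.P (v l) / Xi ℓ R p v l.c a) : ℝ) *
    Zl ℓ R p l a

open Classical in
/-- thresholded shape -/
noncomputable def fη (η : G → ℝ) (z : G) : ℝ :=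
  if z ∈ ℓ.ball (2 * R) then max 0 (η z - 1 / 2) else 0

/-- standing assumptions on the parameters -/
structure LP.Ok : Prop where
  R_pos : 0 < R
  β_pos : 0 < p.β
  t_pos : 0 < p.t
  t_le : p.t ≤ 1 / 8
  valid : ∀ η ∈ p.Sh, 4 / 5 ≤ η 1
  N1_pos : 0 < p.N1
  N1_ge : (ℓ.ball (2 * R)).card * p.Sh.card ≤ p.N1
  Q_pos : 0 < p.Q
  ϑ_int : ∀ c η (m : ℤ), c ^ m = 1 → ee (p.ϑ c η * m) = 1

/-- support of the event attached to a fine template -/
noncomputable def esupp {T : Type} (i : OT G T) : Finset (Lab p) := by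
  classical
  exact (ℓ.ball (2 * R) ×ˢ (Finset.univ : Finset p.Sh)).image
    fun q => OT.mk' i.c (i.base * q.1) q.2

/-- the event attached to a fine template: every nearby measure has a dominant label -/
def GoodEv (Sh' : Finset (G → ℝ)) (w' : ℝ) (i : OT G Sh') (v : Lab p → Fin p.Q) : Prop :=
  ∀ x ∈ i.s, ∀ μ : G →₀ ℝ, IsProb μ → 9 / 10 ≤ feat ℓ R μ x →
    (∀ z ∈ ℓ.ball (4 * R), |feat ℓ R μ (x * z) - (i.tag : G → ℝ) z| ≤ w') →
    ∃ l : Lab p, l.c = i.c ∧ 7 / 10 ≤ share ℓ R p v l (feat ℓ R μ)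

end labels

end Crest.Agent.R192
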