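import Crest.Agent.R192.Total
import Crest.Agent.R192.Gen2
import Crest.Agent.R192.Gibbs
import Crest.Agent.R192.Lab5

/-! Row 192: choice of the parameters and the limit. -/

set_option autoImplicit false

namespace Crest.Agent.R192

open Crest.AlgebraR.L1 MeasureTheory Matrix
open scoped ContDiff BoundedContinuousFunction

open Filter Topology

theorem exists_scale (C ε : ℝ) (hε : 0 < ε) (k : ℕ) :
    ∃ a : ℕ, 1 ≤ a ∧ C * (a : ℝ) ^ k ≤ ε * 2 ^ a := by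
  have h := (tendsto_pow_const_mul_const_pow_of_abs_lt_one k
    (r := (1 / 2 : ℝ)) (by rw [abs_of_pos] <;> norm_num)).const_mul C
  rw [mul_zero] at h
  obtain ⟨a, ha1, ha2⟩ := ((h.eventually (gt_mem_nhds hε)).and (eventually_ge_atTop 1)).exists
  refine ⟨a, ha2, ?_⟩
  have h2 : (0 : ℝ) < 2 ^ a := by positivity
  have h3 : C * ((a : ℝ) ^ k * (1 / 2) ^ a) * 2 ^ a = C * (a : ℝ) ^ k := by
    rw [one_div, inv_pow]; field_simp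
  rw [← h3]
  exact mul_le_mul_of_nonneg_right ha1.le h2.le

theorem eq_zero_of_le_poly_geom (x C : ℝ) (hx : 0 ≤ x) (k : ℕ)
    (h : ∀ m0 : ℕ, ∃ m : ℕ, m0 ≤ m ∧ x ≤ C * ((m : ℝ) ^ k * (1 / 2) ^ m)) : x = 0 := by
  have ht := (tendsto_pow_const_mul_const_pow_of_abs_lt_one k
    (r := (1 / 2 : ℝ)) (by rw [abs_of_pos] <;> norm_num)).const_mul C
  rw [mul_zero] at ht
  by_contra hne
  have hpos : 0 < x := lt_of_le_of_ne hx (Ne.symm hne)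
  obtain ⟨m0, hm0⟩ := eventually_atTop.1 (ht.eventually (gt_mem_nhds hpos))
  obtain ⟨m, hm, hle⟩ := h m0
  exact absurd (hm0 m hm) (not_lt.2 hle)

theorem WSum.mono {G : Type} [Group G] {ℓ : Len G} {γ γ' : ℝ} (h : γ' ≤ γ) {q : ℕ}
    {e : Fin q → Fin q → G → ℂ} (hs : WSum ℓ γ e) : WSum ℓ γ' e := fun i j =>
  Summable.of_nonneg_of_le (fun x => by positivity) (fun x => by
    refine mul_le_mul_of_nonneg_left (Real.exp_le_exp.2 ?_) (norm_nonneg _)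
    exact mul_le_mul_of_nonneg_right h (Nat.cast_nonneg _)) (hs i j)

theorem wnorm_nonneg {G : Type} [Group G] (ℓ : Len G) (γ : ℝ) {q : ℕ}
    (e : Fin q → Fin q → G → ℂ) : 0 ≤ wnorm ℓ γ e :=
  Finset.sum_nonneg fun _ _ => Finset.sum_nonneg fun _ _ => tsum_nonneg fun _ => by positivity

theorem sqrtF_le {Z ε n : ℝ} (hZ : 1 ≤ Z) (hε : 0 < ε) (hn : 0 ≤ n) (B j : ℕ) (t : ℝ)
    (ht : 10 * Z ^ 2 ≤ t) (hB : B * t = 2 * j + 2) :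
    √((1 + n / ε) ^ 2 * (10 * (1 + Real.exp Z)) ^ (4 * (⌊Z⌋₊ * B))) ≤
      (1 + n / ε) * (Real.exp 2) ^ (j + 1) := by
  have h1 : 10 * (1 + Real.exp Z) ≤ Real.exp (Z + 4) := by
    have e1 : 1 ≤ Real.exp Z := Real.one_le_exp (by linarith)
    have e2 : (20 : ℝ) ≤ Real.exp 4 := by
      have := Real.exp_one_gt_d9
      have h4 : Real.exp 4 = Real.exp 1 ^ 4 := by rw [← Real.exp_nat_mul]; norm_num
      rw [h4]
      have : (2.7 : ℝ) ^ 4 ≤ Real.exp 1 ^ 4 := pow_le_pow_left₀ (by norm_num) (by linarith) 4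
      norm_num at this ⊢
      linarith
    rw [Real.exp_add]
    nlinarith
  have hfl : (⌊Z⌋₊ : ℝ) ≤ Z := Nat.floor_le (by linarith)
  have h2 : (10 * (1 + Real.exp Z)) ^ (4 * (⌊Z⌋₊ * B)) ≤ (Real.exp 2 ^ (j + 1)) ^ 2 := by
    calc (10 * (1 + Real.exp Z)) ^ (4 * (⌊Z⌋₊ * B))
        ≤ Real.exp (Z + 4) ^ (4 * (⌊Z⌋₊ * B)) := pow_le_pow_left₀ (by positivity) h1 _
      _ = Real.exp (((4 * (⌊Z⌋₊ * B) : ℕ) : ℝ) * (Z + 4)) := by rw [Real.exp_nat_mul]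
      _ ≤ Real.exp (((2 * (j + 1) : ℕ) : ℝ) * 2) := by
        refine Real.exp_le_exp.2 ?_
        push_cast
        have hB0 : (0 : ℝ) ≤ B := Nat.cast_nonneg _
        have e1 : (⌊Z⌋₊ : ℝ) * (Z + 4) ≤ 5 * Z ^ 2 := by nlinarith
        have e2 : (B : ℝ) * ((⌊Z⌋₊ : ℝ) * (Z + 4)) ≤ B * (5 * Z ^ 2) :=
          mul_le_mul_of_nonneg_left e1 hB0
        have e3 : (B : ℝ) * (10 * Z ^ 2) ≤ B * t := mul_le_mul_of_nonneg_left ht hB0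
        nlinarith
      _ = (Real.exp 2 ^ (j + 1)) ^ 2 := by rw [Real.exp_nat_mul, ← pow_mul, mul_comm (j + 1)]
  rw [Real.sqrt_le_left (by positivity), mul_pow (1 + n / ε)]
  exact mul_le_mul_of_nonneg_left h2 (sq_nonneg _)

theorem mainStmt : MainStmt := by
  intro G _ ℓ q e γ0 hγ0 he hs0
  let _ : TopologicalSpace G := ⊥
  have _ : DiscreteTopology G := ⟨rfl⟩
  set γ := min γ0 1 with hγdef
  have hγ : 0 < γ := lt_min hγ0 one_pos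
  have hγ1 : γ ≤ 1 := min_le_right _ _
  have hs : WSum ℓ γ e := hs0.mono (min_le_left _ _)
  obtain ⟨Γ⟩ := exists_gibbs ℓ
  obtain ⟨Cz, k, hlab⟩ := exists_labels ℓ
  set E := wnorm ℓ γ e with hE
  have hE0 : 0 ≤ E := wnorm_nonneg ℓ γ e
  set D0 : ℝ := 16 * (4 / γ) ^ 8 * Real.exp 2 * E ^ 2 + 1 with hD0
  have hD1 : 1 ≤ D0 := by
    have : 0 ≤ 16 * (4 / γ) ^ 8 * Real.exp 2 * E ^ 2 := by positivity
    linarith
  set ε : ℝ := 1 / D0 with hεdef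
  have hε : 0 < ε := by positivity
  have hε1 : ε ≤ 1 := by rw [hεdef, div_le_one (by linarith)]; exact hD1
  have hεD : ε * D0 = 1 := by rw [hεdef]; field_simp
  clear_value ε D0 E γ
  have hlam := Γ.lam_pos
  have hC0 := Γ.C0_nonneg
  set c1 : ℝ := 20 * ((2 * Γ.lam + 2 * (Γ.C0 + 4)) / ε + 2) with hc1
  have hc10 : 0 < c1 := by positivity
  clear_value c1
  obtain ⟨a, ha1, ha⟩ := exists_scale (27 * (|Cz| * c1 ^ k) ^ 3) ε hε (3 * k)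
  have ha1' : (1 : ℝ) ≤ a := by exact_mod_cast ha1
  set Ln : ℕ := ⌈(2 * a * Γ.lam + 2 * (Γ.C0 + 4)) / ε⌉₊ + 1 with hLn
  have hL1 : (2 * a * Γ.lam + 2 * (Γ.C0 + 4)) / ε ≤ Ln := by
    rw [hLn]; push_cast
    linarith [Nat.le_ceil ((2 * a * Γ.lam + 2 * (Γ.C0 + 4)) / ε)]
  have hL2 : (Ln : ℝ) ≤ (2 * a * Γ.lam + 2 * (Γ.C0 + 4)) / ε + 2 := by
    rw [hLn]; push_cast
    linarith [Nat.ceil_lt_add_one (show 0 ≤ (2 * a * Γ.lam + 2 * (Γ.C0 + 4)) / ε by positivity)]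
  have hL3 : 2 * a * Γ.lam + 2 * (Γ.C0 + 4) ≤ ε * Ln := by
    rw [div_le_iff₀ hε] at hL1; linarith
  have hL4 : (1 : ℝ) ≤ Ln := by rw [hLn]; push_cast; linarith [Nat.cast_nonneg (α := ℝ) ⌈(2 * a * Γ.lam + 2 * (Γ.C0 + 4)) / ε⌉₊]
  have hRpos : 0 < 20 * Ln := by omega
  clear_value Ln
  obtain ⟨L0, Z, hZ, hZle, ⟨𝓛⟩⟩ := hlab (20 * Ln) hRpos
  have hRle : ((20 * Ln : ℕ) : ℝ) ≤ c1 * a := by
    push_cast
    have e1 : (2 * a * Γ.lam + 2 * (Γ.C0 + 4)) / ε ≤ (2 * Γ.lam + 2 * (Γ.C0 + 4)) / ε * a := by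
      rw [div_mul_eq_mul_div]
      refine div_le_div_of_nonneg_right ?_ hε.le
      nlinarith
    rw [hc1]
    nlinarith
  have hZ3 : 27 * Z ^ 3 ≤ ε * 2 ^ a := by
    refine le_trans ?_ ha
    have e1 : Z ≤ |Cz| * c1 ^ k * (a : ℝ) ^ k := by
      calc Z ≤ Cz * ((20 * Ln : ℕ) : ℝ) ^ k := hZle
        _ ≤ |Cz| * ((20 * Ln : ℕ) : ℝ) ^ k :=
          mul_le_mul_of_nonneg_right (le_abs_self _) (by positivity)
        _ ≤ |Cz| * (c1 * a) ^ k :=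
          mul_le_mul_of_nonneg_left (pow_le_pow_left₀ (by positivity) hRle k) (abs_nonneg _)
        _ = |Cz| * c1 ^ k * (a : ℝ) ^ k := by rw [mul_pow, mul_assoc]
    have e2 : Z ^ 3 ≤ (|Cz| * c1 ^ k * (a : ℝ) ^ k) ^ 3 := pow_le_pow_left₀ (by linarith) e1 3
    calc 27 * Z ^ 3 ≤ 27 * (|Cz| * c1 ^ k * (a : ℝ) ^ k) ^ 3 := by linarith
      _ = 27 * (|Cz| * c1 ^ k) ^ 3 * (a : ℝ) ^ (3 * k) := by ring
  have h2a : (0 : ℝ) < 2 ^ a := by positivity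
  have hZ4 : 27 * Z ^ 3 ≤ 2 ^ a := hZ3.trans (by nlinarith)
  have hZ2 : 10 * Z ^ 2 ≤ 2 ^ a := by nlinarith [sq_nonneg Z]
  have hZ1 : 2 * Z ≤ 2 ^ a := by nlinarith
  refine ⟨L0, fun C hC hadm => ?_⟩
  set K : ℝ := ((2 * a : ℕ) : ℝ) * (Γ.lam + 1) + 2 * Γ.C0 + 10 + 9 * (Real.exp Z * Z ^ 3) with hK
  have hK0 : 0 ≤ K := by positivity
  clear_value K
  have _ := 𝓛.prob
  rw [← norm_eq_zero]
  refine eq_zero_of_le_poly_geom _ ((1 + 2 / ε) * (1 + 27 * K ^ 2 / ε) * E) (norm_nonneg _) 4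
    fun m0 => ?_
  obtain ⟨a', rfl⟩ : ∃ a', a = a' + 1 := ⟨a - 1, by omega⟩
  set a := a' + 1 with hadef
  set B : ℕ := m0 + 2 ^ a + 5 with hB
  have hpow1 : 1 ≤ 2 ^ a' := Nat.one_le_two_pow
  obtain ⟨j, hj⟩ : ∃ j : ℕ, j + 1 = B * 2 ^ a' :=
    ⟨B * 2 ^ a' - 1, Nat.sub_add_cancel (Nat.mul_pos (Nat.succ_pos _) hpow1)⟩
  have hjB : (B : ℝ) * 2 ^ a = 2 * j + 2 := by
    have : ((j + 1 : ℕ) : ℝ) = ((B * 2 ^ a' : ℕ) : ℝ) := by rw [hj]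
    push_cast at this
    rw [hadef, pow_succ]; linarith
  refine ⟨j + 1, ?_, ?_⟩
  · rw [hj]
    exact le_trans (le_trans (Nat.le_add_right _ _) (Nat.le_add_right _ _))
      (Nat.le_mul_of_pos_right B hpow1)
  set δ0 : ℝ := 1 / (2 * j + 2) with hδ0
  have hj0 : (0 : ℝ) < 2 * j + 2 := by positivity
  have h0 : 0 < δ0 := by positivity
  have hB1 : (2 : ℝ) ^ a + 5 ≤ B := by
    rw [hB]; push_cast; linarith [Nat.cast_nonneg (α := ℝ) m0]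
  have h2a1 : (1 : ℝ) ≤ 2 ^ a := one_le_pow₀ (by norm_num)
  have h1 : (2 ^ (2 * a) + 5) * δ0 ≤ 1 := by
    rw [hδ0, mul_one_div, div_le_one hj0, ← hjB, two_mul, pow_add]
    nlinarith
  have hBδ : (B : ℝ) * (2 ^ (2 * a) * δ0) = 2 ^ a := by
    rw [hδ0, ← hjB, two_mul, pow_add]
    have : (0 : ℝ) < B := by linarith
    field_simp
  have hT : ∀ {n : ℕ} (c : G) (x : Fin (n + 1) → G),
      δ0 * tlen ℓ c x = tlen ℓ c x / (2 * j + 2) := fun c x => by rw [hδ0]; ring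
  have hR : 20 * (Ln : ℝ) ≤ ((20 * Ln : ℕ) : ℝ) := by push_cast; exact le_rfl
  have key := generic ℓ e γ hγ hγ1 he hs C hC 𝓛.P 𝓛.inv j
    (Wtot Γ 𝓛 δ0 (2 * a) Ln (2 * j + 1)) (Wtot Γ 𝓛 δ0 (2 * a) Ln (2 * j + 2))
    (Wtot_fam Γ 𝓛 h0 h1 Ln C _) (Wtot_fam Γ 𝓛 h0 h1 Ln C _)
    (fun c _ x w p θ θ' => Wtot_face Γ 𝓛 Ln c x w p θ θ') K (4 * ε)
    ((1 + ((2 * j + 2 : ℕ) : ℝ) / ε) ^ 2 * (10 * (1 + Real.exp Z)) ^ (4 * (⌊Z⌋₊ * B))) hK0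
    (by positivity)
    (by
      filter_upwards [𝓛.lower] with w hw c hc x θ hθ
      rw [← hT, hK]
      exact Wtot_ent Γ 𝓛 h0 h1 hL4 hR hZ (hadm c hc) x w (hw c (hadm c hc)) hθ)
    (by
      filter_upwards [𝓛.lower] with w hw c hc x θ hθ
      rw [← hT, hK]
      refine ⟨Wtot_ent Γ 𝓛 h0 h1 hL4 hR hZ (hadm c hc) x w (hw c (hadm c hc)) hθ, ?_⟩
      refine Wtot_cost Γ 𝓛 h0 h1 hL4 hRpos hZ (hadm c hc) x w hθ hε B (by rw [hBδ]; exact hZ1)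
        (by rw [hBδ]; exact hZ3) ?_ ?_
      · push_cast; linarith
      · have : 0 ≤ 2 * (a : ℝ) * Γ.lam := by positivity
        linarith)
  rw [← hE] at key
  refine key.trans ?_
  have s1 := sqrtF_le hZ hε (n := ((2 * j + 2 : ℕ) : ℝ)) (by positivity) B j (2 ^ a) hZ2 hjB
  set m : ℝ := ((j + 1 : ℕ) : ℝ) with hm
  have hm1 : 1 ≤ m := by rw [hm]; push_cast; linarith [Nat.cast_nonneg (α := ℝ) j]
  have hmj : (j : ℝ) = m - 1 := by rw [hm]; push_cast; ring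
  have s2 : 1 + ((2 * j + 2 : ℕ) : ℝ) / ε ≤ (1 + 2 / ε) * m := by
    push_cast
    rw [hmj]
    have : (2 * (m - 1) + 2) / ε = 2 / ε * m := by ring
    rw [this]; linarith
  have s3 : 1 + 4 * K ^ 2 * (2 * j + 3) ^ 3 / (4 * ε) ≤ (1 + 27 * K ^ 2 / ε) * m ^ 3 := by
    have e1 : (2 * (j : ℝ) + 3) ^ 3 ≤ (3 * m) ^ 3 :=
      pow_le_pow_left₀ (by positivity) (by rw [hmj]; linarith) 3
    have e2 : 4 * K ^ 2 * (2 * j + 3) ^ 3 / (4 * ε) = K ^ 2 / ε * (2 * j + 3) ^ 3 := by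
      field_simp
    have e3 : K ^ 2 / ε * (2 * j + 3) ^ 3 ≤ K ^ 2 / ε * (3 * m) ^ 3 :=
      mul_le_mul_of_nonneg_left e1 (by positivity)
    have e4 : 1 ≤ m ^ 3 := one_le_pow₀ hm1
    have e5 : K ^ 2 / ε * (3 * m) ^ 3 = 27 * K ^ 2 / ε * m ^ 3 := by ring
    rw [e2]; linarith
  have s4 : Real.exp 2 * (2 * (4 * ε) * (4 / γ) ^ 8) * E ^ 2 ≤ 1 / 2 := by
    have : ε * (16 * (4 / γ) ^ 8 * Real.exp 2 * E ^ 2) ≤ 1 := by
      rw [← hεD, hD0]; nlinarith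
    linarith
  have s5 : (Real.exp 2 * (2 * (4 * ε) * (4 / γ) ^ 8) * E ^ 2) ^ (j + 1) ≤ (1 / 2) ^ (j + 1) :=
    pow_le_pow_left₀ (by positivity) s4 _
  calc √((1 + ((2 * j + 2 : ℕ) : ℝ) / ε) ^ 2 * (10 * (1 + Real.exp Z)) ^ (4 * (⌊Z⌋₊ * B))) *
        (1 + 4 * K ^ 2 * (2 * j + 3) ^ 3 / (4 * ε)) * (2 * (4 * ε) * (4 / γ) ^ 8) ^ (j + 1) *
        E ^ (2 * j + 3)
      ≤ ((1 + 2 / ε) * m * Real.exp 2 ^ (j + 1)) * ((1 + 27 * K ^ 2 / ε) * m ^ 3) *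
        (2 * (4 * ε) * (4 / γ) ^ 8) ^ (j + 1) * E ^ (2 * j + 3) := by
        gcongr
        exact s1.trans (mul_le_mul_of_nonneg_right s2 (by positivity))
    _ = (1 + 2 / ε) * (1 + 27 * K ^ 2 / ε) * E *
        (m ^ 4 * (Real.exp 2 * (2 * (4 * ε) * (4 / γ) ^ 8) * E ^ 2) ^ (j + 1)) := by
        rw [mul_pow _ (E ^ 2), mul_pow (Real.exp 2), ← pow_mul E]
        generalize (2 * (4 * ε) * (4 / γ) ^ 8) ^ (j + 1) = u
        generalize Real.exp 2 ^ (j + 1) = v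
        ring
    _ ≤ (1 + 2 / ε) * (1 + 27 * K ^ 2 / ε) * E * (m ^ 4 * (1 / 2) ^ (j + 1)) := by gcongr

end Crest.Agent.R192
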