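import Crest.Agent.R192.ReduceAux2

/-! Row 192: reduction of S0292 to the weighted statement `MainStmt`. -/

set_option autoImplicit false

namespace Crest.Agent.R192

open Crest.AlgebraR.L1 MeasureTheory Matrix
open scoped ContDiff BoundedContinuousFunction

namespace Red

open scoped Matrix.Norms.Operator

variable {G : Type} [Group G]

/-- trivial weight -/
def W1 (G : Type) [Group G] : Wt G := ⟨fun _ => 1, fun _ => le_rfl, fun _ _ => by simp⟩

/-- exponential weight -/
noncomputable def Wexp (ℓ : Len G) (γ : ℝ) (hγ : 0 ≤ γ) : Wt G :=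
  ⟨fun x => Real.exp (γ * ℓ.len x), fun x => Real.one_le_exp (by positivity), fun x y => by
    rw [← Real.exp_add, Real.exp_le_exp, ← mul_add]
    refine mul_le_mul_of_nonneg_left ?_ hγ
    exact_mod_cast ℓ.len_mul x y⟩

open Classical in
/-- extension by zero -/
noncomputable def ex (H : Subgroup G) (f : H → ℂ) : G → ℂ :=
  fun g => if h : g ∈ H then f ⟨g, h⟩ else 0

theorem ex_coe (H : Subgroup G) (f : H → ℂ) (x : H) : ex H f x = f x := by
  simp [ex]

theorem ex_not_mem (H : Subgroup G) (f : H → ℂ) {g : G} (hg : g ∉ H) : ex H f g = 0 := by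
  simp [ex, hg]

theorem tsum_H {β : Type} [AddCommMonoid β] [TopologicalSpace β] (H : Subgroup G) (F : G → β)
    (hF : ∀ g, g ∉ H → F g = 0) : ∑' g, F g = ∑' x : H, F x := by
  refine (Subtype.val_injective.tsum_eq (f := F) ?_).symm
  intro g hg
  by_contra hcon
  exact hg (hF g fun h => hcon ⟨⟨g, h⟩, rfl⟩)

theorem summable_ex (H : Subgroup G) {f : H → ℂ} (hf : Summable fun x => ‖f x‖) :
    Summable fun g => ‖ex H f g‖ * (W1 G).w g := by
  refine (Subtype.val_injective.summable_iff (f := fun g => ‖ex H f g‖ * (W1 G).w g)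
    (g := (Subtype.val : H → G)) ?_).1 ?_
  · intro g hg
    rw [ex_not_mem H f fun h => hg ⟨⟨g, h⟩, rfl⟩]
    simp
  · refine hf.congr fun x => ?_
    simp [ex_coe, W1]

theorem ex_conv (H : Subgroup G) (f g : H → ℂ) (x : G) :
    ex H (conv f g) x = conv (ex H f) (ex H g) x := by
  rw [conv, tsum_H H _ fun y hy => by rw [ex_not_mem H f hy, zero_mul]]
  by_cases hx : x ∈ H
  · obtain ⟨x, rfl⟩ : ∃ y : H, (y : G) = x := ⟨⟨x, hx⟩, rfl⟩
    rw [ex_coe, conv]
    refine tsum_congr fun y => ?_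
    rw [ex_coe, ← ex_coe H g (y⁻¹ * x)]
    rfl
  · rw [ex_not_mem H _ hx]
    symm
    refine (tsum_congr fun y => ?_).trans tsum_zero
    rw [ex_not_mem H g, mul_zero]
    intro h
    apply hx
    simpa using H.mul_mem y.2 h

/-- extension by zero as a ring homomorphism -/
noncomputable def Φ (H : Subgroup G) (W : Wt H) : WA W →ₙ+* WA (W1 G) where
  toFun a := mk (ex H (co a)) (summable_ex H (summable_co' a))
  map_zero' := ext_co fun x => by
    rw [co_mk, co_zero]
    by_cases hx : x ∈ H <;> simp [ex, hx, co_zero]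
  map_add' a b := ext_co fun x => by
    rw [co_add, co_mk, co_mk, co_mk]
    by_cases hx : x ∈ H <;> simp [ex, hx, co_add]
  map_mul' a b := ext_co fun x => by
    rw [co_mk, co_mul, co_mul, co_mk, co_mk, ex_conv]

theorem co_Φ (H : Subgroup G) (W : Wt H) (a : WA W) : co (Φ H W a) = ex H (co a) :=
  co_mk _ (summable_ex H (summable_co' a))

theorem norm_Φ (H : Subgroup G) (W : Wt H) (a : WA W) : ‖Φ H W a‖ = ∑' x : H, ‖co a x‖ := by
  rw [norm_eq, co_Φ, tsum_H H _ fun y hy => by rw [ex_not_mem H _ hy, norm_zero, zero_mul]]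
  refine tsum_congr fun x => ?_
  simp [ex_coe, W1]

theorem norm_Φ_le (H : Subgroup G) (W : Wt H) (a : WA W) : ‖Φ H W a‖ ≤ 1 * ‖a‖ := by
  rw [norm_Φ, norm_eq, one_mul]
  exact (summable_co' a).tsum_le_tsum
    (fun x => le_mul_of_one_le_right (norm_nonneg _) (W.one_le x)) (summable_co a)

/-- supported in a ball -/
def Supp (ℓ : Len G) (R : ℕ) {W : Wt G} (a : WA W) : Prop := ∀ x, R < ℓ.len x → co a x = 0

theorem Supp.mul {ℓ : Len G} {R R' : ℕ} {W : Wt G} {a b : WA W} (ha : Supp ℓ R a)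
    (hb : Supp ℓ R' b) : Supp ℓ (R + R') (a * b) := by
  intro x hx
  rw [co_mul, conv]
  refine (tsum_congr fun y => ?_).trans tsum_zero
  have h := ℓ.len_mul y (y⁻¹ * x)
  rw [mul_inv_cancel_left] at h
  by_cases hy : R < ℓ.len y
  · rw [ha y hy, zero_mul]
  · rw [hb _ (by omega), mul_zero]

theorem norm_le_Φ (H : Subgroup G) (ℓ : Len H) {γ : ℝ} (hγ : 0 ≤ γ) {R : ℕ} (hR : γ * R ≤ 1)
    {a : WA (Wexp ℓ γ hγ)} (ha : Supp ℓ R a) : ‖a‖ ≤ 3 * ‖Φ H _ a‖ := by
  rw [norm_Φ, norm_eq, ← tsum_mul_left]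
  refine (summable_co a).tsum_le_tsum (fun x => ?_) ((summable_co' a).mul_left 3)
  by_cases hx : R < ℓ.len x
  · simp [ha x hx]
  · rw [mul_comm]
    refine mul_le_mul_of_nonneg_right ?_ (norm_nonneg _)
    show Real.exp (γ * ℓ.len x) ≤ 3
    have h1 : (ℓ.len x : ℝ) ≤ R := by exact_mod_cast not_lt.1 hx
    have h2 : γ * ℓ.len x ≤ 1 := (mul_le_mul_of_nonneg_left h1 hγ).trans hR
    have h3 := Real.exp_one_lt_d9
    exact (Real.exp_le_exp.2 h2).trans (by linarith)

theorem norm_one_exp (ℓ : Len G) {γ : ℝ} (hγ : 0 ≤ γ) : ‖(1 : WA (Wexp ℓ γ hγ))‖ = 1 := by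
  rw [norm_eq, co_one, tsum_eq_single 1]
  · simp [delta, Wexp, ℓ.len_one]
  · intro y hy
    simp [delta, hy]

section mat
variable {A B : Type} [NormedRing A] [NormedRing B] {q : ℕ}

theorem row_le (M : Matrix (Fin q) (Fin q) A) (i : Fin q) : ∑ j, ‖M i j‖ ≤ ‖M‖ := by
  rw [linfty_opNorm_def]
  have := NNReal.coe_le_coe.2 (Finset.le_sup (f := fun i => ∑ j, ‖M i j‖₊) (Finset.mem_univ i))
  simpa only [NNReal.coe_sum, coe_nnnorm] using this

theorem mat_le (M : Matrix (Fin q) (Fin q) A) {c : ℝ} (hc : 0 ≤ c) (h : ∀ i, ∑ j, ‖M i j‖ ≤ c) :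
    ‖M‖ ≤ c := by
  rw [linfty_opNorm_def]
  lift c to NNReal using hc
  have : (Finset.univ.sup fun i => ∑ j, ‖M i j‖₊) ≤ c :=
    Finset.sup_le fun i _ => by
      rw [← NNReal.coe_le_coe]
      simpa only [NNReal.coe_sum, coe_nnnorm] using h i
  exact_mod_cast this

theorem mat_cmp (M : Matrix (Fin q) (Fin q) A) (N : Matrix (Fin q) (Fin q) B) {c : ℝ}
    (hc : 0 ≤ c) (h : ∀ i j, ‖M i j‖ ≤ c * ‖N i j‖) : ‖M‖ ≤ c * ‖N‖ := by
  refine mat_le M (by positivity) fun i => ?_
  refine (Finset.sum_le_sum fun j _ => h i j).trans ?_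
  rw [← Finset.mul_sum]
  exact mul_le_mul_of_nonneg_left (row_le N i) hc

theorem mat_one (h : ‖(1 : A)‖ = 1) : ‖(1 : Matrix (Fin q) (Fin q) A)‖ ≤ 1 := by
  refine mat_le _ zero_le_one fun i => ?_
  rw [Finset.sum_eq_single i]
  · simp [h]
  · intro j _ hj
    simp [Matrix.one_apply_ne hj.symm]
  · simp

theorem mat_complete [CompleteSpace A] :
    @CompleteSpace (Matrix (Fin q) (Fin q) A)
      (Matrix.linftyOpNormedRing (α := A) (n := Fin q)).toUniformSpace :=
  (inferInstance : CompleteSpace (Fin q → Fin q → A))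

end mat

theorem trace_comm {q : ℕ} {W : Wt G} {C : Set G} (hC : ConjInv C)
    (M N : Matrix (Fin q) (Fin q) (WA W)) :
    classTrace (fun i j => co ((M * N) i j)) C = classTrace (fun i j => co ((N * M) i j)) C := by
  have key : ∀ M N : Matrix (Fin q) (Fin q) (WA W), classTrace (fun i j => co ((M * N) i j)) C =
      ∑ i, ∑ k, ∑' g : C, conv (co (M i k)) (co (N k i)) g := by
    intro M N
    have hs : ∀ a : WA W, Summable fun g : C => co a g := fun a =>
      ((summable_co' a).of_norm).subtype C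
    rw [classTrace, Summable.tsum_finsetSum fun i _ => hs _]
    refine Finset.sum_congr rfl fun i _ => ?_
    simp only [Matrix.mul_apply, co_sum]
    rw [Summable.tsum_finsetSum fun k _ => hs _]
    simp only [co_mul]
  rw [key, key, Finset.sum_comm]
  refine Finset.sum_congr rfl fun i _ => Finset.sum_congr rfl fun k _ => ?_
  exact tsum_conv_comm (summable_co' _) (summable_co' _) hC

theorem classTrace_ex {q : ℕ} (H : Subgroup G) (f : Fin q → Fin q → H → ℂ) (C : Set G) :
    classTrace (fun i j => ex H (f i j)) C = classTrace f (Subtype.val ⁻¹' C) := by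
  rw [classTrace, classTrace, tsum_subtype C fun g => ∑ i, ex H (f i i) g,
    tsum_subtype (Subtype.val ⁻¹' C) fun g : H => ∑ i, f i i g, tsum_H H]
  · refine tsum_congr fun x => ?_
    by_cases hx : (x : G) ∈ C
    · have hx' : x ∈ (Subtype.val ⁻¹' C : Set H) := hx
      simp [hx, hx', ex_coe]
    · have hx' : x ∉ (Subtype.val ⁻¹' C : Set H) := hx
      simp [hx, hx']
  · intro g hg
    by_cases hx : g ∈ C <;> simp [hx, ex_not_mem H _ hg]

/-- approximation by a weighted idempotent on a finitely generated subgroup -/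
theorem exists_approx {q : ℕ} (e : Fin q → Fin q → G → ℂ) (he : IsL1IdempotentMatrix e) :
    ∃ (H : Subgroup G) (ℓ : Len H) (γ : ℝ) (f : Fin q → Fin q → H → ℂ), 0 < γ ∧
      IsL1IdempotentMatrix f ∧ WSum ℓ γ f ∧
      ∀ C : Set G, ConjInv C → classTrace e C = classTrace f (Subtype.val ⁻¹' C) := by
  classical
  have he1 : ∀ i j, Summable fun x => ‖e i j x‖ * (W1 G).w x := fun i j => by
    simpa [W1] using he.1 i j
  let E : Matrix (Fin q) (Fin q) (WA (W1 G)) := Matrix.of fun i j => mk (e i j) (he1 i j)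
  have hEco : ∀ i j, co (E i j) = e i j := fun i j => co_mk _ (he1 i j)
  have hE : E * E = E := by
    ext i j
    refine ext_co fun x => ?_
    simp only [Matrix.mul_apply, co_sum, co_mul, hEco]
    exact he.2 i j x
  -- choice of `δ`
  have hc1 : Continuous fun Y : Matrix (Fin q) (Fin q) (WA (W1 G)) => 3 * ‖Y * Y - Y‖ := by
    fun_prop
  have hc2 : Continuous fun Y : Matrix (Fin q) (Fin q) (WA (W1 G)) =>
      ((6 * ‖Y‖ + 1) * (2 * (3 * ‖Y * Y - Y‖)) + ‖Y - E‖) * ‖1 - 2 * E‖ := by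
    fun_prop
  have hopen := (isOpen_lt hc1 (continuous_const (y := (1 / 40 : ℝ)))).inter
    (isOpen_lt hc2 (continuous_const (y := (1 : ℝ))))
  obtain ⟨δ, hδ, hball⟩ := Metric.isOpen_iff.1 hopen E ⟨by simp [hE], by simp [hE]⟩
  -- choice of the finite set
  have hev : ∀ᶠ S : Finset G in Filter.atTop, ∀ i j,
      ∑' x : {x // x ∉ S}, ‖e i j x‖ < δ / (q + 1) := by
    refine Filter.eventually_all.2 fun i => Filter.eventually_all.2 fun j => ?_
    exact (tendsto_tsum_compl_atTop_zero fun x => ‖e i j x‖).eventually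
      (gt_mem_nhds (by positivity))
  obtain ⟨S, hS⟩ := hev.exists
  let H : Subgroup G := Subgroup.closure (S : Set G)
  obtain ⟨ℓ⟩ := exists_len H
  have hfin : {x : H | (x : G) ∈ S}.Finite :=
    S.finite_toSet.preimage Subtype.val_injective.injOn
  obtain ⟨R, hR⟩ := (hfin.image ℓ.len).bddAbove
  have hR' : ∀ x : H, (x : G) ∈ S → ℓ.len x ≤ R := fun x hx => hR ⟨x, hx, rfl⟩
  set γ : ℝ := 1 / (2 * R + 1) with hγ_def
  have hγ : 0 < γ := by positivity
  have hγR : γ * ((R + R : ℕ) : ℝ) ≤ 1 := by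
    rw [hγ_def, div_mul_eq_mul_div, one_mul, div_le_one (by positivity)]
    push_cast
    linarith
  let W : Wt H := Wexp ℓ γ hγ.le
  have hX1 : ∀ i j, Summable fun x : H => ‖if (x : G) ∈ S then e i j x else 0‖ * W.w x :=
    fun i j => summable_of_ne_finset_zero (s := hfin.toFinset) fun x hx => by
      have : (x : G) ∉ S := by simpa using hx
      simp [this]
  let X : Matrix (Fin q) (Fin q) (WA W) :=
    Matrix.of fun i j => mk (fun x : H => if (x : G) ∈ S then e i j x else 0) (hX1 i j)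
  have hXco : ∀ i j (x : H), co (X i j) x = if (x : G) ∈ S then e i j x else 0 :=
    fun i j x => congrFun (co_mk _ (hX1 i j)) x
  have hXs : ∀ i j, Supp ℓ R (X i j) := by
    intro i j x hx
    rw [hXco, if_neg fun h => absurd (hR' x h) (not_le.2 hx)]
  have hXs2 : ∀ i j, Supp ℓ (R + R) (X i j) := fun i j x hx => hXs i j x (by omega)
  have hXXs : ∀ i j, Supp ℓ (R + R) ((X * X - X) i j) := by
    intro i j x hx
    rw [Matrix.sub_apply, co_sub, Matrix.mul_apply, co_sum, hXs2 i j x hx, sub_zero]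
    exact Finset.sum_eq_zero fun k _ => (hXs i k).mul (hXs k j) x hx
  let Y : Matrix (Fin q) (Fin q) (WA (W1 G)) := X.map (Φ H W)
  have hYE : ‖Y - E‖ < δ := by
    have h1 : ∀ i j, ‖(Y - E) i j‖ ≤ δ / (q + 1) := by
      intro i j
      refine le_trans (le_of_eq ?_) (hS i j).le
      rw [norm_eq]
      have h2 := tsum_subtype {x : G | x ∉ S} fun x => ‖e i j x‖
      refine Eq.trans (tsum_congr fun g => ?_) h2.symm
      rw [Matrix.sub_apply, co_sub, hEco]
      have h3 : co (Y i j) = ex H (co (X i j)) := co_Φ H W _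
      rw [h3]
      by_cases hg : g ∈ S
      · have hgH : g ∈ H := Subgroup.subset_closure hg
        have h4 := ex_coe H (co (X i j)) ⟨g, hgH⟩
        rw [hXco] at h4
        simp only [hg, if_true] at h4
        simp [h4, hg]
      · have h4 : ex H (co (X i j)) g = 0 := by
          by_cases hgH : g ∈ H
          · have h4 := ex_coe H (co (X i j)) ⟨g, hgH⟩
            rw [hXco] at h4
            simpa only [hg, if_false] using h4
          · exact ex_not_mem H _ hgH
        simp [h4, hg, W1]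
    refine lt_of_le_of_lt (mat_le _ (c := q * (δ / (q + 1))) (by positivity) fun i => ?_) ?_
    · refine (Finset.sum_le_sum fun j _ => h1 i j).trans ?_
      simp
    · rw [← mul_div_assoc, div_lt_iff₀ (by positivity)]
      nlinarith
  obtain ⟨hY1, hY2⟩ := hball (show Y ∈ Metric.ball E δ by rwa [mem_ball_iff_norm])
  simp only [Set.mem_ofPred_eq] at hY1 hY2
  have hmap : (X * X - X).map (Φ H W) = Y * Y - Y := by
    rw [Matrix.map_sub _ (map_sub (Φ H W)), Matrix.map_mul]
  have hXX : ‖X * X - X‖ ≤ 3 * ‖Y * Y - Y‖ := by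
    rw [← hmap]
    exact mat_cmp _ _ (by norm_num) fun i j => norm_le_Φ H ℓ hγ.le hγR (hXXs i j)
  have hXn : ‖X‖ ≤ 3 * ‖Y‖ :=
    mat_cmp _ _ (by norm_num) fun i j => norm_le_Φ H ℓ hγ.le hγR (hXs2 i j)
  have := mat_complete (q := q) (A := WA W)
  have := mat_complete (q := q) (A := WA (W1 G))
  obtain ⟨F, hF, hFX⟩ := exists_idem hY1.le hXX
  have h2X : ‖2 * X - 1‖ ≤ 6 * ‖Y‖ + 1 := by
    have h1 := norm_sub_le (2 * X) 1
    have h2 := mat_one (q := q) (norm_one_exp ℓ hγ.le)
    have h3 : ‖2 * X‖ ≤ ‖X‖ + ‖X‖ := by rw [two_mul]; exact norm_add_le _ _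
    linarith
  let F1 : Matrix (Fin q) (Fin q) (WA (W1 G)) := F.map (Φ H W)
  have hF1 : F1 * F1 = F1 := by
    rw [← Matrix.map_mul, hF]
  have hF1Y : ‖F1 - Y‖ ≤ 1 * ‖F - X‖ := by
    rw [← Matrix.map_sub _ (map_sub (Φ H W))]
    exact mat_cmp _ _ zero_le_one fun i j => norm_Φ_le H W _
  have hclose : ‖F1 - E‖ * ‖1 - 2 * E‖ < 1 := by
    refine lt_of_le_of_lt (mul_le_mul_of_nonneg_right ?_ (norm_nonneg _)) hY2
    have h1 : ‖F1 - E‖ ≤ ‖F1 - Y‖ + ‖Y - E‖ := norm_sub_le_norm_sub_add_norm_sub _ _ _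
    have h2 : ‖2 * X - 1‖ * (2 * (3 * ‖Y * Y - Y‖)) ≤ (6 * ‖Y‖ + 1) * (2 * (3 * ‖Y * Y - Y‖)) :=
      mul_le_mul_of_nonneg_right h2X (by positivity)
    linarith
  refine ⟨H, ℓ, γ, fun i j => co (F i j), hγ, ⟨fun i j => summable_co' _, fun i j x => ?_⟩,
    fun i j => summable_co (F i j), fun C hC => ?_⟩
  · conv_rhs => rw [← hF]
    simp only [Matrix.mul_apply, co_sum, co_mul]
  · have h1 := trace_eq_of_close
      (fun M : Matrix (Fin q) (Fin q) (WA (W1 G)) => classTrace (fun i j => co (M i j)) C)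
      (trace_comm hC) hE hF1 hclose
    simp only [hEco] at h1
    rw [← h1, ← classTrace_ex]
    congr 1
    funext i j
    exact co_Φ H W _

end Red

theorem bass_of_main (hM : MainStmt) : BassStmt := by
  intro G _ q _ e he
  obtain ⟨H, ℓ, γ, f, hγ, hf, hw, htr⟩ := Red.exists_approx e he
  obtain ⟨L0, hL⟩ := hM H ℓ q f γ hγ hf hw
  have hcarr : ∀ C : ConjClasses G, ConjInv C.carrier := by
    intro C c hc h
    rw [ConjClasses.mem_carrier_iff_mk_eq] at hc ⊢
    rw [← hc, ConjClasses.mk_eq_mk_iff_isConj]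
    exact (isConj_iff.2 ⟨h, rfl⟩).symm
  have hpre : ∀ C : ConjClasses G, ConjInv (Subtype.val ⁻¹' C.carrier : Set H) :=
    fun C c hc h => hcarr C c hc h
  constructor
  · refine ((ℓ.ball L0).finite_toSet.image fun x : H => ConjClasses.mk (x : G)).subset ?_
    intro C hC
    by_contra hcon
    apply hC
    rw [htr _ (hcarr C)]
    refine hL _ (hpre C) fun c hc => Or.inr fun h => ?_
    by_contra hle
    apply hcon
    refine ⟨h⁻¹ * c * h, (ℓ.mem_ball _ _).2 (not_lt.1 hle), ?_⟩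
    have := hpre C c hc h⁻¹
    rw [inv_inv] at this
    exact ConjClasses.mem_carrier_iff_mk_eq.1 this
  · intro g hg
    rw [htr _ (hcarr _)]
    refine hL _ (hpre _) fun c hc => Or.inl fun hfin => hg ?_
    have h1 : IsConj (c : G) g :=
      ConjClasses.mk_eq_mk_iff_isConj.1 (ConjClasses.mem_carrier_iff_mk_eq.1 hc)
    exact h1.isOfFinOrder (H.subtype.isOfFinOrder hfin)

end Crest.Agent.R192
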