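import Crest.Agent.R192.Defs

/-! Row 192: idempotents in Banach rings; word length on a finitely generated group. -/

set_option autoImplicit false

namespace Crest.Agent.R192.Red

open Crest.AlgebraR.L1
open scoped Pointwise

section banach
variable {R : Type} [NormedRing R] [CompleteSpace R]

/-- close idempotents have the same traces -/
theorem trace_eq_of_close {β : Type} (T : R → β) (hT : ∀ a b, T (a * b) = T (b * a)) {e f : R}
    (he : e * e = e) (hf : f * f = f) (h : ‖f - e‖ * ‖1 - 2 * e‖ < 1) : T f = T e := by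
  have h1 : ‖(f - e) * (1 - 2 * e)‖ < 1 := (norm_mul_le _ _).trans_lt h
  let u : Rˣ := Units.oneSub _ h1
  have hu : (u : R) = 1 - (f - e) * (1 - 2 * e) := rfl
  have hu' : (u : R) = 1 - e - f + 2 * (f * e) := by
    rw [hu]
    have : (f - e) * (1 - 2 * e) = f - 2 * (f * e) - e + 2 * (e * e) := by noncomm_ring
    rw [this, he]
    noncomm_ring
  have h2 : f * u = u * e := by
    rw [hu']
    have a1 : f * (1 - e - f + 2 * (f * e)) = f - f * e - f * f + 2 * ((f * f) * e) := by
      noncomm_ring
    have a2 : (1 - e - f + 2 * (f * e)) * e = e - e * e - f * e + 2 * (f * (e * e)) := by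
      noncomm_ring
    rw [a1, a2, he, hf]
    noncomm_ring
  calc T f = T (u * (e * ↑u⁻¹)) := by
        rw [← mul_assoc, ← h2, mul_assoc, Units.mul_inv, mul_one]
    _ = T (e * ↑u⁻¹ * u) := hT _ _
    _ = T e := by rw [mul_assoc, Units.inv_mul, mul_one]

/-- almost idempotents are close to idempotents -/
theorem exists_idem {x : R} {ε : ℝ} (hε : ε ≤ 1 / 40) (hx : ‖x * x - x‖ ≤ ε) :
    ∃ f : R, f * f = f ∧ ‖f - x‖ ≤ ‖2 * x - 1‖ * (2 * ε) := by
  set n := x * x - x with hn
  have hε0 : 0 ≤ ε := (norm_nonneg _).trans hx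
  let s : Set R := {t | ‖t‖ ≤ 2 * ε ∧ x * t = t * x}
  have hs : IsClosed s :=
    (isClosed_le continuous_norm continuous_const).inter
      (isClosed_eq (continuous_const.mul continuous_id) (continuous_id.mul continuous_const))
  let F : R → R := fun t => -n - t * t - (n * (t + t * t) + n * (t + t * t) + n * (t + t * t) +
    n * (t + t * t))
  have hxn : x * n = n * x := by rw [hn]; noncomm_ring
  have four : ∀ a : R, ‖a + a + a + a‖ ≤ 4 * ‖a‖ := by
    intro a
    have h1 := norm_add_le (a + a + a) a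
    have h2 := norm_add_le (a + a) a
    have h3 := norm_add_le a a
    linarith
  have hF : Set.MapsTo F s s := by
    rintro t ⟨ht, hc⟩
    have ht0 := norm_nonneg t
    have htt : ‖t * t‖ ≤ 4 * ε ^ 2 := (norm_mul_le _ _).trans (by nlinarith)
    constructor
    · have h1 : ‖n * (t + t * t)‖ ≤ ε * (2 * ε + 4 * ε ^ 2) :=
        (norm_mul_le _ _).trans (mul_le_mul hx ((norm_add_le _ _).trans (add_le_add ht htt))
          (norm_nonneg _) hε0)
      have h2 := four (n * (t + t * t))
      have h3 : ‖F t‖ ≤ ‖-n - t * t‖ + ‖n * (t + t * t) + n * (t + t * t) + n * (t + t * t) +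
        n * (t + t * t)‖ := norm_sub_le _ _
      have h4 : ‖-n - t * t‖ ≤ ‖n‖ + ‖t * t‖ := by
        have := norm_sub_le (-n) (t * t)
        rwa [norm_neg] at this
      have h5 : ε * ε ≤ ε * (1 / 40) := mul_le_mul_of_nonneg_left hε hε0
      have h6 : ε * (ε * ε) ≤ ε * (ε * (1 / 40)) := mul_le_mul_of_nonneg_left h5 hε0
      nlinarith
    · have c1 : Commute x n := hxn
      have c2 : Commute x t := hc
      have c3 : Commute x (n * (t + t * t)) := c1.mul_right (c2.add_right (c2.mul_right c2))
      exact ((c1.neg_right.sub_right (c2.mul_right c2)).sub_right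
        (((c3.add_right c3).add_right c3).add_right c3))
  have hL : ∀ t ∈ s, ∀ u ∈ s, ‖F t - F u‖ ≤ 1 / 2 * ‖t - u‖ := by
    rintro t ⟨ht, -⟩ u ⟨hu, -⟩
    have hd := norm_nonneg (t - u)
    have h1 : ‖t * t - u * u‖ ≤ 4 * ε * ‖t - u‖ := by
      have : t * t - u * u = t * (t - u) + (t - u) * u := by noncomm_ring
      rw [this]
      have a1 := norm_add_le (t * (t - u)) ((t - u) * u)
      have a2 := norm_mul_le t (t - u)
      have a3 := norm_mul_le (t - u) u
      have a4 := mul_le_mul_of_nonneg_right ht hd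
      have a5 := mul_le_mul_of_nonneg_left hu hd
      linarith
    have h2 : ‖n * ((t - u) + (t * t - u * u))‖ ≤ ε * (‖t - u‖ + 4 * ε * ‖t - u‖) :=
      (norm_mul_le _ _).trans (mul_le_mul hx ((norm_add_le _ _).trans (add_le_add le_rfl h1))
        (norm_nonneg _) hε0)
    have h3 := four (n * ((t - u) + (t * t - u * u)))
    have h4 : F t - F u = -(t * t - u * u) - (n * ((t - u) + (t * t - u * u)) +
        n * ((t - u) + (t * t - u * u)) + n * ((t - u) + (t * t - u * u)) +
        n * ((t - u) + (t * t - u * u))) := by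
      simp only [F]
      noncomm_ring
    rw [h4]
    have h5 := norm_sub_le (-(t * t - u * u)) (n * ((t - u) + (t * t - u * u)) +
        n * ((t - u) + (t * t - u * u)) + n * ((t - u) + (t * t - u * u)) +
        n * ((t - u) + (t * t - u * u)))
    rw [norm_neg] at h5
    have h6 : ε * ‖t - u‖ ≤ 1 / 40 * ‖t - u‖ := mul_le_mul_of_nonneg_right hε hd
    have h7 : ε * (ε * ‖t - u‖) ≤ 1 / 40 * (1 / 40 * ‖t - u‖) :=
      mul_le_mul hε h6 (mul_nonneg hε0 hd) (by norm_num)
    nlinarith
  have hc : ContractingWith (1 / 2) (hF.restrict F s s) := by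
    refine ⟨by norm_num, LipschitzWith.of_dist_le_mul fun t u => ?_⟩
    have := hL t t.2 u u.2
    rw [Subtype.dist_eq, Subtype.dist_eq, dist_eq_norm, dist_eq_norm]
    simpa using this
  have h0 : (0 : R) ∈ s := ⟨by simpa using hε0, by simp⟩
  obtain ⟨t, ⟨ht, hct⟩, hfix, -⟩ := hc.exists_fixedPoint' hs.isComplete hF h0 (edist_ne_top _ _)
  have hfix' : -n - t * t - (n * (t + t * t) + n * (t + t * t) + n * (t + t * t) +
    n * (t + t * t)) = t := hfix
  refine ⟨x + (2 * x - 1) * t, ?_, ?_⟩
  · have htx : t * x = x * t := hct.symm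
    have key : (x + (2 * x - 1) * t) * (x + (2 * x - 1) * t) - (x + (2 * x - 1) * t) =
        t - (-n - t * t - (n * (t + t * t) + n * (t + t * t) + n * (t + t * t) +
          n * (t + t * t))) := by
      have e1 : (x + (2 * x - 1) * t) * (x + (2 * x - 1) * t) =
          x * x + x * (2 * x - 1) * t + (2 * x - 1) * (t * x) +
            (2 * x - 1) * (2 * (t * x) - t) * t := by noncomm_ring
      rw [e1, htx, hn]
      noncomm_ring
    rw [hfix', sub_self] at key
    exact sub_eq_zero.1 key
  · rw [add_sub_cancel_left]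
    exact (norm_mul_le _ _).trans (mul_le_mul_of_nonneg_left ht (norm_nonneg _))

end banach

/-- word length -/
theorem exists_len (H : Type) [Group H] [hH : Group.FG H] : Nonempty (Len H) := by
  classical
  obtain ⟨S, hS⟩ := hH.out
  let T : Finset H := insert 1 (S ∪ S⁻¹)
  have h1 : (1 : H) ∈ T := Finset.mem_insert_self _ _
  have hinv : T⁻¹ = T := by
    ext g
    simp only [T, Finset.mem_inv', Finset.mem_insert, Finset.mem_union, inv_eq_one, inv_inv]
    tauto
  have hpinv : ∀ (g : H) (r : ℕ), g ∈ T ^ r → g⁻¹ ∈ T ^ r := by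
    intro g r ha
    rw [← hinv, inv_pow]
    exact Finset.inv_mem_inv ha
  have hex : ∀ g : H, ∃ r : ℕ, g ∈ T ^ r := by
    intro g
    have hg : g ∈ Subgroup.closure (S : Set H) := by rw [hS]; trivial
    induction hg using Subgroup.closure_induction with
    | mem x hx => exact ⟨1, by rw [pow_one]; simp [T, Finset.mem_coe.1 hx]⟩
    | one => exact ⟨1, by rw [pow_one]; exact h1⟩
    | mul x y _ _ hx hy =>
      obtain ⟨a, ha⟩ := hx
      obtain ⟨b, hb⟩ := hy
      exact ⟨a + b, by rw [pow_add]; exact Finset.mul_mem_mul ha hb⟩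
    | inv x _ hx =>
      obtain ⟨a, ha⟩ := hx
      exact ⟨a, hpinv _ _ ha⟩
  have hle : ∀ g r, g ∈ T ^ r ↔ Nat.find (hex g) ≤ r := by
    intro g r
    refine ⟨fun h => Nat.find_min' _ h, fun h => ?_⟩
    exact Finset.pow_subset_pow_right h1 h (Nat.find_spec (hex g))
  have hinv' : ∀ g, Nat.find (hex g⁻¹) ≤ Nat.find (hex g) := by
    intro g
    rw [← hle]
    exact hpinv _ _ (Nat.find_spec (hex g))
  refine ⟨⟨fun g => Nat.find (hex g), ?_, fun g => ?_, fun g h => ?_, T.card, fun r => T ^ r,
    fun r g => hle g r, fun r => ?_⟩⟩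
  · apply Nat.eq_zero_of_le_zero
    rw [← hle, pow_zero]
    exact Finset.one_mem_one
  · apply le_antisymm (hinv' g)
    have := hinv' g⁻¹
    simpa only [inv_inv] using this
  · rw [← hle, pow_add]
    exact Finset.mul_mem_mul (Nat.find_spec (hex g)) (Nat.find_spec (hex h))
  · refine Finset.card_pow_le.trans ?_
    rw [pow_mul]
    exact Nat.pow_le_pow_left Nat.lt_two_pow_self.le _

end Crest.Agent.R192.Red
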