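import Crest.Agent.R192.ReduceAux

/-! Row 192: the weighted ℓ¹ group algebra as a Banach ring. -/

set_option autoImplicit false

namespace Crest.Agent.R192.Red

open Crest.AlgebraR.L1

section conv
variable {G : Type} [Group G]

/-- the shear `(y, z) ↦ (y * z, y)` -/
def shear (G : Type) [Group G] : G × G ≃ G × G where
  toFun p := (p.1 * p.2, p.1)
  invFun p := (p.2, p.2⁻¹ * p.1)
  left_inv p := by simp
  right_inv p := by simp

theorem summable_shear {a b : G → ℝ} (ha : Summable a) (hb : Summable b) (ha0 : ∀ x, 0 ≤ a x)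
    (hb0 : ∀ x, 0 ≤ b x) : Summable fun p : G × G => a p.2 * b (p.2⁻¹ * p.1) := by
  rw [← (shear G).summable_iff]
  have := ha.mul_of_nonneg hb ha0 hb0
  refine this.congr fun p => ?_
  simp [shear]

theorem tsum_shear {a b : G → ℝ} (ha : Summable a) (hb : Summable b) (ha0 : ∀ x, 0 ≤ a x)
    (hb0 : ∀ x, 0 ≤ b x) :
    ∑' x, ∑' y, a y * b (y⁻¹ * x) = (∑' y, a y) * ∑' z, b z := by
  rw [← (summable_shear ha hb ha0 hb0).tsum_prod, ← (shear G).tsum_eq,
    ha.tsum_mul_tsum hb (ha.mul_of_nonneg hb ha0 hb0)]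
  refine tsum_congr fun p => ?_
  simp [shear]

variable {f g h : G → ℂ}

theorem summable_shear_norm (hf : Summable fun x => ‖f x‖) (hg : Summable fun x => ‖g x‖) :
    Summable fun p : G × G => ‖f p.2 * g (p.2⁻¹ * p.1)‖ := by
  simpa only [norm_mul] using summable_shear hf hg (fun _ => norm_nonneg _) fun _ => norm_nonneg _

theorem summable_conv_term (hf : Summable fun x => ‖f x‖) (hg : Summable fun x => ‖g x‖) (x : G) :
    Summable fun y => f y * g (y⁻¹ * x) :=
  ((summable_shear_norm hf hg).prod_factor x).of_norm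

theorem conv_add (hf : Summable fun x => ‖f x‖) (hg : Summable fun x => ‖g x‖)
    (hh : Summable fun x => ‖h x‖) (x : G) :
    conv f (fun x => g x + h x) x = conv f g x + conv f h x := by
  simp only [conv, mul_add]
  exact (summable_conv_term hf hg x).tsum_add (summable_conv_term hf hh x)

theorem add_conv (hf : Summable fun x => ‖f x‖) (hg : Summable fun x => ‖g x‖)
    (hh : Summable fun x => ‖h x‖) (x : G) :
    conv (fun x => f x + g x) h x = conv f h x + conv g h x := by
  simp only [conv, add_mul]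
  exact (summable_conv_term hf hh x).tsum_add (summable_conv_term hg hh x)

theorem conv_assoc (hf : Summable fun x => ‖f x‖) (hg : Summable fun x => ‖g x‖)
    (hh : Summable fun x => ‖h x‖) (x : G) :
    conv (conv f g) h x = conv f (conv g h) x := by
  have hb : ∀ y, ‖h y‖ ≤ ∑' y, ‖h y‖ := fun y => hh.le_tsum y fun _ _ => norm_nonneg _
  have hs : Summable fun p : G × G => f p.2 * g (p.2⁻¹ * p.1) * h (p.1⁻¹ * x) := by
    refine Summable.of_norm (((summable_shear_norm hf hg).mul_right (∑' y, ‖h y‖)).of_nonneg_of_le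
      (fun _ => norm_nonneg _) fun p => ?_)
    rw [norm_mul]
    exact mul_le_mul_of_nonneg_left (hb _) (norm_nonneg _)
  have h1 : conv (conv f g) h x = ∑' y, ∑' z, f z * g (z⁻¹ * y) * h (y⁻¹ * x) := by
    simp only [conv, tsum_mul_right]
  have h2 : conv f (conv g h) x = ∑' z, ∑' y, f z * g (z⁻¹ * y) * h (y⁻¹ * x) := by
    simp only [conv]
    refine tsum_congr fun z => ?_
    rw [← tsum_mul_left, ← (Equiv.mulLeft z).tsum_eq fun y => f z * g (z⁻¹ * y) * h (y⁻¹ * x)]
    refine tsum_congr fun u => ?_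
    simp [mul_assoc]
  rw [h1, h2]
  exact (Summable.tsum_comm (f := fun y z => f z * g (z⁻¹ * y) * h (y⁻¹ * x)) hs).symm

open Classical in
/-- the unit -/
noncomputable def delta (G : Type) [Group G] : G → ℂ := fun x => if x = 1 then 1 else 0

theorem delta_conv (f : G → ℂ) (x : G) : conv (delta G) f x = f x := by
  rw [conv, tsum_eq_single 1]
  · simp [delta]
  · intro y hy
    simp [delta, hy]

theorem conv_delta (f : G → ℂ) (x : G) : conv f (delta G) x = f x := by
  rw [conv, tsum_eq_single x]
  · simp [delta]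
  · intro y hy
    have : y⁻¹ * x ≠ 1 := fun h => hy (inv_mul_eq_one.1 h)
    simp [delta, this]

theorem tsum_ind_conv (hf : Summable fun x => ‖f x‖) (hg : Summable fun x => ‖g x‖) (C : Set G) :
    ∑' x : C, conv f g x =
      ∑' p : G × G, C.indicator (fun _ => (1 : ℂ)) (p.1 * p.2) * (f p.1 * g p.2) := by
  have hs : Summable fun p : G × G =>
      C.indicator (fun _ => (1 : ℂ)) p.1 * (f p.2 * g (p.2⁻¹ * p.1)) := by
    refine Summable.of_norm ((summable_shear_norm hf hg).of_nonneg_of_le
      (fun _ => norm_nonneg _) fun p => ?_)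
    rw [norm_mul]
    refine mul_le_of_le_one_left (norm_nonneg _) ?_
    by_cases h : p.1 ∈ C <;> simp [h]
  rw [tsum_subtype C (conv f g)]
  have h1 : ∀ x, C.indicator (conv f g) x =
      ∑' y, C.indicator (fun _ => (1 : ℂ)) x * (f y * g (y⁻¹ * x)) := by
    intro x
    by_cases h : x ∈ C <;> simp [h, conv]
  simp only [h1]
  rw [← hs.tsum_prod, ← (shear G).tsum_eq]
  refine tsum_congr fun p => ?_
  simp [shear]

theorem tsum_conv_comm (hf : Summable fun x => ‖f x‖) (hg : Summable fun x => ‖g x‖) {C : Set G}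
    (hC : ConjInv C) : ∑' x : C, conv f g x = ∑' x : C, conv g f x := by
  rw [tsum_ind_conv hf hg, tsum_ind_conv hg hf, ← (Equiv.prodComm G G).tsum_eq]
  refine tsum_congr fun p => ?_
  have key : ∀ a b : G, a * b ∈ C → b * a ∈ C := by
    intro a b h
    have := hC _ h b
    simpa [mul_assoc] using this
  simp only [Equiv.prodComm_apply, Prod.fst_swap, Prod.snd_swap]
  by_cases h : p.1 * p.2 ∈ C
  · simp [h, key _ _ h, mul_comm]
  · have h' : p.2 * p.1 ∉ C := fun h' => h (key _ _ h')
    simp [h, h']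

end conv

/-- submultiplicative weights -/
structure Wt (G : Type) [Group G] where
  w : G → ℝ
  one_le : ∀ x, 1 ≤ w x
  mul_le : ∀ x y, w (x * y) ≤ w x * w y

variable {G : Type} [Group G]

theorem Wt.pos (W : Wt G) (x : G) : 0 < W.w x := zero_lt_one.trans_le (W.one_le x)

theorem Wt.summable_norm (W : Wt G) {f : G → ℂ} (hf : Summable fun x => ‖f x‖ * W.w x) :
    Summable fun x => ‖f x‖ :=
  hf.of_nonneg_of_le (fun _ => norm_nonneg _) fun x =>
    le_mul_of_one_le_right (norm_nonneg _) (W.one_le x)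

theorem Wt.conv_le (W : Wt G) {f g : G → ℂ} (hf : Summable fun x => ‖f x‖ * W.w x)
    (hg : Summable fun x => ‖g x‖ * W.w x) (x : G) :
    ‖conv f g x‖ * W.w x ≤ ∑' y, ‖f y‖ * W.w y * (‖g (y⁻¹ * x)‖ * W.w (y⁻¹ * x)) := by
  have h0 : ∀ (f : G → ℂ) x, 0 ≤ ‖f x‖ * W.w x := fun f x =>
    mul_nonneg (norm_nonneg _) (W.pos x).le
  have h1 := (summable_shear hf hg (h0 f) (h0 g)).prod_factor x
  have h2 := (summable_shear_norm (W.summable_norm hf) (W.summable_norm hg)).prod_factor x
  refine (mul_le_mul_of_nonneg_right (norm_tsum_le_tsum_norm h2) (W.pos x).le).trans ?_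
  rw [← tsum_mul_right]
  refine (h2.mul_right _).tsum_le_tsum (fun y => ?_) h1
  have h3 := W.mul_le y (y⁻¹ * x)
  rw [mul_inv_cancel_left] at h3
  rw [norm_mul]
  calc ‖f y‖ * ‖g (y⁻¹ * x)‖ * W.w x ≤ ‖f y‖ * ‖g (y⁻¹ * x)‖ * (W.w y * W.w (y⁻¹ * x)) :=
        mul_le_mul_of_nonneg_left h3 (by positivity)
    _ = _ := by ring

theorem Wt.summable_conv (W : Wt G) {f g : G → ℂ} (hf : Summable fun x => ‖f x‖ * W.w x)
    (hg : Summable fun x => ‖g x‖ * W.w x) : Summable fun x => ‖conv f g x‖ * W.w x := by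
  have h0 : ∀ (f : G → ℂ) x, 0 ≤ ‖f x‖ * W.w x := fun f x =>
    mul_nonneg (norm_nonneg _) (W.pos x).le
  exact (summable_shear hf hg (h0 f) (h0 g)).prod.of_nonneg_of_le (h0 _) (W.conv_le hf hg)

theorem Wt.tsum_conv_le (W : Wt G) {f g : G → ℂ} (hf : Summable fun x => ‖f x‖ * W.w x)
    (hg : Summable fun x => ‖g x‖ * W.w x) :
    ∑' x, ‖conv f g x‖ * W.w x ≤ (∑' x, ‖f x‖ * W.w x) * ∑' x, ‖g x‖ * W.w x := by
  have h0 : ∀ (f : G → ℂ) x, 0 ≤ ‖f x‖ * W.w x := fun f x =>
    mul_nonneg (norm_nonneg _) (W.pos x).le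
  rw [← tsum_shear hf hg (h0 f) (h0 g)]
  exact (W.summable_conv hf hg).tsum_le_tsum (W.conv_le hf hg)
    (summable_shear hf hg (h0 f) (h0 g)).prod

/-- the weighted algebra -/
def WA (_W : Wt G) : Type := lp (fun _ : G => ℂ) 1

variable {W : Wt G}

noncomputable instance : NormedAddCommGroup (WA W) :=
  inferInstanceAs (NormedAddCommGroup (lp (fun _ : G => ℂ) 1))

instance : CompleteSpace (WA W) := inferInstanceAs (CompleteSpace (lp (fun _ : G => ℂ) 1))

/-- underlying sequence -/
def WA.toLp (a : WA W) : lp (fun _ : G => ℂ) 1 := a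

/-- coefficients -/
noncomputable def co (a : WA W) (x : G) : ℂ := a.toLp x / W.w x

/-- constructor -/
noncomputable def mk (f : G → ℂ) (hf : Summable fun x => ‖f x‖ * W.w x) : WA W :=
  (⟨fun x => f x * W.w x, memℓp_gen (by
    simpa [abs_of_pos (W.pos _)] using hf)⟩ : lp (fun _ : G => ℂ) 1)

theorem w_ne (x : G) : (W.w x : ℂ) ≠ 0 := by exact_mod_cast (W.pos x).ne'

theorem co_mk (f : G → ℂ) (hf : Summable fun x => ‖f x‖ * W.w x) : co (mk f hf) = f := by
  funext x
  exact mul_div_cancel_right₀ _ (w_ne x)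

theorem norm_co (a : WA W) (x : G) : ‖co a x‖ * W.w x = ‖a.toLp x‖ := by
  rw [co, norm_div, Complex.norm_real, Real.norm_of_nonneg (W.pos x).le,
    div_mul_cancel₀ _ (W.pos x).ne']

theorem hasSum_co (a : WA W) : HasSum (fun x => ‖co a x‖ * W.w x) ‖a‖ := by
  have := lp.hasSum_norm (p := 1) (by simp) a.toLp
  simp only [norm_co]
  show HasSum _ ‖a.toLp‖
  simpa using this

theorem summable_co (a : WA W) : Summable fun x => ‖co a x‖ * W.w x := (hasSum_co a).summable

theorem summable_co' (a : WA W) : Summable fun x => ‖co a x‖ := W.summable_norm (summable_co a)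

theorem norm_eq (a : WA W) : ‖a‖ = ∑' x, ‖co a x‖ * W.w x := (hasSum_co a).tsum_eq.symm

theorem ext_co {a b : WA W} (h : ∀ x, co a x = co b x) : a = b := by
  have : a.toLp = b.toLp := by
    ext x
    exact (div_left_inj' (w_ne x)).1 (h x)
  exact this

theorem co_add (a b : WA W) (x : G) : co (a + b) x = co a x + co b x := by
  have : (a + b).toLp x = a.toLp x + b.toLp x := by
    show (a.toLp + b.toLp) x = _
    rw [lp.coeFn_add]; rfl
  rw [co, this, add_div]; rfl

theorem co_zero (x : G) : co (0 : WA W) x = 0 := by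
  have : (0 : WA W).toLp x = 0 := by
    show (0 : lp (fun _ : G => ℂ) 1) x = _
    rw [lp.coeFn_zero]; rfl
  rw [co, this, zero_div]

/-- coefficient functionals -/
noncomputable def coH (x : G) : WA W →+ ℂ where
  toFun a := co a x
  map_zero' := co_zero x
  map_add' a b := co_add a b x

theorem co_sub (a b : WA W) (x : G) : co (a - b) x = co a x - co b x := (coH x).map_sub a b

theorem co_sum {ι : Type} (s : Finset ι) (a : ι → WA W) (x : G) :
    co (∑ i ∈ s, a i) x = ∑ i ∈ s, co (a i) x := map_sum (coH x) a s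

noncomputable instance : Mul (WA W) :=
  ⟨fun a b => mk (conv (co a) (co b)) (W.summable_conv (summable_co a) (summable_co b))⟩

noncomputable instance : One (WA W) :=
  ⟨mk (delta G) (summable_of_ne_finset_zero (s := {1}) fun x hx => by
    have : x ≠ 1 := by simpa using hx
    simp [delta, this])⟩

theorem co_mul (a b : WA W) : co (a * b) = conv (co a) (co b) := co_mk _ _

theorem co_one : co (1 : WA W) = delta G := co_mk _ _

noncomputable instance : Ring (WA W) :=
  { (inferInstance : AddCommGroup (WA W)), (inferInstance : Mul (WA W)),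
    (inferInstance : One (WA W)) with
    mul_assoc := fun a b c => ext_co fun x => by
      rw [co_mul, co_mul, co_mul, co_mul]
      exact conv_assoc (summable_co' a) (summable_co' b) (summable_co' c) x
    one_mul := fun a => ext_co fun x => by rw [co_mul, co_one, delta_conv]
    mul_one := fun a => ext_co fun x => by rw [co_mul, co_one, conv_delta]
    zero_mul := fun a => ext_co fun x => by simp [co_mul, conv, co_zero]
    mul_zero := fun a => ext_co fun x => by simp [co_mul, conv, co_zero]
    left_distrib := fun a b c => ext_co fun x => by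
      rw [co_add, co_mul, co_mul, co_mul, funext (co_add b c)]
      exact conv_add (summable_co' a) (summable_co' b) (summable_co' c) x
    right_distrib := fun a b c => ext_co fun x => by
      rw [co_add, co_mul, co_mul, co_mul, funext (co_add a b)]
      exact add_conv (summable_co' a) (summable_co' b) (summable_co' c) x }

noncomputable instance : NormedRing (WA W) :=
  { (inferInstance : NormedAddCommGroup (WA W)), (inferInstance : Ring (WA W)) with
    norm_mul_le := fun a b => by
      rw [norm_eq, norm_eq a, norm_eq b, co_mul]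
      exact W.tsum_conv_le (summable_co a) (summable_co b) }

end Crest.Agent.R192.Red
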