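import Crest.Agent.R192.Defs

/-! Row 192: coordinates on the simplex indexed by natural numbers. -/

set_option autoImplicit false

namespace Crest.Agent.R192.Sx

open Crest.AlgebraR.L1 MeasureTheory Matrix

variable {d : ℕ}

/-- `(0, y 0, …, y (d-1), c, c, …)` -/
def tl (c : ℝ) (y : V d) (k : ℕ) : ℝ :=
  if k = 0 then 0 else if h : k - 1 < d then y ⟨k - 1, h⟩ else c

@[simp] theorem tl_zero (c : ℝ) (y : V d) : tl c y 0 = 0 := by simp [tl]

theorem tl_succ (c : ℝ) (y : V d) (i : Fin d) : tl c y (i + 1) = y i := by simp [tl]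

theorem tl_succ' (c : ℝ) (y : V d) {k : ℕ} (h : k < d) : tl c y (k + 1) = y ⟨k, h⟩ :=
  tl_succ c y ⟨k, h⟩

theorem tl_big (c : ℝ) (y : V d) {k : ℕ} (h : d < k) : tl c y k = c := by
  rw [tl, if_neg (by omega), dif_neg (by omega)]

theorem continuous_tl (c : ℝ) (k : ℕ) : Continuous fun y : V d => tl c y k := by
  unfold tl
  split_ifs
  · exact continuous_const
  · exact continuous_apply _
  · exact continuous_const

theorem ext_gemb (y : V d) (i : Fin (d + 2)) : ext (gemb d y) i = tl 1 y i := by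
  rw [gemb_apply, ext]
  refine Fin.lastCases ?_ (fun i => ?_) i
  · rw [Fin.snoc_last, Fin.cons_zero, zero_add, tl_big _ _ (by simp)]
  · rw [Fin.snoc_castSucc]
    refine Fin.cases ?_ (fun j => ?_) i
    · simp
    · rw [Fin.cons_succ, Fin.val_castSucc, Fin.val_succ, tl_succ]

theorem mem_iff (y : V d) : y ∈ simplex d ↔ ∀ k ≤ d, tl 1 y k ≤ tl 1 y (k + 1) := by
  show Monotone (ext (gemb d y)) ↔ _
  rw [Fin.monotone_iff_le_succ]
  simp only [ext_gemb, Fin.val_castSucc, Fin.val_succ]
  exact ⟨fun h k hk => h ⟨k, by omega⟩, fun h i => h i (by omega)⟩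

theorem mono_of_mem {y : V d} (h : y ∈ simplex d) : Monotone (tl 1 y) := by
  refine monotone_nat_of_le_succ fun k => ?_
  by_cases hk : k ≤ d
  · exact (mem_iff y).1 h k hk
  · rw [tl_big _ _ (by omega), tl_big _ _ (by omega)]

theorem predAbove_val {n : ℕ} (p : Fin n) (j : Fin (n + 1)) :
    (p.predAbove j : ℕ) = if (p : ℕ) < j then (j : ℕ) - 1 else j := by
  unfold Fin.predAbove
  split_ifs with h1 h2 h2
  · simp
  · exact absurd h1 h2
  · exact absurd h2 h1
  · simp

theorem fy_apply (p : Fin (d + 2)) (y : V d) (j : Fin (d + 1)) :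
    fy p y j = tl 1 y (if (p : ℕ) < j + 1 then j else j + 1) := by
  rw [fy, Fin.tail, faceθ, ext_gemb, predAbove_val]
  simp

theorem cy_apply (y : V d) (j : Fin d) : cy y j = tl 1 y (j + 2) - tl 1 y 1 := by
  rw [cy, rotθ, rotθ, ext_gemb, ext_gemb]
  simp

theorem succAbove_val {n : ℕ} (i : Fin (n + 1)) (j : Fin n) :
    (i.succAbove j : ℕ) = if (j : ℕ) < i then (j : ℕ) else j + 1 := by
  unfold Fin.succAbove
  split_ifs with h1 h2 h2
  · simp
  · exact absurd h1 h2
  · exact absurd h2 h1
  · simp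

theorem tl_insertNth (i : Fin (d + 1)) (t : ℝ) (y : V d) (k : ℕ) :
    tl 1 (Fin.insertNth (α := fun _ => ℝ) i t y) k =
      if k ≤ i then tl 1 y k else if k = i + 1 then t else tl 1 y (k - 1) := by
  have hi := i.2
  rcases k with _ | k
  · simp
  by_cases hk : k < d + 1
  swap
  · rw [tl_big _ _ (by omega), if_neg (by omega), if_neg (by omega), tl_big _ _ (by omega)]
  rw [tl_succ' _ _ hk]
  rcases lt_trichotomy k i with h | h | h
  · have e : (⟨k, hk⟩ : Fin (d + 1)) = i.succAbove ⟨k, by omega⟩ := by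
      ext; simp [succAbove_val, h]
    rw [e, Fin.insertNth_apply_succAbove, if_pos (by omega), tl_succ']
  · have e : (⟨k, hk⟩ : Fin (d + 1)) = i := Fin.ext h
    rw [e, Fin.insertNth_apply_same, if_neg (by omega), if_pos (by omega)]
  · obtain ⟨m, rfl⟩ : ∃ m, k = m + 1 := ⟨k - 1, by omega⟩
    have e : (⟨m + 1, hk⟩ : Fin (d + 1)) = i.succAbove ⟨m, by omega⟩ := by
      ext
      rw [succAbove_val, if_neg (by simp; omega)]
    rw [e, Fin.insertNth_apply_succAbove, if_neg (by omega), if_neg (by omega),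
      Nat.add_sub_cancel, tl_succ']

theorem insertNth_mem (i : Fin (d + 1)) (t : ℝ) (y : V d) :
    Fin.insertNth (α := fun _ => ℝ) i t y ∈ simplex (d + 1) ↔
      y ∈ simplex d ∧ t ∈ Set.Icc (tl 1 y i) (tl 1 y (i + 1)) := by
  have hi := i.2
  simp only [mem_iff, tl_insertNth, Set.mem_Icc]
  constructor
  · intro h
    have h1 := h i (by omega)
    have h2 := h (i + 1) (by omega)
    rw [if_pos le_rfl, if_neg (by omega), if_pos rfl] at h1
    rw [if_neg (by omega), if_pos rfl, if_neg (by omega), if_neg (by omega),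
      Nat.add_sub_cancel] at h2
    refine ⟨fun k hk => ?_, h1, h2⟩
    rcases lt_trichotomy k i with h3 | h3 | h3
    · have := h k (by omega)
      rwa [if_pos (by omega), if_pos (by omega)] at this
    · rw [h3]
      exact h1.trans h2
    · have := h (k + 1) (by omega)
      rwa [if_neg (by omega), if_neg (by omega), if_neg (by omega), if_neg (by omega)] at this
  · rintro ⟨h, h1, h2⟩ k hk
    rcases lt_trichotomy k i with h3 | h3 | h3
    · rw [if_pos (by omega), if_pos (by omega)]
      exact h k (by omega)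
    · rw [if_pos (by omega), if_neg (by omega), if_pos (by omega), h3]
      exact h1
    · rw [if_neg (by omega), if_neg (show ¬ k + 1 ≤ i by omega),
        if_neg (show ¬ k + 1 = i + 1 by omega), Nat.add_sub_cancel]
      split_ifs with h4
      · rw [h4]
        exact h2
      · have := h (k - 1) (by omega)
        rwa [show k - 1 + 1 = k by omega] at this

theorem tl_one_eq (u : V d) (k : ℕ) : tl 1 u k = tl 0 u k + tl 1 (0 : V d) k := by
  unfold tl
  split_ifs <;> simp

theorem tl_ev (j : Fin d) (k : ℕ) : tl 0 (ev j) k = if k = j + 1 then 1 else 0 := by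
  have hj := j.2
  rcases k with _ | k
  · simp
  by_cases hk : k < d
  · rw [tl_succ' _ _ hk]
    simp [Pi.single_apply, Fin.ext_iff]
  · rw [tl_big _ _ (by omega), if_neg (by omega)]

theorem sum_tl_ev (u : V d) (k : ℕ) : ∑ j, tl 0 (ev j) k * u j = tl 0 u k := by
  rcases k with _ | k
  · simp
  by_cases hk : k < d
  · simp only [tl_succ' _ _ hk]
    simp [Pi.single_apply]
  · simp only [tl_big _ _ (show d < k + 1 by omega), zero_mul, Finset.sum_const_zero]

theorem omega_form (u v : V d) : u ⬝ᵥ omega d *ᵥ v =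
    ∑ k ∈ Finset.range (d + 1), (tl 0 u (k + 1) * tl 0 v k - tl 0 u k * tl 0 v (k + 1)) := by
  have key : ∀ u v : V d, ∑ i : Fin d, ∑ j : Fin d, u i * ((if (i : ℕ) = j + 1 then 1 else 0) * v j) =
      ∑ k ∈ Finset.range (d + 1), tl 0 u (k + 1) * tl 0 v k := by
    intro u v
    rw [Finset.sum_range_succ, tl_big _ _ (Nat.lt_succ_self d), zero_mul, add_zero,
      Finset.sum_range]
    refine Finset.sum_congr rfl fun i _ => ?_
    rw [tl_succ, ← Finset.mul_sum, ← sum_tl_ev v i]
    simp only [tl_ev]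
  simp only [dotProduct, mulVec, omega, of_apply, sub_mul, Finset.mul_sum, mul_sub,
    Finset.sum_sub_distrib]
  rw [key u v]
  congr 1
  simp only [mul_comm (tl 0 u _)]
  rw [← key v u, Finset.sum_comm]
  refine Finset.sum_congr rfl fun i _ => Finset.sum_congr rfl fun j _ => by ring

theorem entry_eq {m : ℕ} (A : Matrix (Fin m) (Fin d) ℝ) (B : Matrix (Fin m) (Fin m) ℝ)
    (a b : Fin d) : (Aᵀ * B * A) a b = (A *ᵥ ev a) ⬝ᵥ B *ᵥ (A *ᵥ ev b) := by
  rw [Matrix.mul_assoc, Matrix.mul_apply]
  rw [mulVec_mulVec]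
  simp only [mulVec_single_one, dotProduct, transpose_apply, col_apply]

theorem entry_eq' (B : Matrix (Fin d) (Fin d) ℝ) (a b : Fin d) :
    B a b = ev a ⬝ᵥ B *ᵥ ev b := by
  simp

theorem sum_face (h : ℕ → ℕ → ℝ) (h0 : ∀ a, h a a = 0) {p n : ℕ} (hp : p ≤ n) :
    ∑ k ∈ Finset.range (n + 1), h (if p < k + 1 then k else k + 1) (if p < k then k - 1 else k) =
      ∑ k ∈ Finset.range n, h (k + 1) k := by
  induction n, hp using Nat.le_induction with
  | base =>
    rw [Finset.sum_range_succ, if_pos (by omega), if_neg (by omega), h0, add_zero]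
    refine Finset.sum_congr rfl fun k hk => ?_
    have := Finset.mem_range.1 hk
    rw [if_neg (by omega), if_neg (by omega)]
  | succ n hn ih =>
    rw [Finset.sum_range_succ, ih, Finset.sum_range_succ, if_pos (by omega), if_pos (by omega),
      Nat.add_sub_cancel]

theorem sum_rot (a b : ℕ → ℝ) (m : ℕ) :
    ∑ k ∈ Finset.range m, ((a (k + 2) - a 1) * (b (k + 1) - b 1) -
      (a (k + 1) - a 1) * (b (k + 2) - b 1)) =
      ∑ k ∈ Finset.range m, (a (k + 2) * b (k + 1) - a (k + 1) * b (k + 2)) -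
        b 1 * (a (m + 1) - a 1) + a 1 * (b (m + 1) - b 1) := by
  induction m with
  | zero => simp
  | succ m ih =>
    rw [Finset.sum_range_succ, Finset.sum_range_succ, ih]
    ring

end Crest.Agent.R192.Sx
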