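import Crest.Agent.R192.Defs

/-! Row 192: parametric interval integrals and calculus of two-point functions. -/

set_option autoImplicit false

namespace Crest.Agent.R192

open Crest.AlgebraR.L1 MeasureTheory Matrix
open scoped ContDiff BoundedContinuousFunction

namespace TPAux

theorem hasFDerivAt_int {X F : Type} [NormedAddCommGroup X] [NormedSpace ℝ X]
    [FiniteDimensional ℝ X] [NormedAddCommGroup F] [NormedSpace ℝ F]
    {f : X × ℝ → F} (hf : ContDiff ℝ ∞ f) (a b : ℝ) (x : X) :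
    HasFDerivAt (fun x => ∫ s in a..b, f (x, s))
      (∫ s in a..b, (fderiv ℝ f (x, s)).comp (ContinuousLinearMap.inl ℝ X ℝ)) x := by
  have : ProperSpace X := FiniteDimensional.proper ℝ X
  have hc : Continuous f := hf.continuous
  have hd : Continuous fun p : X × ℝ => (fderiv ℝ f p).comp (ContinuousLinearMap.inl ℝ X ℝ) :=
    (hf.continuous_fderiv (by simp)).clm_comp continuous_const
  obtain ⟨C, hC⟩ := ((isCompact_closedBall x 1).prod
    (isCompact_uIcc (a := a) (b := b))).exists_bound_of_continuousOn hd.continuousOn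
  refine intervalIntegral.hasFDerivAt_integral_of_dominated_of_fderiv_le
    (F := fun x s => f (x, s))
    (F' := fun x s => (fderiv ℝ f (x, s)).comp (ContinuousLinearMap.inl ℝ X ℝ))
    (bound := fun _ => C) (Metric.closedBall_mem_nhds x one_pos) ?_ ?_ ?_ ?_ ?_ ?_
  · exact Filter.Eventually.of_forall fun y =>
      (hc.comp (continuous_const.prodMk continuous_id)).aestronglyMeasurable
  · exact (hc.comp (continuous_const.prodMk continuous_id)).intervalIntegrable _ _
  · exact (hd.comp (continuous_const.prodMk continuous_id)).aestronglyMeasurable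
  · exact Filter.Eventually.of_forall fun t ht y hy => hC (y, t) ⟨hy, Set.uIoc_subset_uIcc ht⟩
  · exact intervalIntegrable_const
  · refine Filter.Eventually.of_forall fun t _ y _ => ?_
    exact ((hf.differentiable (by simp)) (y, t)).hasFDerivAt.comp y (hasFDerivAt_prodMk_left y t)

theorem contDiff_nat {X : Type} [NormedAddCommGroup X] [NormedSpace ℝ X]
    [FiniteDimensional ℝ X] (a b : ℝ) (m : ℕ) :
    ∀ (F : Type) [NormedAddCommGroup F] [NormedSpace ℝ F] (f : X × ℝ → F), ContDiff ℝ ∞ f →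
      ContDiff ℝ m fun x => ∫ s in a..b, f (x, s) := by
  induction m with
  | zero =>
    intro F _ _ f hf
    rw [Nat.cast_zero, contDiff_zero]
    exact intervalIntegral.continuous_parametric_intervalIntegral_of_continuous'
      (f := fun x s => f (x, s)) hf.continuous a b
  | succ m ih =>
    intro F _ _ f hf
    rw [Nat.cast_succ, contDiff_succ_iff_hasFDerivAt]
    refine ⟨_, ih (X →L[ℝ] F)
      (fun p => (fderiv ℝ f p).comp (ContinuousLinearMap.inl ℝ X ℝ)) ?_,
      fun x => hasFDerivAt_int hf a b x⟩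
    exact (contDiff_infty_iff_fderiv.1 hf).2.clm_comp contDiff_const

/-- directional derivatives only depend on the restriction to the line -/
theorem fderiv_line {X Y F : Type} [NormedAddCommGroup X] [NormedSpace ℝ X]
    [NormedAddCommGroup Y] [NormedSpace ℝ Y] [NormedAddCommGroup F] [NormedSpace ℝ F]
    {f : X → F} {g : Y → F} {x u : X} {y v : Y} (hf : DifferentiableAt ℝ f x)
    (hg : DifferentiableAt ℝ g y) (h : ∀ t : ℝ, f (x + t • u) = g (y + t • v)) :
    fderiv ℝ f x u = fderiv ℝ g y v := by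
  rw [← hf.lineDeriv_eq_fderiv, ← hg.lineDeriv_eq_fderiv, lineDeriv, lineDeriv]
  exact congrArg (fun k : ℝ → F => deriv k 0) (funext h)

end TPAux

open TPAux

theorem contDiff_intervalIntegral {X F : Type} [NormedAddCommGroup X] [NormedSpace ℝ X]
    [FiniteDimensional ℝ X] [NormedAddCommGroup F] [NormedSpace ℝ F] [CompleteSpace F]
    {f : X × ℝ → F} (hf : ContDiff ℝ ∞ f) (a b : ℝ) :
    ContDiff ℝ ∞ fun x => ∫ s in a..b, f (x, s) :=
  contDiff_infty.2 fun m => contDiff_nat a b m F f hf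

theorem fderiv_intervalIntegral {X F : Type} [NormedAddCommGroup X] [NormedSpace ℝ X]
    [FiniteDimensional ℝ X] [NormedAddCommGroup F] [NormedSpace ℝ F] [CompleteSpace F]
    {f : X × ℝ → F} (hf : ContDiff ℝ ∞ f) (a b : ℝ) (x u : X) :
    fderiv ℝ (fun x => ∫ s in a..b, f (x, s)) x u = ∫ s in a..b, fderiv ℝ f (x, s) (u, 0) := by
  have hd : Continuous fun p : X × ℝ => (fderiv ℝ f p).comp (ContinuousLinearMap.inl ℝ X ℝ) :=
    (hf.continuous_fderiv (by simp)).clm_comp continuous_const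
  have hi : IntervalIntegrable
      (fun s => (fderiv ℝ f (x, s)).comp (ContinuousLinearMap.inl ℝ X ℝ)) volume a b :=
    (hd.comp (continuous_const.prodMk continuous_id)).intervalIntegrable _ _
  rw [(hasFDerivAt_int hf a b x).fderiv, ContinuousLinearMap.intervalIntegral_apply hi]
  rfl

namespace TPAux

theorem fderiv_double {X : Type} [NormedAddCommGroup X] [NormedSpace ℝ X]
    [FiniteDimensional ℝ X] {k : (X × ℝ) × ℝ → ℝ} (hk : ContDiff ℝ ∞ k) (δ : ℝ) (x u : X) :
    fderiv ℝ (fun x => ∫ φ in (0 : ℝ)..1, ∫ s in (0 : ℝ)..δ, k ((x, φ), s)) x u =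
      ∫ φ in (0 : ℝ)..1, ∫ s in (0 : ℝ)..δ, fderiv ℝ k ((x, φ), s) ((u, 0), 0) := by
  have h1 := fderiv_intervalIntegral (contDiff_intervalIntegral hk 0 δ) 0 1 x u
  rw [h1]
  congr 1
  funext φ
  exact fderiv_intervalIntegral hk 0 δ (x, φ) (u, 0)

variable {n : ℕ} {h : (V (n + 1) × ℝ) × (V (n + 1) × ℝ) → ℝ}

theorem fderiv_snd (hh : ContDiff ℝ ∞ h) (p q w : V (n + 1) × ℝ) :
    fderiv ℝ (fun q => h (p, q)) q w = fderiv ℝ h (p, q) (0, w) := by
  have hd := hh.differentiable (by simp)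
  refine fderiv_line ((hd _).comp q (by fun_prop)) (hd _) fun t => ?_
  simp

theorem fderiv_tp (hh : ContDiff ℝ ∞ h) (δ : ℝ) (θ₁ θ u : V (n + 1)) :
    fderiv ℝ (tp h δ θ₁) θ u = ∫ φ in (0 : ℝ)..1, ∫ s in (0 : ℝ)..δ,
      fderiv ℝ (fun q => h ((θ₁, φ), q)) (θ, φ + s) (u, 0) := by
  have hd := hh.differentiable (by simp)
  have hk : ContDiff ℝ ∞ fun r : (V (n + 1) × ℝ) × ℝ =>
      h ((θ₁, r.1.2), (r.1.1, r.1.2 + r.2)) := hh.comp (by fun_prop)
  have h1 := fderiv_double hk δ θ u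
  refine Eq.trans h1 ?_
  congr 1
  funext φ
  congr 1
  funext s
  refine fderiv_line (hk.differentiable (by simp) _) ((hd _).comp _ (by fun_prop)) fun t => ?_
  simp

end TPAux

variable {n : ℕ} {h : (V (n + 1) × ℝ) × (V (n + 1) × ℝ) → ℝ}

theorem tp_smooth (hh : ContDiff ℝ ∞ h) (δ : ℝ) : Smooth2 (tp h δ) := by
  have hk : ContDiff ℝ ∞ fun r : ((V (n + 1) × V (n + 1)) × ℝ) × ℝ =>
      h ((r.1.1.1, r.1.2), (r.1.1.2, r.1.2 + r.2)) := hh.comp (by fun_prop)
  exact contDiff_intervalIntegral (contDiff_intervalIntegral hk 0 δ) 0 1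

theorem beta_tp (hh : ContDiff ℝ ∞ h) (δ : ℝ) (θ u : V (n + 1)) :
    beta (tp h δ) θ u = ∫ φ in (0 : ℝ)..1, ∫ s in (0 : ℝ)..δ,
      fderiv ℝ (fun q => h ((θ, φ), q)) (θ, φ + s) (u, 0) :=
  fderiv_tp hh δ θ θ u

theorem hess_tp (hh : ContDiff ℝ ∞ h) (δ : ℝ) (θ u v : V (n + 1)) :
    hess (tp h δ) θ u v = ∫ φ in (0 : ℝ)..1, ∫ s in (0 : ℝ)..δ,
      fderiv ℝ (fun p => fderiv ℝ (fun q => h (p, q)) (θ, φ + s) (v, 0)) (θ, φ) (u, 0) := by
  have hD : ContDiff ℝ ∞ fun r : (V (n + 1) × ℝ) × (V (n + 1) × ℝ) =>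
      fderiv ℝ h r (0, (v, 0)) :=
    (contDiff_infty_iff_fderiv.1 hh).2.clm_apply contDiff_const
  have hk : ContDiff ℝ ∞ fun r : (V (n + 1) × ℝ) × ℝ =>
      fderiv ℝ h (r.1, (θ, r.1.2 + r.2)) (0, (v, 0)) := hD.comp (by fun_prop)
  have e : (fun θ₁ => fderiv ℝ (tp h δ θ₁) θ v) = fun θ₁ => ∫ φ in (0 : ℝ)..1,
      ∫ s in (0 : ℝ)..δ, fderiv ℝ h ((θ₁, φ), (θ, φ + s)) (0, (v, 0)) := by
    funext θ₁
    rw [fderiv_tp hh]
    simp only [fderiv_snd hh]
  have h1 := fderiv_double hk δ θ u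
  unfold hess
  rw [e]
  refine Eq.trans h1 ?_
  congr 1
  funext φ
  congr 1
  funext s
  simp only [fderiv_snd hh]
  have hg : ContDiff ℝ ∞ fun p : V (n + 1) × ℝ =>
      fderiv ℝ h (p, (θ, φ + s)) (0, (v, 0)) := hD.comp (by fun_prop)
  refine fderiv_line (hk.differentiable (by simp) _) (hg.differentiable (by simp) _) fun t => ?_
  simp

/-- time translation and periodicity -/
structure TimeInv (h : (V (n + 1) × ℝ) × (V (n + 1) × ℝ) → ℝ) : Prop where
  rot1 : ∀ θ φ (t : ℝ) q, h ((fun i => θ i + t, φ + t), q) = h ((θ, φ), q)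
  rot2 : ∀ p θ φ (t : ℝ), h (p, (fun i => θ i + t, φ + t)) = h (p, (θ, φ))
  per : ∀ θ φ θ' φ', h ((θ, φ + 1), (θ', φ' + 1)) = h ((θ, φ), (θ', φ'))

theorem tp_rotInv (hi : TimeInv h) (δ : ℝ) : RotInv (tp h δ) := by
  intro θ θ' t
  set G : ℝ → ℝ := fun φ => ∫ s in (0 : ℝ)..δ, h ((θ, φ), (θ', φ + s)) with hG
  have hp : Function.Periodic G 1 := by
    intro φ
    simp only [hG]
    congr 1
    funext s
    rw [← hi.per θ φ θ' (φ + s)]
    congr 3
    ring
  have e : tp h δ (fun i => θ i + t) (fun i => θ' i + t) = ∫ φ in (0 : ℝ)..1, G (φ - t) := by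
    unfold tp
    congr 1
    funext φ
    simp only [hG]
    congr 1
    funext s
    rw [← hi.rot1 θ (φ - t) t, ← hi.rot2 _ θ' (φ - t + s) t]
    congr 3 <;> ring
  rw [e, intervalIntegral.integral_comp_sub_right]
  have := hp.intervalIntegral_add_eq (0 - t) 0
  rw [show (0 : ℝ) - t + 1 = 1 - t by ring, zero_add] at this
  exact this

theorem UU_tp (hh : ContDiff ℝ ∞ h) (hi : TimeInv h) (δ : ℝ) (θ : V (n + 1)) :
    UU (tp h δ) θ = ∫ φ in (0 : ℝ)..1, (h ((θ, φ), (θ, φ)) - h ((θ, φ), (θ, φ + δ))) := by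
  unfold UU
  rw [beta_tp hh]
  congr 1
  funext φ
  set g : V (n + 1) × ℝ → ℝ := fun q => h ((θ, φ), q) with hg
  have hgs : ContDiff ℝ ∞ g := hh.comp (by fun_prop)
  have hgd := hgs.differentiable (by simp)
  have h0 : ∀ ψ : ℝ, fderiv ℝ g (θ, ψ) (1, 1) = 0 := by
    intro ψ
    have := fderiv_line (g := fun _ : ℝ => g (θ, ψ)) (y := 0) (v := 0) (u := (1, 1))
      (hgd (θ, ψ)) (differentiableAt_const _) fun t => by
        have := hi.rot2 (θ, φ) θ ψ t
        simp only [hg]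
        rw [← this]
        congr 2
        ext i <;> simp
    rw [this]; simp
  have h1 : ∀ ψ : ℝ, fderiv ℝ g (θ, ψ) (1, 0) = -fderiv ℝ g (θ, ψ) (0, 1) := by
    intro ψ
    have := h0 ψ
    rw [show ((1, 1) : V (n + 1) × ℝ) = (1, 0) + (0, 1) by simp, map_add] at this
    linarith
  have h2 : ∀ s : ℝ, HasDerivAt (fun s => -g (θ, φ + s)) (-fderiv ℝ g (θ, φ + s) (0, 1)) s := by
    intro s
    have hl : HasDerivAt (fun s : ℝ => ((θ, φ + s) : V (n + 1) × ℝ)) (0, 1) s :=
      (hasDerivAt_const s θ).prodMk ((hasDerivAt_id s).const_add φ)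
    exact ((hgd _).hasFDerivAt.comp_hasDerivAt s hl).neg
  have hc : Continuous fun s : ℝ => -fderiv ℝ g (θ, φ + s) (0, 1) :=
    (((hgs.continuous_fderiv (by simp)).comp (by fun_prop)).clm_apply continuous_const).neg
  simp only [h1]
  rw [intervalIntegral.integral_eq_sub_of_hasDerivAt (fun s _ => h2 s)
    (hc.intervalIntegrable _ _)]
  simp only [hg, add_zero]
  ring

end Crest.Agent.R192
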