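import Crest.Agent.R192.Defs

/-! Row 192: linearity of `beta`, `hess`; the standard two-point function. -/

set_option autoImplicit false

namespace Crest.Agent.R192

open Crest.AlgebraR.L1 MeasureTheory Matrix
open scoped ContDiff BoundedContinuousFunction

variable {n : ℕ}

namespace TP

/-- uncurried two-point function -/
def unc (W : TwoPt n) : V (n + 1) × V (n + 1) → ℝ := fun p => W p.1 p.2

theorem cd {W : TwoPt n} (h : Smooth2 W) : ContDiff ℝ ∞ (unc W) := h

theorem diff {W : TwoPt n} (h : Smooth2 W) : Differentiable ℝ (unc W) :=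
  (cd h).differentiable (by simp)

theorem cd1 {W : TwoPt n} (h : Smooth2 W) : ContDiff ℝ ∞ (fderiv ℝ (unc W)) :=
  (cd h).fderiv_right (m := ∞) (by simp)

theorem diff1 {W : TwoPt n} (h : Smooth2 W) : Differentiable ℝ (fderiv ℝ (unc W)) :=
  (cd1 h).differentiable (by simp)

theorem hasFDerivAt_snd {W : TwoPt n} (h : Smooth2 W) (θ₁ θ₂ : V (n + 1)) :
    HasFDerivAt (W θ₁) ((fderiv ℝ (unc W) (θ₁, θ₂)).comp
      (ContinuousLinearMap.inr ℝ (V (n + 1)) (V (n + 1)))) θ₂ :=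
  (diff h (θ₁, θ₂)).hasFDerivAt.comp θ₂ (hasFDerivAt_prodMk_right θ₁ θ₂)

theorem fderiv_snd {W : TwoPt n} (h : Smooth2 W) (θ₁ θ₂ v : V (n + 1)) :
    fderiv ℝ (W θ₁) θ₂ v = fderiv ℝ (unc W) (θ₁, θ₂) (0, v) := by
  rw [(hasFDerivAt_snd h θ₁ θ₂).fderiv]
  simp

theorem diff_snd {W : TwoPt n} (h : Smooth2 W) (θ₁ θ₂ : V (n + 1)) :
    DifferentiableAt ℝ (W θ₁) θ₂ := (hasFDerivAt_snd h θ₁ θ₂).differentiableAt

theorem hasFDerivAt_mixed {W : TwoPt n} (h : Smooth2 W) (θ₁ θ₂ v : V (n + 1)) :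
    HasFDerivAt (fun θ => fderiv ℝ (W θ) θ₂ v)
      (((fderiv ℝ (fderiv ℝ (unc W)) (θ₁, θ₂)).flip (0, v)).comp
        (ContinuousLinearMap.inl ℝ (V (n + 1)) (V (n + 1)))) θ₁ := by
  have h1 : HasFDerivAt (fun p => fderiv ℝ (unc W) p (0, v))
      ((fderiv ℝ (fderiv ℝ (unc W)) (θ₁, θ₂)).flip (0, v)) (θ₁, θ₂) := by
    have := (diff1 h (θ₁, θ₂)).hasFDerivAt.clm_apply
      (hasFDerivAt_const ((0, v) : V (n + 1) × V (n + 1)) (θ₁, θ₂))
    simpa using this
  have h2 := HasFDerivAt.comp (f := fun θ : V (n + 1) => (θ, θ₂)) θ₁ h1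
    (hasFDerivAt_prodMk_left θ₁ θ₂)
  have : (fun θ => fderiv ℝ (W θ) θ₂ v) = fun θ => fderiv ℝ (unc W) (θ, θ₂) (0, v) := by
    funext θ
    exact fderiv_snd h θ θ₂ v
  rw [this]
  exact h2

theorem diff_mixed {W : TwoPt n} (h : Smooth2 W) (θ₁ θ₂ v : V (n + 1)) :
    DifferentiableAt ℝ (fun θ => fderiv ℝ (W θ) θ₂ v) θ₁ :=
  (hasFDerivAt_mixed h θ₁ θ₂ v).differentiableAt

theorem hess_eq {W : TwoPt n} (h : Smooth2 W) (θ u v : V (n + 1)) :
    hess W θ u v = fderiv ℝ (fderiv ℝ (unc W)) (θ, θ) (u, 0) (0, v) := by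
  unfold hess
  rw [(hasFDerivAt_mixed h θ θ v).fderiv]
  simp

theorem beta_eq {W : TwoPt n} (h : Smooth2 W) :
    beta W = fun θ => (fderiv ℝ (unc W) (θ, θ)).comp
      (ContinuousLinearMap.inr ℝ (V (n + 1)) (V (n + 1))) := by
  funext θ
  exact (hasFDerivAt_snd h θ θ).fderiv

theorem symm2 {W : TwoPt n} (h : Smooth2 W) (p a b : V (n + 1) × V (n + 1)) :
    fderiv ℝ (fderiv ℝ (unc W)) p a b = fderiv ℝ (fderiv ℝ (unc W)) p b a :=
  ((cd h).contDiffAt.isSymmSndFDerivAt (by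
    rw [minSmoothness_of_isRCLikeNormedField]
    exact WithTop.coe_le_coe.2 le_top)).eq a b

theorem fderiv_beta {W : TwoPt n} (h : Smooth2 W) (θ u v : V (n + 1)) :
    fderiv ℝ (beta W) θ u v = fderiv ℝ (fderiv ℝ (unc W)) (θ, θ) (u, u) (0, v) := by
  rw [beta_eq h]
  have h1 : HasFDerivAt (fun θ : V (n + 1) => fderiv ℝ (unc W) (θ, θ))
      ((fderiv ℝ (fderiv ℝ (unc W)) (θ, θ)).comp
        ((ContinuousLinearMap.id ℝ (V (n + 1))).prod (ContinuousLinearMap.id ℝ (V (n + 1))))) θ :=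
    HasFDerivAt.comp (f := fun θ : V (n + 1) => (θ, θ)) θ (diff1 h (θ, θ)).hasFDerivAt
      ((hasFDerivAt_id θ).prodMk (hasFDerivAt_id θ))
  have h2 := h1.clm_comp
    (hasFDerivAt_const (ContinuousLinearMap.inr ℝ (V (n + 1)) (V (n + 1))) θ)
  rw [h2.fderiv]
  simp

theorem rot1 {W : TwoPt n} (h : Smooth2 W) (hr : RotInv W) (p : V (n + 1) × V (n + 1)) :
    fderiv ℝ (unc W) p (1, 1) = 0 := by
  have h1 : HasDerivAt (fun t : ℝ => p + t • ((1, 1) : V (n + 1) × V (n + 1))) (1, 1) 0 := by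
    simpa using ((hasDerivAt_id (0 : ℝ)).smul_const
      ((1, 1) : V (n + 1) × V (n + 1))).const_add p
  have h2 : HasFDerivAt (unc W) (fderiv ℝ (unc W) p)
      (p + (0 : ℝ) • ((1, 1) : V (n + 1) × V (n + 1))) := by
    simpa using (diff h p).hasFDerivAt
  have h3 := h2.comp_hasDerivAt (0 : ℝ) h1
  have h4 : (unc W ∘ fun t : ℝ => p + t • ((1, 1) : V (n + 1) × V (n + 1))) =
      fun _ => unc W p := by
    funext t
    have := hr p.1 p.2 t
    simp only [Function.comp, unc]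
    rw [← this]
    congr 1 <;> funext i <;> simp
  rw [h4] at h3
  exact h3.unique (hasDerivAt_const _ _)

theorem rot2 {W : TwoPt n} (h : Smooth2 W) (hr : RotInv W) (p a : V (n + 1) × V (n + 1)) :
    fderiv ℝ (fderiv ℝ (unc W)) p a (1, 1) = 0 := by
  have h1 : HasFDerivAt (fun p => fderiv ℝ (unc W) p (1, 1))
      ((fderiv ℝ (fderiv ℝ (unc W)) p).flip (1, 1)) p := by
    have := (diff1 h p).hasFDerivAt.clm_apply
      (hasFDerivAt_const ((1, 1) : V (n + 1) × V (n + 1)) p)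
    simpa using this
  have h2 : (fun p => fderiv ℝ (unc W) p (1, 1)) = fun _ => (0 : ℝ) := funext (rot1 h hr)
  rw [h2] at h1
  have h3 := h1.unique (hasFDerivAt_const (0 : ℝ) p)
  have := congrArg (fun L => L a) h3
  simpa using this

end TP

open TP

theorem Smooth2.add {W W' : TwoPt n} (h : Smooth2 W) (h' : Smooth2 W') :
    Smooth2 fun θ θ' => W θ θ' + W' θ θ' :=
  ContDiff.add h h'

theorem Smooth2.fmul {W : TwoPt n} (h : Smooth2 W) {f : V (n + 1) → ℝ} (hf : ContDiff ℝ ∞ f) :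
    Smooth2 fun θ θ' => f θ * W θ θ' :=
  ContDiff.mul (hf.comp contDiff_fst) h

theorem Smooth2.sum {κ : Type} (s : Finset κ) {W : κ → TwoPt n} (h : ∀ a ∈ s, Smooth2 (W a)) :
    Smooth2 fun θ θ' => ∑ a ∈ s, W a θ θ' :=
  ContDiff.sum (f := fun a (p : V (n + 1) × V (n + 1)) => W a p.1 p.2) h

theorem Smooth2.contDiff_beta {W : TwoPt n} (h : Smooth2 W) : ContDiff ℝ ∞ (beta W) := by
  rw [beta_eq h]
  exact ((cd1 h).comp (contDiff_id.prodMk contDiff_id)).clm_comp contDiff_const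

theorem Smooth2.contDiff_UU {W : TwoPt n} (h : Smooth2 W) : ContDiff ℝ ∞ (UU W) :=
  h.contDiff_beta.clm_apply contDiff_const

theorem TP.fderiv_add {W W' : TwoPt n} (h : Smooth2 W) (h' : Smooth2 W') (θ₁ θ u : V (n + 1)) :
    fderiv ℝ (fun θ' => W θ₁ θ' + W' θ₁ θ') θ u = fderiv ℝ (W θ₁) θ u + fderiv ℝ (W' θ₁) θ u := by
  rw [fderiv_fun_add (diff_snd h θ₁ θ) (diff_snd h' θ₁ θ)]
  rfl

theorem TP.fderiv_fmul {W : TwoPt n} (h : Smooth2 W) (f : V (n + 1) → ℝ) (θ₁ θ u : V (n + 1)) :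
    fderiv ℝ (fun θ' => f θ₁ * W θ₁ θ') θ u = f θ₁ * fderiv ℝ (W θ₁) θ u := by
  rw [fderiv_const_mul (diff_snd h θ₁ θ)]
  rfl

theorem TP.fderiv_sum {κ : Type} (s : Finset κ) {W : κ → TwoPt n} (h : ∀ a ∈ s, Smooth2 (W a))
    (θ₁ θ u : V (n + 1)) :
    fderiv ℝ (fun θ' => ∑ a ∈ s, W a θ₁ θ') θ u = ∑ a ∈ s, fderiv ℝ (W a θ₁) θ u := by
  rw [fderiv_fun_sum (fun a ha => diff_snd (h a ha) θ₁ θ)]
  simp

theorem beta_add {W W' : TwoPt n} (h : Smooth2 W) (h' : Smooth2 W') (θ u : V (n + 1)) :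
    beta (fun θ θ' => W θ θ' + W' θ θ') θ u = beta W θ u + beta W' θ u :=
  TP.fderiv_add h h' θ θ u

theorem beta_fmul {W : TwoPt n} (h : Smooth2 W) (f : V (n + 1) → ℝ) (θ u : V (n + 1)) :
    beta (fun θ θ' => f θ * W θ θ') θ u = f θ * beta W θ u :=
  TP.fderiv_fmul h f θ θ u

theorem beta_sum {κ : Type} (s : Finset κ) {W : κ → TwoPt n} (h : ∀ a ∈ s, Smooth2 (W a))
    (θ u : V (n + 1)) : beta (fun θ θ' => ∑ a ∈ s, W a θ θ') θ u = ∑ a ∈ s, beta (W a) θ u :=
  TP.fderiv_sum s h θ θ u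

theorem hess_add {W W' : TwoPt n} (h : Smooth2 W) (h' : Smooth2 W') (θ u v : V (n + 1)) :
    hess (fun θ θ' => W θ θ' + W' θ θ') θ u v = hess W θ u v + hess W' θ u v := by
  unfold hess
  simp only [TP.fderiv_add h h']
  rw [fderiv_fun_add (diff_mixed h θ θ v) (diff_mixed h' θ θ v)]
  rfl

theorem hess_fmul {W : TwoPt n} (h : Smooth2 W) {f : V (n + 1) → ℝ} (hf : ContDiff ℝ ∞ f)
    (θ u v : V (n + 1)) : hess (fun θ θ' => f θ * W θ θ') θ u v =
      fderiv ℝ f θ u * beta W θ v + f θ * hess W θ u v := by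
  unfold hess beta
  simp only [TP.fderiv_fmul h f]
  rw [fderiv_fun_mul (hf.differentiable (by simp) θ) (diff_mixed h θ θ v)]
  simp only [_root_.add_apply, _root_.smul_apply, smul_eq_mul]
  ring

theorem hess_sum {κ : Type} (s : Finset κ) {W : κ → TwoPt n} (h : ∀ a ∈ s, Smooth2 (W a))
    (θ u v : V (n + 1)) :
    hess (fun θ θ' => ∑ a ∈ s, W a θ θ') θ u v = ∑ a ∈ s, hess (W a) θ u v := by
  unfold hess
  simp only [TP.fderiv_sum s h]
  rw [fderiv_fun_sum (fun a ha => diff_mixed (h a ha) θ θ v)]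
  simp

/-- `hess` is bilinear -/
theorem hess_eq_sum {W : TwoPt n} (h : Smooth2 W) (θ u v : V (n + 1)) :
    hess W θ u v = ∑ i, ∑ j, u i * v j * hess W θ (ev i) (ev j) := by
  simp only [hess_eq h]
  have hu : ((u, 0) : V (n + 1) × V (n + 1)) = ∑ i, u i • ((ev i, 0) : V (n + 1) × V (n + 1)) := by
    refine Prod.ext ?_ ?_
    · simp only [Prod.fst_sum, Prod.smul_fst]
      funext k
      simp [Finset.sum_apply, Pi.single_apply]
    · simp [Prod.snd_sum]
  have hv : ((0, v) : V (n + 1) × V (n + 1)) = ∑ i, v i • ((0, ev i) : V (n + 1) × V (n + 1)) := by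
    refine Prod.ext ?_ ?_
    · simp [Prod.fst_sum]
    · simp only [Prod.snd_sum, Prod.smul_snd]
      funext k
      simp [Finset.sum_apply, Pi.single_apply]
  rw [hu, hv]
  simp only [map_sum, map_smul, _root_.sum_apply, _root_.smul_apply,
    smul_eq_mul, Finset.mul_sum]
  rw [Finset.sum_comm]
  refine Finset.sum_congr rfl fun i _ => Finset.sum_congr rfl fun j _ => ?_
  ring

/-- the exterior derivative of `beta W` -/
theorem fderiv_beta_antisymm {W : TwoPt n} (h : Smooth2 W) (θ u v : V (n + 1)) :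
    fderiv ℝ (beta W) θ u v - fderiv ℝ (beta W) θ v u = hess W θ u v - hess W θ v u := by
  rw [fderiv_beta h, fderiv_beta h, hess_eq h, hess_eq h]
  have hu : ((u, u) : V (n + 1) × V (n + 1)) = (u, 0) + (0, u) := by simp
  have hv : ((v, v) : V (n + 1) × V (n + 1)) = (v, 0) + (0, v) := by simp
  rw [hu, hv]
  simp only [map_add, _root_.add_apply]
  rw [symm2 h (θ, θ) (0, u) (0, v)]
  ring

/-- Cartan's formula -/
theorem fderiv_UU {W : TwoPt n} (h : Smooth2 W) (hr : RotInv W) (θ u : V (n + 1)) :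
    fderiv ℝ (UU W) θ u = hess W θ u 1 - hess W θ 1 u := by
  have h1 : fderiv ℝ (UU W) θ u = fderiv ℝ (beta W) θ u 1 := by
    have := (h.contDiff_beta.differentiable (by simp) θ).hasFDerivAt.clm_apply
      (hasFDerivAt_const (1 : V (n + 1)) θ)
    have h2 : UU W = fun θ => beta W θ 1 := rfl
    rw [h2, this.fderiv]
    simp
  have h2 := fderiv_beta_antisymm h θ u 1
  have h3 : fderiv ℝ (beta W) θ 1 u = 0 := by
    rw [fderiv_beta h, symm2 h, rot2 h hr]
  rw [h1, ← h2, h3, sub_zero]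

namespace TP

/-- linear part of `ext` -/
def tl (v : V (n + 1)) : V (n + 2) := Fin.snoc v (v 0)

theorem ext_castSucc (θ : V (n + 1)) (i : Fin (n + 1)) : ext θ i.castSucc = θ i := by
  simp [ext]

theorem ext_last (θ : V (n + 1)) : ext θ (Fin.last _) = θ 0 + 1 := by
  simp [ext]

theorem ext_zero (θ : V (n + 1)) : ext θ 0 = θ 0 := ext_castSucc θ 0

theorem tl_castSucc (θ : V (n + 1)) (i : Fin (n + 1)) : tl θ i.castSucc = θ i := by
  simp [tl]

theorem tl_last (θ : V (n + 1)) : tl θ (Fin.last _) = θ 0 := by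
  simp [tl]

/-- `tl` as continuous linear functionals -/
noncomputable def cL (n : ℕ) (k : Fin (n + 2)) : V (n + 1) →L[ℝ] ℝ :=
  Fin.lastCases (ContinuousLinearMap.proj 0) (fun i => ContinuousLinearMap.proj i) k

theorem cL_apply (k : Fin (n + 2)) (v : V (n + 1)) : cL n k v = tl v k := by
  refine Fin.lastCases ?_ (fun i => ?_) k
  · simp [cL, tl_last]
  · simp [cL, tl_castSucc]

theorem ext_eq (θ : V (n + 1)) (k : Fin (n + 2)) :
    ext θ k = cL n k θ + (if k = Fin.last _ then 1 else 0) := by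
  rw [cL_apply]
  refine Fin.lastCases ?_ (fun i => ?_) k
  · simp [ext_last, tl_last]
  · simp [ext_castSucc, tl_castSucc, (Fin.castSucc_lt_last i).ne]

theorem hasFDerivAt_ext (θ : V (n + 1)) (k : Fin (n + 2)) :
    HasFDerivAt (fun θ : V (n + 1) => ext θ k) (cL n k) θ := by
  simp only [ext_eq]
  exact (cL n k).hasFDerivAt.add_const _

theorem contDiff_ext (k : Fin (n + 2)) : ContDiff ℝ ∞ (fun θ : V (n + 1) => ext θ k) := by
  simp only [ext_eq]
  exact (cL n k).contDiff.add contDiff_const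

theorem ext_add (θ : V (n + 1)) (t : ℝ) (k : Fin (n + 2)) :
    ext (fun i => θ i + t) k = ext θ k + t := by
  refine Fin.lastCases ?_ (fun i => ?_) k
  · simp only [ext_last]; ring
  · simp only [ext_castSucc]

theorem tele (g : Fin (n + 2) → ℝ) :
    ∑ i : Fin (n + 1), (g i.succ - g i.castSucc) = g (Fin.last _) - g 0 := by
  have h1 := Fin.sum_univ_succ g
  have h2 := Fin.sum_univ_castSucc g
  rw [Finset.sum_sub_distrib]
  linarith

theorem tele_ext (θ : V (n + 1)) : ∑ i : Fin (n + 1), (ext θ i.succ - ext θ i.castSucc) = 1 := by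
  rw [tele, ext_last, ext_zero]; ring

theorem fderiv_stdW (θ₁ θ v : V (n + 1)) :
    fderiv ℝ (stdW n θ₁) θ v = ∑ i : Fin (n + 1),
      (ext θ₁ i.succ - ext θ₁ i.castSucc) * ((tl v i.castSucc + tl v i.succ) / 2) := by
  have h : HasFDerivAt (stdW n θ₁) (∑ i : Fin (n + 1),
      ((ext θ₁ i.succ - ext θ₁ i.castSucc) / 2) • (cL n i.castSucc + cL n i.succ)) θ := by
    have h0 : stdW n θ₁ = fun θ' => ∑ i : Fin (n + 1),
        ((ext θ₁ i.succ - ext θ₁ i.castSucc) / 2) *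
          ((ext θ' i.castSucc - ext θ₁ i.castSucc) + (ext θ' i.succ - ext θ₁ i.succ)) := by
      funext θ'
      refine Finset.sum_congr rfl fun i _ => ?_
      ring
    rw [h0]
    refine HasFDerivAt.fun_sum fun i _ => ?_
    exact (((hasFDerivAt_ext θ _).sub_const _).add ((hasFDerivAt_ext θ _).sub_const _)).const_mul _
  rw [h.fderiv]
  simp only [_root_.sum_apply, _root_.smul_apply, _root_.add_apply, cL_apply, smul_eq_mul]
  refine Finset.sum_congr rfl fun i _ => ?_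
  ring

theorem beta_stdW (θ v : V (n + 1)) :
    beta (stdW n) θ v = ∑ i : Fin (n + 1),
      (ext θ i.succ - ext θ i.castSucc) * ((tl v i.castSucc + tl v i.succ) / 2) :=
  fderiv_stdW θ θ v

theorem hess_stdW (θ u v : V (n + 1)) :
    hess (stdW n) θ u v = ∑ i : Fin (n + 1),
      (tl u i.succ - tl u i.castSucc) * ((tl v i.castSucc + tl v i.succ) / 2) := by
  unfold hess
  simp only [fderiv_stdW]
  have h : HasFDerivAt (fun θ₁ : V (n + 1) => ∑ i : Fin (n + 1),
      (ext θ₁ i.succ - ext θ₁ i.castSucc) * ((tl v i.castSucc + tl v i.succ) / 2))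
      (∑ i : Fin (n + 1), ((tl v i.castSucc + tl v i.succ) / 2) •
        (cL n i.succ - cL n i.castSucc)) θ := by
    refine HasFDerivAt.fun_sum fun i _ => ?_
    exact ((hasFDerivAt_ext θ _).sub (hasFDerivAt_ext θ _)).mul_const _
  rw [h.fderiv]
  simp only [_root_.sum_apply, _root_.smul_apply, _root_.sub_apply, cL_apply, smul_eq_mul]
  refine Finset.sum_congr rfl fun i _ => ?_
  ring

theorem tl_one (k : Fin (n + 2)) : tl (1 : V (n + 1)) k = 1 := by
  refine Fin.lastCases ?_ (fun i => ?_) k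
  · simp [tl_last]
  · simp [tl_castSucc]

theorem ev_apply {d : ℕ} (i j : Fin d) : (ev i : V d) j = if j = i then 1 else 0 :=
  Pi.single_apply i 1 j

theorem tl_ev_succ (i : Fin n) (k : Fin (n + 2)) :
    tl (ev i.succ : V (n + 1)) k = if (k : ℕ) = i + 1 then 1 else 0 := by
  refine Fin.lastCases ?_ (fun j => ?_) k
  · rw [tl_last, if_neg]
    · simp
    · have := i.2
      simp only [Fin.val_last]
      omega
  · rw [tl_castSucc, ev_apply]
    simp only [Fin.ext_iff, Fin.val_succ, Fin.val_castSucc]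

theorem tl_ev_mem (i : Fin (n + 1)) (k : Fin (n + 2)) :
    0 ≤ tl (ev i : V (n + 1)) k ∧ tl (ev i : V (n + 1)) k ≤ 1 := by
  refine Fin.lastCases ?_ (fun j => ?_) k
  · rw [tl_last, ev_apply]
    split_ifs <;> simp
  · rw [tl_castSucc, ev_apply]
    split_ifs <;> simp

theorem sum_tl_castSucc (i : Fin (n + 1)) :
    ∑ k : Fin (n + 1), tl (ev i : V (n + 1)) k.castSucc = 1 := by
  simp [tl_castSucc, Pi.single_apply]

theorem sum_tl_succ (i : Fin (n + 1)) :
    ∑ k : Fin (n + 1), tl (ev i : V (n + 1)) k.succ = 1 := by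
  have h := tele (tl (ev i : V (n + 1)))
  rw [Finset.sum_sub_distrib, sum_tl_castSucc, tl_last,
    show (0 : Fin (n + 2)) = (0 : Fin (n + 1)).castSucc from rfl, tl_castSucc] at h
  linarith

theorem ext_rot_castSucc (θ : V (n + 1)) (i : Fin (n + 1)) :
    ext (rotθ θ) i.castSucc = ext θ i.succ := by
  rw [ext_castSucc]; rfl

theorem ext_rot_last (θ : V (n + 1)) :
    ext (rotθ θ) (Fin.last _) = ext θ (0 : Fin (n + 1)).succ + 1 := by
  rw [ext_last]; rfl

theorem ext_face (p : Fin (n + 2)) (θ : V (n + 1)) (k : Fin (n + 3)) :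
    ext (faceθ p θ) k = ext θ (p.predAbove k) := by
  refine Fin.lastCases ?_ (fun i => ?_) k
  · rw [ext_last, Fin.predAbove_right_last, ext_last]
    simp only [faceθ, Fin.castSucc_zero, Fin.predAbove_right_zero, ext_zero]
  · rw [ext_castSucc]; rfl

theorem pa_castSucc (p : Fin (n + 2)) (j : Fin (n + 1)) :
    p.predAbove (p.succAbove j).castSucc = j.castSucc := by
  apply Fin.ext
  unfold Fin.predAbove Fin.succAbove
  split_ifs with h1 h2 h2 <;>
    simp only [Fin.lt_def, Fin.val_castSucc, Fin.val_succ, Fin.val_pred, Fin.coe_castPred]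
      at h1 h2 ⊢ <;> omega

theorem pa_succ (p : Fin (n + 2)) (j : Fin (n + 1)) :
    p.predAbove (p.succAbove j).succ = j.succ := by
  apply Fin.ext
  unfold Fin.predAbove Fin.succAbove
  split_ifs with h1 h2 h2 <;>
    simp only [Fin.lt_def, Fin.val_castSucc, Fin.val_succ, Fin.val_pred, Fin.coe_castPred]
      at h1 h2 ⊢ <;> omega

theorem sum_ind (a : ℕ) (ha : a < n + 1) (f : ℕ → ℝ) :
    ∑ k : Fin (n + 1), (if (k : ℕ) = a then 1 else 0) * f k = f a := by
  rw [Finset.sum_eq_single ⟨a, ha⟩]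
  · simp
  · intro b _ hb
    rw [if_neg, zero_mul]
    intro h
    exact hb (Fin.ext h)
  · simp

end TP

theorem stdW_smooth (n : ℕ) : Smooth2 (stdW n) := by
  unfold Smooth2 stdW
  refine ContDiff.sum fun i _ => ?_
  have h1 : ∀ k, ContDiff ℝ ∞ fun p : V (n + 1) × V (n + 1) => ext p.1 k :=
    fun k => (contDiff_ext k).comp contDiff_fst
  have h2 : ∀ k, ContDiff ℝ ∞ fun p : V (n + 1) × V (n + 1) => ext p.2 k :=
    fun k => (contDiff_ext k).comp contDiff_snd
  exact (((h1 _).sub (h1 _)).mul (((h2 _).sub (h1 _)).add ((h2 _).sub (h1 _)))).div_const 2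

theorem stdW_rotInv (n : ℕ) : RotInv (stdW n) := by
  intro θ θ' t
  unfold stdW
  refine Finset.sum_congr rfl fun i _ => ?_
  simp only [ext_add]
  ring

theorem stdW_cyc (θ θ' : V (n + 1)) : stdW n (rotθ θ) (rotθ θ') = stdW n θ θ' := by
  unfold stdW
  rw [Fin.sum_univ_castSucc, Fin.sum_univ_succ, add_comm]
  congr 1
  · simp only [Fin.succ_last, ext_rot_last, ext_rot_castSucc]
    simp only [ext_last, Fin.castSucc_zero, ext_zero]
    ring
  · refine Finset.sum_congr rfl fun i _ => ?_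
    simp only [Fin.succ_castSucc, ext_rot_castSucc]

theorem stdW_face (p : Fin (n + 2)) (θ θ' : V (n + 1)) :
    stdW (n + 1) (faceθ p θ) (faceθ p θ') = stdW n θ θ' := by
  unfold stdW
  rw [Fin.sum_univ_succAbove _ p]
  simp only [ext_face, pa_castSucc, pa_succ, Fin.predAbove_castSucc_self,
    Fin.predAbove_succ_self, sub_self, zero_mul, zero_div, zero_add]

theorem UU_stdW (θ : V (n + 1)) : UU (stdW n) θ = 1 := by
  unfold UU
  rw [beta_stdW]
  simp only [tl_one]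
  norm_num
  simpa using tele_ext θ

theorem Mb_stdW (θ : V (n + 1)) : Mb (stdW n) θ = omega n := by
  ext i j
  simp only [Mb, omega, Matrix.of_apply, hess_stdW, tl_ev_succ, Fin.val_succ, Fin.val_castSucc]
  rw [← Finset.sum_sub_distrib]
  have h1 := sum_ind (n := n) (j + 1) (by omega) (fun k => if k + 1 = i + 1 then 1 else 0)
  have h2 := sum_ind (n := n) (i + 1) (by omega) (fun k => if k + 1 = j + 1 then 1 else 0)
  have h3 : (if (j : ℕ) + 1 + 1 = i + 1 then (1 : ℝ) else 0) = if (i : ℕ) = j + 1 then 1 else 0 :=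
    if_congr (by omega) rfl rfl
  have h4 : (if (i : ℕ) + 1 + 1 = j + 1 then (1 : ℝ) else 0) = if (j : ℕ) = i + 1 then 1 else 0 :=
    if_congr (by omega) rfl rfl
  rw [← h3, ← h4, ← h1, ← h2, ← Finset.sum_sub_distrib]
  refine Finset.sum_congr rfl fun k _ => ?_
  ring

theorem abs_beta_stdW_le {θ : V (n + 1)} (hθ : θ ∈ cell n) (i : Fin (n + 1)) :
    |beta (stdW n) θ (ev i)| ≤ 1 := by
  rw [beta_stdW, ← tele_ext θ]
  refine (Finset.abs_sum_le_sum_abs _ _).trans (Finset.sum_le_sum fun k _ => ?_)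
  have h1 : 0 ≤ ext θ k.succ - ext θ k.castSucc :=
    sub_nonneg.2 (hθ (Fin.castSucc_lt_succ (i := k)).le)
  have h2 := tl_ev_mem i k.castSucc
  have h3 := tl_ev_mem i k.succ
  rw [abs_of_nonneg (mul_nonneg h1 (by linarith))]
  nlinarith

theorem abs_hess_stdW_le (θ : V (n + 1)) (i j : Fin (n + 1)) :
    |hess (stdW n) θ (ev i) (ev j)| ≤ 2 := by
  rw [hess_stdW]
  have h : ∑ k : Fin (n + 1), (tl (ev i : V (n + 1)) k.castSucc + tl (ev i : V (n + 1)) k.succ)
      = 2 := by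
    rw [Finset.sum_add_distrib, sum_tl_castSucc, sum_tl_succ]
    norm_num
  refine le_of_le_of_eq ?_ h
  refine (Finset.abs_sum_le_sum_abs _ _).trans (Finset.sum_le_sum fun k _ => ?_)
  have h1 := tl_ev_mem i k.castSucc
  have h2 := tl_ev_mem i k.succ
  have h3 := tl_ev_mem j k.castSucc
  have h4 := tl_ev_mem j k.succ
  rw [abs_le]
  constructor <;> nlinarith

end Crest.Agent.R192
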