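import Crest.Agent.R192.YPiece1
import Crest.Agent.R192.CostY

/-! Row 192: the label two-point function: bounds. -/

set_option autoImplicit false

namespace Crest.Agent.R192

open Crest.AlgebraR.L1 MeasureTheory Matrix
open scoped ContDiff BoundedContinuousFunction

variable {G : Type} [Group G] [TopologicalSpace G] [DiscreteTopology G] {n : ℕ} {ℓ : Len G}
  {R L0 : ℕ} {Z : ℝ} (𝓛 : Labels ℓ R L0 Z) {δ0 δ : ℝ}

namespace YP2

/-- derivative of the amplitude in the direction `v` -/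
noncomputable def U (K : ℝ → ℝ) (c : G) (x : Fin (n + 1) → G) (w : 𝓛.Λ → 𝓛.S) (θ : V (n + 1))
    (l : 𝓛.L) (v : V (n + 1)) (φ : ℝ) : ℂ :=
  fderiv ℝ (Yf 𝓛 K c x w l) (θ, φ) (v, 0)

variable {K : ℝ → ℝ}

theorem U_cont (hK : Step K) (hK' : ContDiff ℝ ∞ K) (c : G) (x : Fin (n + 1) → G)
    (w : 𝓛.Λ → 𝓛.S) (θ : V (n + 1)) (l : 𝓛.L) (v : V (n + 1)) :
    Continuous (U 𝓛 K c x w θ l v) := by
  have h := (Yf_smooth 𝓛 hK hK' c x w l).continuous_fderiv (by simp)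
  unfold U
  fun_prop

theorem U_add_one (hK : Step K) (hK' : ContDiff ℝ ∞ K) (c : G) (x : Fin (n + 1) → G)
    (w : 𝓛.Λ → 𝓛.S) (θ : V (n + 1)) (l : 𝓛.L) (hl : 𝓛.cls l = c) (v : V (n + 1)) (φ : ℝ) :
    U 𝓛 K c x w θ l v (φ + 1) = 𝓛.chi l * U 𝓛 K c x w θ l v φ := by
  have hd := (Yf_smooth 𝓛 hK hK' c x w l).differentiable (by simp)
  have e : (fun p : V (n + 1) × ℝ => Yf 𝓛 K c x w l (p + (0, 1))) =
      fun p => 𝓛.chi l * Yf 𝓛 K c x w l p := by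
    funext p
    obtain ⟨θ', φ'⟩ := p
    simp only [Prod.mk_add_mk, add_zero]
    exact Yf_add_one 𝓛 hK c x w l hl θ' φ'
  have h1 : fderiv ℝ (fun p : V (n + 1) × ℝ => Yf 𝓛 K c x w l (p + (0, 1))) (θ, φ) =
      fderiv ℝ (Yf 𝓛 K c x w l) ((θ, φ) + (0, 1)) := fderiv_comp_add_right _
  rw [e, fderiv_const_mul (hd _)] at h1
  simp only [Prod.mk_add_mk, add_zero] at h1
  unfold U
  rw [← h1]
  rfl

theorem U_eq (hK : Step K) (hK' : ContDiff ℝ ∞ K) (c : G) (x : Fin (n + 1) → G)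
    (w : 𝓛.Λ → 𝓛.S) (θ : V (n + 1)) (l : 𝓛.L) (v : V (n + 1)) (φ : ℝ) :
    U 𝓛 K c x w θ l v φ = fderiv ℝ (𝓛.Y w l) (feat ℓ R (occ K c x θ φ))
      (fderiv ℝ (fld K c x (bump ℓ R)) (θ, φ) (v, 0)) := by
  have h1 : DifferentiableAt ℝ (fld K c x (bump ℓ R)) (θ, φ) :=
    (fld_smooth hK hK' c x (bump ℓ R)).differentiable (by simp) _
  have h2 : DifferentiableAt ℝ (𝓛.Y w l) (fld K c x (bump ℓ R) (θ, φ)) :=
    (𝓛.smooth w l (occ K c x θ φ)).differentiableAt (by simp)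
  have h3 := fderiv_comp (θ, φ) h2 h1
  unfold U
  change fderiv ℝ (𝓛.Y w l ∘ fld K c x (bump ℓ R)) (θ, φ) (v, 0) = _
  rw [h3]
  rfl

theorem norm_U_le (hR : 0 < R) (hK : Step K) (hK' : ContDiff ℝ ∞ K) (c : G)
    (x : Fin (n + 1) → G) (w : 𝓛.Λ → 𝓛.S) {θ : V (n + 1)} (hθ : θ ∈ cell n) (l : 𝓛.L)
    (i : Fin (n + 1)) (φ : ℝ) :
    ‖U 𝓛 K c x w θ l (ev i) φ‖ ≤ Z * (slen ℓ c x i * per (deriv K) (φ - θ i)) := by
  rw [U_eq 𝓛 hK hK']
  have h1 := 𝓛.fderiv_le w l _ (isProb_occ hK c x hθ φ)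
  have h2 := norm_fderiv_fld_le hK hK' ℓ c x (bump ℓ R) (norm_bump_sub_le ℓ R hR) θ φ i
  exact (ContinuousLinearMap.le_opNorm _ _).trans
    (mul_le_mul h1 h2 (norm_nonneg _) ((ContinuousLinearMap.opNorm_nonneg _).trans h1))

theorem U_inactive (hK : Step K) (hK' : ContDiff ℝ ∞ K) (c : G)
    (x : Fin (n + 1) → G) (w : 𝓛.Λ → 𝓛.S) {θ : V (n + 1)} (hθ : θ ∈ cell n) (l : 𝓛.L)
    (v : V (n + 1)) (φ : ℝ) (ha : ¬ 𝓛.Act w l (occ K c x θ φ)) : U 𝓛 K c x w θ l v φ = 0 := by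
  rw [U_eq 𝓛 hK hK', (𝓛.inactive w l _ (isProb_occ hK c x hθ φ) ha).2]
  rfl

theorem Yf_inactive (hK : Step K) (c : G)
    (x : Fin (n + 1) → G) (w : 𝓛.Λ → 𝓛.S) {θ : V (n + 1)} (hθ : θ ∈ cell n) (l : 𝓛.L)
    (φ : ℝ) (ha : ¬ 𝓛.Act w l (occ K c x θ φ)) : Yf 𝓛 K c x w l (θ, φ) = 0 :=
  (𝓛.inactive w l _ (isProb_occ hK c x hθ φ) ha).1

theorem norm_Yf_le (hK : Step K) (c : G)
    (x : Fin (n + 1) → G) (w : 𝓛.Λ → 𝓛.S) {θ : V (n + 1)} (hθ : θ ∈ cell n) (l : 𝓛.L)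
    (φ : ℝ) : ‖Yf 𝓛 K c x w l (θ, φ)‖ ≤ 1 :=
  𝓛.norm_le w l _ (isProb_occ hK c x hθ φ)

/-- a sum over labels whose terms vanish at inactive labels -/
theorem sum_le (hZ : 1 ≤ Z) (hK : Step K) {c : G}
    (x : Fin (n + 1) → G) (w : 𝓛.Λ → 𝓛.S) {θ : V (n + 1)} (hθ : θ ∈ cell n) (φ : ℝ)
    (F : Finset 𝓛.L) (hF : ∀ l ∈ F, 𝓛.cls l = c) (f : 𝓛.L → ℝ) {M : ℝ} (hM : 0 ≤ M)
    (hf : ∀ l ∈ F, f l ≤ M) (hf0 : ∀ l ∈ F, ¬ 𝓛.Act w l (occ K c x θ φ) → f l = 0) :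
    ∑ l ∈ F, f l ≤ Z * M := by
  classical
  have h1 : ∑ l ∈ F, f l = ∑ l ∈ F.filter fun l => 𝓛.Act w l (occ K c x θ φ), f l := by
    refine (Finset.sum_filter_of_ne fun l hl hne => ?_).symm
    by_contra ha
    exact hne (hf0 l hl ha)
  have h2 := 𝓛.mult w c (F.filter fun l => 𝓛.Act w l (occ K c x θ φ)) (fun _ => occ K c x θ φ)
    (fun l hl => ⟨hF l (Finset.mem_filter.1 hl).1, isProb_occ hK c x hθ φ,
      (Finset.mem_filter.1 hl).2⟩)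
    (fun l _ l' _ => by
      rw [sub_self, norm_zero]
      positivity)
  rw [h1]
  refine (Finset.sum_le_card_nsmul _ _ M fun l hl => hf l (Finset.mem_filter.1 hl).1).trans ?_
  rw [nsmul_eq_mul]
  exact mul_le_mul_of_nonneg_right h2 hM

theorem chi_bound {c : G} (hc : Adm ℓ L0 c) {l : 𝓛.L} (hl : 𝓛.cls l = c) :
    𝓛.chi l ≠ 1 ∧ ‖(1 - 𝓛.chi l)⁻¹‖ ≤ Real.exp Z := by
  have h := 𝓛.chi_far l (hl ▸ hc)
  have hp := Real.exp_pos (-Z)
  constructor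
  · intro h1
    rw [h1, sub_self, norm_zero] at h
    linarith
  · rw [norm_inv]
    refine (inv_anti₀ hp h).trans ?_
    rw [Real.exp_neg, inv_inv]

theorem abs_re_le (a b d : ℂ) {A B D : ℝ} (ha : ‖a‖ ≤ A) (hb : ‖b‖ ≤ B) (hd : ‖d‖ ≤ D) :
    |(a * (starRingEnd ℂ) b * d).re| ≤ A * B * D := by
  refine (Complex.abs_re_le_norm _).trans ?_
  rw [norm_mul, norm_mul, Complex.norm_conj]
  have hA := (norm_nonneg _).trans ha
  have hB := (norm_nonneg _).trans hb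
  gcongr

theorem fderiv_sum_re {X ι : Type} [NormedAddCommGroup X] [NormedSpace ℝ X] (F : Finset ι)
    (a : ι → ℂ) (f : ι → X → ℂ) (hf : ∀ l, Differentiable ℝ (f l)) (q v : X) :
    fderiv ℝ (fun q => ∑ l ∈ F, (a l * f l q).re) q v = ∑ l ∈ F, (a l * fderiv ℝ (f l) q v).re := by
  have h : HasFDerivAt (fun q => ∑ l ∈ F, (a l * f l q).re)
      (∑ l ∈ F, Complex.reCLM.comp (a l • fderiv ℝ (f l) q)) q :=
    HasFDerivAt.fun_sum fun l _ =>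
      Complex.reCLM.hasFDerivAt.comp q ((hf l q).hasFDerivAt.const_mul (a l))
  rw [h.fderiv]
  simp

theorem fderiv_sum_re' {X ι : Type} [NormedAddCommGroup X] [NormedSpace ℝ X] (F : Finset ι)
    (a d : ι → ℂ) (f : ι → X → ℂ) (hf : ∀ l, Differentiable ℝ (f l)) (q v : X) :
    fderiv ℝ (fun q => ∑ l ∈ F, (a l * (starRingEnd ℂ) (f l q) * d l).re) q v =
      ∑ l ∈ F, (a l * (starRingEnd ℂ) (fderiv ℝ (f l) q v) * d l).re := by
  have e : ∀ (l : ι) (z : ℂ), (a l * (starRingEnd ℂ) z * d l).re =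
      ((starRingEnd ℂ) (a l * d l) * z).re := by
    intro l z
    rw [← Complex.conj_re]
    congr 1
    simp only [map_mul, Complex.conj_conj]
    ring
  simp only [e]
  exact fderiv_sum_re F _ f hf q v

/-- the integrands of `beta` and `hess` as finite sums -/
theorem exists_sum (hK : Step K) (hK' : ContDiff ℝ ∞ K) (c : G) (x : Fin (n + 1) → G)
    (w : 𝓛.Λ → 𝓛.S) (θ : V (n + 1)) : ∃ F : Finset 𝓛.L, (∀ l ∈ F, 𝓛.cls l = c) ∧
      (∀ v, beta (WY 𝓛 K c x w) θ v = ∫ φ in (0 : ℝ)..1, ∫ t in (0 : ℝ)..1, ∑ l ∈ F,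
        ((1 - 𝓛.chi l)⁻¹ * (starRingEnd ℂ) (Yf 𝓛 K c x w l (θ, φ)) *
          U 𝓛 K c x w θ l v (φ + t)).re) ∧
      ∀ u v, hess (WY 𝓛 K c x w) θ u v = ∫ φ in (0 : ℝ)..1, ∫ t in (0 : ℝ)..1, ∑ l ∈ F,
        ((1 - 𝓛.chi l)⁻¹ * (starRingEnd ℂ) (U 𝓛 K c x w θ l u φ) *
          U 𝓛 K c x w θ l v (φ + t)).re := by
  obtain ⟨F, hF, -, hs⟩ := hY_local 𝓛 hK c x (‖θ‖ + 3)
  have hd : ∀ l, Differentiable ℝ (Yf 𝓛 K c x w l) := fun l =>
    (Yf_smooth 𝓛 hK hK' c x w l).differentiable (by simp)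
  have hn : ∀ φ ∈ Set.uIcc (0 : ℝ) 1, ‖((θ, φ) : V (n + 1) × ℝ)‖ < ‖θ‖ + 3 := by
    intro φ hφ
    rw [Set.uIcc_of_le zero_le_one] at hφ
    rw [Prod.norm_mk, max_lt_iff, Real.norm_of_nonneg hφ.1]
    have := norm_nonneg θ
    constructor <;> linarith [hφ.2]
  have h1 : ∀ p : V (n + 1) × ℝ, ‖p‖ ≤ ‖θ‖ + 3 → ∀ (φ : ℝ) (v : V (n + 1)),
      fderiv ℝ (fun q => hY 𝓛 K c x w (p, q)) (θ, φ) (v, 0) = ∑ l ∈ F,
        ((1 - 𝓛.chi l)⁻¹ * (starRingEnd ℂ) (Yf 𝓛 K c x w l p) * U 𝓛 K c x w θ l v φ).re := by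
    intro p hp φ v
    have e : (fun q => hY 𝓛 K c x w (p, q)) = fun q => ∑ l ∈ F,
        ((1 - 𝓛.chi l)⁻¹ * (starRingEnd ℂ) (Yf 𝓛 K c x w l p) * Yf 𝓛 K c x w l q).re :=
      funext fun q => hs w p q hp
    rw [e]
    exact fderiv_sum_re F _ _ hd _ _
  refine ⟨F, hF, fun v => ?_, fun u v => ?_⟩
  · rw [WY_eq, beta_tp (hY_smooth 𝓛 hK hK' c x w)]
    refine intervalIntegral.integral_congr fun φ hφ => ?_
    refine intervalIntegral.integral_congr fun t _ => ?_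
    exact h1 _ (hn φ hφ).le _ _
  · rw [WY_eq, hess_tp (hY_smooth 𝓛 hK hK' c x w)]
    refine intervalIntegral.integral_congr fun φ hφ => ?_
    refine intervalIntegral.integral_congr fun t _ => ?_
    have e : (fun p => fderiv ℝ (fun q => hY 𝓛 K c x w (p, q)) (θ, φ + t) (v, 0)) =ᶠ[nhds (θ, φ)]
        fun p => ∑ l ∈ F, ((1 - 𝓛.chi l)⁻¹ * (starRingEnd ℂ) (Yf 𝓛 K c x w l p) *
          U 𝓛 K c x w θ l v (φ + t)).re := by
      filter_upwards [(isOpen_lt continuous_norm continuous_const).mem_nhds (hn φ hφ)] with p hp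
      exact h1 p hp.le _ _
    rw [e.fderiv_eq]
    exact fderiv_sum_re' F _ _ _ hd _ _

/-- bound for an iterated integral -/
theorem abs_int_le {f : ℝ → ℝ → ℝ} {g k : ℝ → ℝ} {M : ℝ} (hg : Continuous g) (hk : Continuous k)
    (hf : ∀ φ t, |f φ t| ≤ M * g φ * k (φ + t)) (hg1 : ∫ φ in (0 : ℝ)..1, g φ = 1)
    (hk1 : ∀ φ, ∫ t in (0 : ℝ)..1, k (φ + t) = 1) :
    |∫ φ in (0 : ℝ)..1, ∫ t in (0 : ℝ)..1, f φ t| ≤ M := by
  have h1 : ∀ φ, ‖∫ t in (0 : ℝ)..1, f φ t‖ ≤ M * g φ := by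
    intro φ
    have h2 := intervalIntegral.norm_integral_le_of_norm_le (μ := volume) (f := f φ)
      (g := fun t => M * g φ * k (φ + t)) zero_le_one
      (Filter.Eventually.of_forall fun t _ => hf φ t)
      (Continuous.intervalIntegrable (by fun_prop) _ _)
    rwa [intervalIntegral.integral_const_mul, hk1, mul_one] at h2
  have h2 := intervalIntegral.norm_integral_le_of_norm_le (μ := volume)
    (f := fun φ => ∫ t in (0 : ℝ)..1, f φ t) (g := fun φ => M * g φ) zero_le_one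
    (Filter.Eventually.of_forall fun φ _ => h1 φ)
    (Continuous.intervalIntegrable (by fun_prop) _ _)
  rwa [intervalIntegral.integral_const_mul, hg1, mul_one] at h2

theorem int_per (h0 : 0 < δ0) (h : 0 < δ) (h1 : δ + δ0 ≤ 1) (a φ : ℝ) :
    ∫ t in (0 : ℝ)..1, per (deriv (kerK δ0 δ)) (φ + t - a) = 1 := by
  refine Eq.trans ?_ (integral_per_deriv h0 h h1 (φ - a))
  congr 1
  funext t
  congr 1
  ring

theorem int_per' (h0 : 0 < δ0) (h : 0 < δ) (h1 : δ + δ0 ≤ 1) (a : ℝ) :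
    ∫ t in (0 : ℝ)..1, per (deriv (kerK δ0 δ)) (t - a) = 1 := by
  simpa using int_per h0 h h1 a 0

end YP2

open YP2

theorem WY_beta_le (hR : 0 < R) (hZ : 1 ≤ Z) (h0 : 0 < δ0) (h : 0 < δ) (h1 : δ + δ0 ≤ 1) {c : G}
    (hc : Adm ℓ L0 c) (x : Fin (n + 1) → G) (w : 𝓛.Λ → 𝓛.S) {θ : V (n + 1)} (hθ : θ ∈ cell n)
    (i : Fin (n + 1)) :
    |beta (WY 𝓛 (kerK δ0 δ) c x w) θ (ev i)| ≤ Real.exp Z * Z ^ 3 * slen ℓ c x i := by
  have hK := kerK_step h0 h h1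
  have hK' := kerK_smooth δ0 δ
  have hc' := per_deriv_continuous h0 h h1
  obtain ⟨F, hF, hb, -⟩ := exists_sum 𝓛 hK hK' c x w θ
  have hE := Real.exp_pos Z
  have hs : (0 : ℝ) ≤ slen ℓ c x i := Nat.cast_nonneg _
  rw [hb]
  refine (abs_int_le (M := Real.exp Z * Z ^ 2 * slen ℓ c x i) (g := fun _ => 1)
    (k := fun t => per (deriv (kerK δ0 δ)) (t - θ i)) continuous_const (by fun_prop)
    (fun φ t => ?_) (by simp) (fun φ => int_per h0 h h1 _ φ)).trans ?_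
  · have hp := per_nonneg (deriv (kerK δ0 δ)) (φ + t - θ i)
    refine (Finset.abs_sum_le_sum_abs _ _).trans ((sum_le 𝓛 hZ hK x w hθ φ F hF _
      (M := Real.exp Z * 1 * (Z * (slen ℓ c x i * per (deriv (kerK δ0 δ)) (φ + t - θ i))))
      (by positivity) (fun l hl => ?_) fun l _ ha => ?_).trans (le_of_eq (by ring)))
    · exact abs_re_le _ _ _ (chi_bound 𝓛 hc (hF l hl)).2 (norm_Yf_le 𝓛 hK c x w hθ l φ)
        (norm_U_le 𝓛 hR hK hK' c x w hθ l i _)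
    · simp [Yf_inactive 𝓛 hK c x w hθ l φ ha]
  · have : Z ^ 2 ≤ Z ^ 3 := pow_le_pow_right₀ hZ (by norm_num)
    gcongr

theorem WY_hess_le (hR : 0 < R) (hZ : 1 ≤ Z) (h0 : 0 < δ0) (h : 0 < δ) (h1 : δ + δ0 ≤ 1) {c : G}
    (hc : Adm ℓ L0 c) (x : Fin (n + 1) → G) (w : 𝓛.Λ → 𝓛.S) {θ : V (n + 1)} (hθ : θ ∈ cell n)
    (i j : Fin (n + 1)) : |hess (WY 𝓛 (kerK δ0 δ) c x w) θ (ev i) (ev j)| ≤
      Real.exp Z * Z ^ 3 * slen ℓ c x i * slen ℓ c x j := by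
  have hK := kerK_step h0 h h1
  have hK' := kerK_smooth δ0 δ
  have hc' := per_deriv_continuous h0 h h1
  obtain ⟨F, hF, -, hb⟩ := exists_sum 𝓛 hK hK' c x w θ
  have hE := Real.exp_pos Z
  rw [hb]
  refine abs_int_le (g := fun t => per (deriv (kerK δ0 δ)) (t - θ i))
    (k := fun t => per (deriv (kerK δ0 δ)) (t - θ j)) (by fun_prop) (by fun_prop)
    (fun φ t => ?_) (int_per' h0 h h1 _) fun φ => int_per h0 h h1 _ φ
  have hp := per_nonneg (deriv (kerK δ0 δ)) (φ + t - θ j)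
  have hp' := per_nonneg (deriv (kerK δ0 δ)) (φ - θ i)
  refine (Finset.abs_sum_le_sum_abs _ _).trans ((sum_le 𝓛 hZ hK x w hθ φ F hF _
    (M := Real.exp Z * (Z * (slen ℓ c x i * per (deriv (kerK δ0 δ)) (φ - θ i))) *
      (Z * (slen ℓ c x j * per (deriv (kerK δ0 δ)) (φ + t - θ j))))
    (by positivity) (fun l hl => ?_) fun l _ ha => ?_).trans (le_of_eq (by ring)))
  · exact abs_re_le _ _ _ (chi_bound 𝓛 hc (hF l hl)).2 (norm_U_le 𝓛 hR hK hK' c x w hθ l i _)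
      (norm_U_le 𝓛 hR hK hK' c x w hθ l j _)
  · simp [U_inactive 𝓛 hK hK' c x w hθ l _ φ ha]

theorem WY_cost (hR : 0 < R) (hZ : 1 ≤ Z) (h0 : 0 < δ0) (h : 0 < δ) (h1 : δ + δ0 ≤ 1) {c : G}
    (hc : Adm ℓ L0 c) (x : Fin (n + 1) → G) (w : 𝓛.Λ → 𝓛.S) {θ : V (n + 1)} (hθ : θ ∈ cell n)
    (B : ℕ) (hB : 2 * Z ≤ B * δ) :
    Cost (Mb (WY 𝓛 (kerK δ0 δ) c x w) θ)
      (fun i => 3 * Z ^ 3 / (B * δ) * (slen ℓ c x i.succ : ℝ) ^ 2)
      ((10 * (1 + Real.exp Z)) ^ (4 * (⌊Z⌋₊ * B))) := by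
  classical
  have hK := kerK_step h0 h h1
  have hK' := kerK_smooth δ0 δ
  have hc' := per_deriv_continuous h0 h h1
  obtain ⟨F, hF, -, hb⟩ := exists_sum 𝓛 hK hK' c x w θ
  have hB0 : 0 < B := by
    rcases Nat.eq_zero_or_pos B with rfl | hB0
    · simp only [Nat.cast_zero, zero_mul] at hB
      linarith
    · exact hB0
  have hB' : (0 : ℝ) < B := by positivity
  have hZ0 : 0 < Z := by linarith
  let P : 𝓛.L → Fin B → Prop := fun l b =>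
    ∃ φ ∈ Set.Icc (((b : ℕ) : ℝ) / B) ((((b : ℕ) : ℝ) + 1) / B),
      𝓛.Act w l (occ (kerK δ0 δ) c x θ φ)
  have hcard : ∀ b : Fin B, (F.filter fun l => P l b).card ≤ ⌊Z⌋₊ := by
    intro b
    have hch : ∀ l, ∃ φ : ℝ, P l b → φ ∈ Set.Icc (((b : ℕ) : ℝ) / B) ((((b : ℕ) : ℝ) + 1) / B) ∧
        𝓛.Act w l (occ (kerK δ0 δ) c x θ φ) := by
      intro l
      by_cases hP : P l b
      · obtain ⟨φ, hφ⟩ := hP
        exact ⟨φ, fun _ => hφ⟩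
      · exact ⟨0, fun h => absurd h hP⟩
    choose τ hτ using hch
    refine Nat.le_floor (𝓛.mult w c _ (fun l => occ (kerK δ0 δ) c x θ (τ l))
      (fun l hl => ⟨hF l (Finset.mem_filter.1 hl).1, isProb_occ hK c x hθ _,
        (hτ l (Finset.mem_filter.1 hl).2).2⟩) fun l hl l' hl' => ?_)
    refine (norm_fld_sub_le h0 h h1 c x (bump ℓ R) (norm_bump_le ℓ R) hθ (τ l) (τ l')).trans ?_
    have a1 := (hτ l (Finset.mem_filter.1 hl).2).1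
    have a2 := (hτ l' (Finset.mem_filter.1 hl').2).1
    have a3 : |τ l - τ l'| ≤ 1 / B := by
      have e : (((b : ℕ) : ℝ) + 1) / B = ((b : ℕ) : ℝ) / B + 1 / B := by ring
      rw [e] at a1 a2
      rw [abs_le]
      constructor <;> linarith [a1.1, a1.2, a2.1, a2.2]
    calc 2 * |τ l - τ l'| / δ ≤ 2 * (1 / B) / δ := by gcongr
      _ = 2 / (B * δ) := by field_simp
      _ ≤ 2 / (2 * Z) := by gcongr
      _ = 1 / Z := by field_simp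
  have hm : ∑ l ∈ F, (Finset.univ.filter fun b => P l b).card ≤ ⌊Z⌋₊ * B := by
    have e : ∑ l ∈ F, (Finset.univ.filter fun b => P l b).card =
        ∑ b : Fin B, (F.filter fun l => P l b).card := by
      simp only [Finset.card_filter]
      exact Finset.sum_comm
    rw [e]
    refine (Finset.sum_le_card_nsmul _ _ _ fun b _ => hcard b).trans ?_
    simp [mul_comm]
  have key := cost_prefix F (fun l (i : Fin n) => U 𝓛 (kerK δ0 δ) c x w θ l (ev i.succ))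
    (fun l _ i => U_cont 𝓛 hK hK' c x w θ l _) 𝓛.chi (Real.exp Z) (Real.exp_pos Z).le
    (fun l hl => (chi_bound 𝓛 hc (hF l hl)).1) (fun l hl => (chi_bound 𝓛 hc (hF l hl)).2)
    (fun l hl i φ => U_add_one 𝓛 hK hK' c x w θ l (hF l hl) _ φ) B hB0
    (fun l => Finset.univ.filter fun b => P l b)
    (fun l _ b hb' φ hφ i => U_inactive 𝓛 hK hK' c x w hθ l _ φ fun ha =>
      hb' (Finset.mem_filter.2 ⟨Finset.mem_univ _, φ, hφ, ha⟩))
    _ hm (Matrix.of fun i j : Fin n => hess (WY 𝓛 (kerK δ0 δ) c x w) θ (ev i.succ) (ev j.succ))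
    (fun i j => hb _ _)
  refine Cost.mono (M := Mb (WY 𝓛 (kerK δ0 δ) c x w) θ) key (fun i => ?_) le_rfl
  have hU : ∀ l ∈ F, Continuous fun φ => ‖U 𝓛 (kerK δ0 δ) c x w θ l (ev i.succ) φ‖ ^ 2 :=
    fun l _ => (U_cont 𝓛 hK hK' c x w θ l _).norm.pow 2
  rw [← intervalIntegral.integral_finsetSum fun l hl => (hU l hl).intervalIntegrable _ _]
  have b1 : ∫ φ in (0 : ℝ)..1, ∑ l ∈ F, ‖U 𝓛 (kerK δ0 δ) c x w θ l (ev i.succ) φ‖ ^ 2 ≤
      ∫ φ in (0 : ℝ)..1, Z ^ 3 / δ * (slen ℓ c x i.succ : ℝ) ^ 2 *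
        per (deriv (kerK δ0 δ)) (φ - θ i.succ) := by
    refine intervalIntegral.integral_mono_on zero_le_one
      ((continuous_finsetSum _ hU).intervalIntegrable _ _)
      (Continuous.intervalIntegrable (by fun_prop) _ _) fun φ _ => ?_
    have hp := per_nonneg (deriv (kerK δ0 δ)) (φ - θ i.succ)
    have hp' := per_deriv_le h0 h h1 (φ - θ i.succ)
    refine (sum_le 𝓛 hZ hK x w hθ φ F hF _
      (M := (Z * (slen ℓ c x i.succ * per (deriv (kerK δ0 δ)) (φ - θ i.succ))) ^ 2)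
      (by positivity) (fun l _ => ?_) fun l _ ha => ?_).trans ?_
    · exact pow_le_pow_left₀ (norm_nonneg _) (norm_U_le 𝓛 hR hK hK' c x w hθ l _ _) 2
    · simp [U_inactive 𝓛 hK hK' c x w hθ l _ φ ha]
    · calc Z * (Z * (slen ℓ c x i.succ * per (deriv (kerK δ0 δ)) (φ - θ i.succ))) ^ 2
          = Z ^ 3 * (slen ℓ c x i.succ : ℝ) ^ 2 * per (deriv (kerK δ0 δ)) (φ - θ i.succ) *
            per (deriv (kerK δ0 δ)) (φ - θ i.succ) := by ring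
        _ ≤ Z ^ 3 * (slen ℓ c x i.succ : ℝ) ^ 2 * per (deriv (kerK δ0 δ)) (φ - θ i.succ) *
            (1 / δ) := by gcongr
        _ = _ := by ring
  rw [intervalIntegral.integral_const_mul, int_per' h0 h h1, mul_one] at b1
  calc 3 / B * ∫ φ in (0 : ℝ)..1, ∑ l ∈ F, ‖U 𝓛 (kerK δ0 δ) c x w θ l (ev i.succ) φ‖ ^ 2
      ≤ 3 / B * (Z ^ 3 / δ * (slen ℓ c x i.succ : ℝ) ^ 2) := by gcongr
    _ = _ := by field_simp

end Crest.Agent.R192
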