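import Crest.Agent.R192.Energy
import Crest.Agent.R192.Avg
import Crest.Agent.R192.YPiece2
import Crest.Agent.R192.TwoPt

/-! Row 192: the full two-point function. -/

set_option autoImplicit false

namespace Crest.Agent.R192

open Crest.AlgebraR.L1 MeasureTheory Matrix
open scoped ContDiff BoundedContinuousFunction

namespace TotAux

variable {n : ℕ}

/-- the shape of `Wtot` -/
noncomputable def comb (t : ℝ) (s : Finset ℕ) (E : ℕ → TwoPt n) (f : V (n + 1) → ℝ) (Y : TwoPt n) :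
    TwoPt n :=
  fun θ θ' => t * (∑ a ∈ s, E a θ θ' + f θ * stdW n θ θ') + 9 * Y θ θ'

section comb
variable (t : ℝ) {s : Finset ℕ} {E : ℕ → TwoPt n} {f : V (n + 1) → ℝ} {Y : TwoPt n}
  (hE : ∀ a ∈ s, Smooth2 (E a)) (hf : ContDiff ℝ ∞ f) (hY : Smooth2 Y)
include hE hf hY

theorem comb_smooth : Smooth2 (comb t s E f Y) :=
  (((Smooth2.sum s hE).add ((stdW_smooth n).fmul hf)).fmul (f := fun _ => t) contDiff_const).add
    (hY.fmul (f := fun _ => 9) contDiff_const)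

theorem comb_beta (θ u : V (n + 1)) : beta (comb t s E f Y) θ u =
    t * (∑ a ∈ s, beta (E a) θ u + f θ * beta (stdW n) θ u) + 9 * beta Y θ u := by
  have h1 := Smooth2.sum s hE
  have h2 := (stdW_smooth n).fmul hf
  have e1 := beta_add ((h1.add h2).fmul (f := fun _ => t) contDiff_const)
    (hY.fmul (f := fun _ => 9) contDiff_const) θ u
  have e2 := beta_fmul (h1.add h2) (fun _ => t) θ u
  have e3 := beta_fmul hY (fun _ => 9) θ u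
  rw [e2, e3, beta_add h1 h2, beta_sum s hE, beta_fmul (stdW_smooth n)] at e1
  exact e1

theorem comb_hess (θ u v : V (n + 1)) : hess (comb t s E f Y) θ u v =
    t * (∑ a ∈ s, hess (E a) θ u v +
      (fderiv ℝ f θ u * beta (stdW n) θ v + f θ * hess (stdW n) θ u v)) + 9 * hess Y θ u v := by
  have h1 := Smooth2.sum s hE
  have h2 := (stdW_smooth n).fmul hf
  have e1 := hess_add ((h1.add h2).fmul (f := fun _ => t) contDiff_const)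
    (hY.fmul (f := fun _ => 9) contDiff_const) θ u v
  have e2 := hess_fmul (h1.add h2) (f := fun _ => t) contDiff_const θ u v
  have e3 := hess_fmul hY (f := fun _ => 9) contDiff_const θ u v
  rw [e2, e3, hess_add h1 h2, hess_sum s hE, hess_fmul (stdW_smooth n) hf] at e1
  simp only [fderiv_fun_const, Pi.zero_apply, _root_.zero_apply, zero_mul, zero_add] at e1
  exact e1

theorem comb_Mb (θ : V (n + 1)) : Mb (comb t s E f Y) θ =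
    t • ∑ a ∈ s, Mb (E a) θ + (t * f θ) • omega n +
      (vecMulVec (fun i => t * fderiv ℝ f θ (ev i.succ)) (fun i => beta (stdW n) θ (ev i.succ)) -
        vecMulVec (fun i => beta (stdW n) θ (ev i.succ)) fun i => t * fderiv ℝ f θ (ev i.succ)) +
      (9 : ℝ) • Mb Y θ := by
  rw [← Mb_stdW θ]
  ext i j
  simp only [Mb, Matrix.of_apply, comb_hess t hE hf hY, Matrix.add_apply, Matrix.smul_apply,
    Matrix.sub_apply, Matrix.sum_apply, vecMulVec_apply, smul_eq_mul, Finset.sum_sub_distrib]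
  ring

end comb

theorem scale_le {δ0 : ℝ} {A a : ℕ} (h0 : 0 < δ0) (h1 : (2 ^ A + 5) * δ0 ≤ 1) (ha : a ≤ A) :
    2 ^ a * δ0 + δ0 ≤ 1 := by
  have : (2 : ℝ) ^ a ≤ 2 ^ A := pow_le_pow_right₀ one_le_two ha
  nlinarith

theorem five_le {δ0 : ℝ} {A : ℕ} (h0 : 0 < δ0) (h1 : (2 ^ A + 5) * δ0 ≤ 1) : 5 * δ0 ≤ 1 := by
  have : (0 : ℝ) < 2 ^ A * δ0 := by positivity
  nlinarith

end TotAux

open TotAux

variable {G : Type} [Group G] [TopologicalSpace G] [DiscreteTopology G] {n : ℕ} {ℓ : Len G}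
  (Γ : Gibbs ℓ) {R L0 : ℕ} {Z : ℝ} (𝓛 : Labels ℓ R L0 Z) {δ0 L : ℝ} {A : ℕ}

theorem TotAux.Wtot_eq (L : ℝ) (c : G) (x : Fin (n + 1) → G) (w : 𝓛.Λ → 𝓛.S) :
    Wtot Γ 𝓛 δ0 A L n c x w = comb L⁻¹ (Finset.range A) (fun a => WE Γ δ0 (2 ^ a * δ0) c x)
      (avgΦ Γ (kerK δ0 δ0) c x) (WY 𝓛 (kerK δ0 (2 ^ A * δ0)) c x w) := rfl

theorem TotAux.smE (h0 : 0 < δ0) (h1 : (2 ^ A + 5) * δ0 ≤ 1) (c : G) (x : Fin (n + 1) → G) :
    ∀ a ∈ Finset.range A, Smooth2 (WE Γ δ0 (2 ^ a * δ0) c x) := fun _ ha =>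
  WE_smooth Γ h0 (by positivity) (scale_le h0 h1 (Finset.mem_range.1 ha).le) c x

theorem TotAux.smA (h0 : 0 < δ0) (h1 : (2 ^ A + 5) * δ0 ≤ 1) (c : G) (x : Fin (n + 1) → G) :
    ContDiff ℝ ∞ (avgΦ Γ (kerK δ0 δ0) c x) :=
  avg_smooth Γ h0 h0 (by linarith [five_le h0 h1]) c x

theorem TotAux.stepA (h0 : 0 < δ0) (h1 : (2 ^ A + 5) * δ0 ≤ 1) : Step (kerK δ0 (2 ^ A * δ0)) :=
  kerK_step h0 (by positivity) (scale_le h0 h1 le_rfl)

theorem TotAux.step0 (h0 : 0 < δ0) (h1 : (2 ^ A + 5) * δ0 ≤ 1) : Step (kerK δ0 δ0) :=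
  kerK_step h0 h0 (by linarith [five_le h0 h1])

theorem TotAux.smY (h0 : 0 < δ0) (h1 : (2 ^ A + 5) * δ0 ≤ 1) (c : G) (x : Fin (n + 1) → G)
    (w : 𝓛.Λ → 𝓛.S) : Smooth2 (WY 𝓛 (kerK δ0 (2 ^ A * δ0)) c x w) :=
  WY_smooth 𝓛 (stepA h0 h1) (kerK_smooth _ _) c x w

theorem Wtot_fam (h0 : 0 < δ0) (h1 : (2 ^ A + 5) * δ0 ≤ 1) (L : ℝ) (C : Set G) (n : ℕ) :
    Fam C n (Wtot Γ 𝓛 δ0 A L n) := by
  have hp : ∀ a : ℕ, 0 < 2 ^ a * δ0 := fun a => by positivity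
  have hs : ∀ a ∈ Finset.range A, 2 ^ a * δ0 + δ0 ≤ 1 := fun a ha =>
    scale_le h0 h1 (Finset.mem_range.1 ha).le
  refine ⟨fun c _ x w => ?_, fun c _ x w θ θ' t => ?_, fun c _ x w h => ?_,
    fun c _ x w θ θ' => ?_, fun c _ x => ?_⟩
  · rw [Wtot_eq]
    exact comb_smooth _ (smE Γ h0 h1 c x) (smA Γ h0 h1 c x) (smY 𝓛 h0 h1 c x w)
  · unfold Wtot
    rw [Finset.sum_congr rfl fun a ha => WE_rotInv Γ h0 (hp a) (hs a ha) c x θ θ' t,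
      avg_rot Γ (step0 h0 h1), stdW_rotInv n θ θ' t, WY_rotInv 𝓛 (stepA h0 h1) c x w θ θ' t]
  · funext θ θ'
    unfold Wtot
    rw [Finset.sum_congr rfl fun a ha => by rw [WE_conj Γ h0 (hp a) (hs a ha) c h x],
      avg_conj Γ (step0 h0 h1), WY_conj 𝓛 (stepA h0 h1)]
  · unfold Wtot
    rw [Finset.sum_congr rfl fun a ha => WE_cyc Γ h0 (hp a) (hs a ha) c x θ θ',
      avg_cyc Γ (step0 h0 h1), stdW_cyc, WY_cyc 𝓛 (stepA h0 h1)]
  · obtain ⟨F, hF⟩ := WY_fin 𝓛 (stepA h0 h1) c x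
    refine ⟨F, fun w w' hw θ θ' hθ hθ' => ?_⟩
    unfold Wtot
    rw [hF w w' hw θ θ' hθ hθ']

theorem Wtot_face (L : ℝ) (c : G) (x : Fin (n + 2) → G) (w : 𝓛.Λ → 𝓛.S) (p : Fin (n + 2))
    (θ θ' : V (n + 1)) : Wtot Γ 𝓛 δ0 A L (n + 1) c x w (faceθ p θ) (faceθ p θ') =
      Wtot Γ 𝓛 δ0 A L n c (fun i => x (p.succAbove i)) w θ θ' := by
  unfold Wtot
  rw [Finset.sum_congr rfl fun a _ => WE_face Γ c x p θ θ', avg_face, stdW_face, WY_face]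

theorem TotAux.UU_eq (h0 : 0 < δ0) (h1 : (2 ^ A + 5) * δ0 ≤ 1) (L : ℝ) (c : G)
    (x : Fin (n + 1) → G) (w : 𝓛.Λ → 𝓛.S) (θ : V (n + 1)) :
    UU (Wtot Γ 𝓛 δ0 A L n c x w) θ = L⁻¹ * avgΦ Γ (kerK δ0 (2 ^ A * δ0)) c x θ +
      9 * UU (WY 𝓛 (kerK δ0 (2 ^ A * δ0)) c x w) θ := by
  have e1 := comb_beta L⁻¹ (smE Γ h0 h1 c x) (smA Γ h0 h1 c x) (smY 𝓛 h0 h1 c x w) θ 1
  have e2 : ∑ a ∈ Finset.range A, beta (WE Γ δ0 (2 ^ a * δ0) c x) θ 1 =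
      avgΦ Γ (kerK δ0 (2 ^ A * δ0)) c x θ - avgΦ Γ (kerK δ0 δ0) c x θ := by
    have := Finset.sum_range_sub (fun a : ℕ => avgΦ Γ (kerK δ0 (2 ^ a * δ0)) c x θ) A
    rw [pow_zero, one_mul] at this
    rw [← this]
    refine Finset.sum_congr rfl fun a ha => ?_
    have h2 : 2 * (2 ^ a * δ0) = 2 ^ (a + 1) * δ0 := by ring
    have h3 := WE_UU Γ h0 (show 0 < 2 ^ a * δ0 by positivity)
      (by rw [h2]; exact scale_le h0 h1 (Finset.mem_range.1 ha)) c x θ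
    rw [h2] at h3
    exact h3
  have e3 : beta (stdW n) θ 1 = 1 := UU_stdW θ
  rw [e2, e3, mul_one, sub_add_cancel] at e1
  exact e1

theorem TotAux.one_le (h0 : 0 < δ0) (h1 : (2 ^ A + 5) * δ0 ≤ 1) (hL : 1 ≤ L) (hR : 20 * L ≤ R)
    {c : G} (hc : Adm ℓ L0 c) (x : Fin (n + 1) → G) (w : 𝓛.Λ → 𝓛.S)
    (hw : ∀ μ, IsProb μ → ∀ z, 9 / 10 ≤ feat ℓ R μ z →
      ∃ l, 𝓛.cls l = c ∧ 1 / 3 ≤ ‖𝓛.Y w l (feat ℓ R μ)‖)
    {θ : V (n + 1)} (hθ : θ ∈ cell n) : 1 ≤ UU (Wtot Γ 𝓛 δ0 A L n c x w) θ := by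
  have hK := stepA h0 h1
  obtain ⟨g, hg, hU, hg'⟩ := WY_UU 𝓛 hK (kerK_smooth _ _) hc x w θ
  have hΦ : Continuous fun φ : ℝ => Γ.Φ (fld (kerK δ0 (2 ^ A * δ0)) c x (xiD ℓ) (θ, φ)) :=
    Γ.smooth.continuous.comp ((fld_smooth hK (kerK_smooth _ _) c x _).continuous.comp
      (continuous_const.prodMk continuous_id))
  have hL0 : 0 < L := by linarith
  rw [UU_eq Γ 𝓛 h0 h1, hU, avgΦ, ← intervalIntegral.integral_const_mul,
    ← intervalIntegral.integral_const_mul, ← intervalIntegral.integral_add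
      ((hΦ.const_mul _).intervalIntegrable _ _) ((hg.const_mul _).intervalIntegrable _ _)]
  have h2 : (1 : ℝ) = ∫ _φ in (0 : ℝ)..1, (1 : ℝ) := by simp
  conv_lhs => rw [h2]
  refine intervalIntegral.integral_mono_on zero_le_one (continuous_const.intervalIntegrable _ _)
    (((hΦ.const_mul _).add (hg.const_mul _)).intervalIntegrable _ _) fun φ _ => ?_
  have hμ := isProb_occ hK c x hθ φ
  have h3 := Γ.nonneg _ hμ
  have h4 := (hg' φ).1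
  change 1 ≤ L⁻¹ * Γ.Φ (pr (xiD ℓ) (occ (kerK δ0 (2 ^ A * δ0)) c x θ φ)) + 9 * g φ
  rcases le_or_gt L (Γ.Φ (pr (xiD ℓ) (occ (kerK δ0 (2 ^ A * δ0)) c x θ φ))) with h5 | h5
  · have := mul_le_mul_of_nonneg_left h5 (inv_nonneg.2 hL0.le)
    rw [inv_mul_cancel₀ hL0.ne'] at this
    linarith
  · obtain ⟨z, hz⟩ := Γ.exists_mdist _ hμ L h5
    have h6 := one_sub_mdist_le_feat ℓ R _ hμ z
    have hR0 : (0 : ℝ) < R := by linarith
    have h7 : mdist ℓ z (occ (kerK δ0 (2 ^ A * δ0)) c x θ φ) / R ≤ 1 / 10 := by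
      rw [div_le_iff₀ hR0]; linarith
    obtain ⟨l, hl, hY⟩ := hw _ hμ z (by linarith)
    have h8 : ‖𝓛.Y w l (feat ℓ R (occ (kerK δ0 (2 ^ A * δ0)) c x θ φ))‖ ^ 2 ≤ g φ :=
      (hg' φ).2 l hl
    have h9 := mul_nonneg (inv_nonneg.2 hL0.le) h3
    nlinarith

theorem Wtot_ent (h0 : 0 < δ0) (h1 : (2 ^ A + 5) * δ0 ≤ 1) (hL : 1 ≤ L) (hR : 20 * L ≤ R)
    (hZ : 1 ≤ Z) {c : G} (hc : Adm ℓ L0 c) (x : Fin (n + 1) → G) (w : 𝓛.Λ → 𝓛.S)
    (hw : ∀ μ, IsProb μ → ∀ z, 9 / 10 ≤ feat ℓ R μ z →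
      ∃ l, 𝓛.cls l = c ∧ 1 / 3 ≤ ‖𝓛.Y w l (feat ℓ R μ)‖)
    {θ : V (n + 1)} (hθ : θ ∈ cell n) :
    Ent (Wtot Γ 𝓛 δ0 A L n c x w) θ (fun i => slen ℓ c x i) (δ0 * tlen ℓ c x)
      (A * (Γ.lam + 1) + 2 * Γ.C0 + 10 + 9 * (Real.exp Z * Z ^ 3)) := by
  have hp : ∀ a : ℕ, 0 < 2 ^ a * δ0 := fun a => by positivity
  have hs : ∀ a ∈ Finset.range A, 2 ^ a * δ0 + δ0 ≤ 1 := fun a ha =>
    scale_le h0 h1 (Finset.mem_range.1 ha).le
  have h5 := five_le h0 h1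
  have hR0 : 0 < R := by
    have : (0 : ℝ) < R := by linarith
    exact_mod_cast this
  have ht0 : 0 ≤ L⁻¹ := inv_nonneg.2 (by linarith)
  have ht1 : L⁻¹ ≤ 1 := inv_le_one_of_one_le₀ hL
  have hlam := Γ.lam_pos
  have hC0 := Γ.C0_nonneg
  have hf0 := avg_nonneg Γ (step0 h0 h1) c x hθ
  have hf1 := avg_le Γ h0 h5 c x hθ
  set T : ℝ := δ0 * tlen ℓ c x with hT
  have hT0 : 0 ≤ T := by positivity
  set Ez : ℝ := Real.exp Z * Z ^ 3 with hEz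
  have hEz0 : 0 ≤ Ez := by positivity
  have hA0 : (0 : ℝ) ≤ A := Nat.cast_nonneg A
  have hP : ∀ i, (slen ℓ c x i : ℝ) ≤ (1 + T) * (1 + slen ℓ c x i) ∧
      1 + T ≤ (1 + T) * (1 + slen ℓ c x i) := fun i => by
    have : (0 : ℝ) ≤ slen ℓ c x i := Nat.cast_nonneg _
    constructor <;> nlinarith
  have shrink : ∀ a b : ℝ, |L⁻¹ * a + 9 * b| ≤ |a| + 9 * |b| := fun a b => by
    refine (abs_add_le _ _).trans ?_
    rw [abs_mul, abs_mul, abs_of_nonneg ht0, abs_of_pos (by norm_num : (0 : ℝ) < 9)]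
    nlinarith [abs_nonneg a]
  refine ⟨one_le Γ 𝓛 h0 h1 hL hR hc x w hw hθ, fun i => ?_, fun i j => ?_⟩
  · rw [Wtot_eq, comb_beta _ (smE Γ h0 h1 c x) (smA Γ h0 h1 c x) (smY 𝓛 h0 h1 c x w)]
    refine (shrink _ _).trans ?_
    have e1 : |∑ a ∈ Finset.range A, beta (WE Γ δ0 (2 ^ a * δ0) c x) θ (ev i)| ≤
        A * slen ℓ c x i := by
      refine (Finset.abs_sum_le_sum_abs _ _).trans ?_
      refine (Finset.sum_le_card_nsmul _ _ _ fun a ha =>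
        WE_beta_le Γ h0 (hp a) (hs a ha) c x θ i).trans ?_
      rw [Finset.card_range, nsmul_eq_mul]
    have e2 : |avgΦ Γ (kerK δ0 δ0) c x θ * beta (stdW n) θ (ev i)| ≤ Γ.C0 + 4 * T := by
      rw [abs_mul, abs_of_nonneg hf0]
      exact (mul_le_of_le_one_right hf0 (abs_beta_stdW_le hθ i)).trans hf1
    have e3 := WY_beta_le 𝓛 hR0 hZ h0 (hp A) (scale_le h0 h1 le_rfl) hc x w hθ i
    rw [← hEz] at e3
    have e4 := abs_add_le (∑ a ∈ Finset.range A, beta (WE Γ δ0 (2 ^ a * δ0) c x) θ (ev i))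
      (avgΦ Γ (kerK δ0 δ0) c x θ * beta (stdW n) θ (ev i))
    obtain ⟨p1, p2⟩ := hP i
    set P := (1 + T) * (1 + (slen ℓ c x i : ℝ))
    have q1 := mul_le_mul_of_nonneg_left p1 hA0
    have q2 := mul_le_mul_of_nonneg_left p1 hEz0
    have q3 := mul_le_mul_of_nonneg_left (show 1 ≤ P by linarith) hC0
    have q4 : 0 ≤ A * Γ.lam * P := mul_nonneg (by positivity) (by linarith)
    nlinarith
  · rw [Wtot_eq, comb_hess _ (smE Γ h0 h1 c x) (smA Γ h0 h1 c x) (smY 𝓛 h0 h1 c x w)]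
    refine (shrink _ _).trans ?_
    have e1 : |∑ a ∈ Finset.range A, hess (WE Γ δ0 (2 ^ a * δ0) c x) θ (ev i) (ev j)| ≤
        A * (Γ.lam * slen ℓ c x i * slen ℓ c x j) := by
      refine (Finset.abs_sum_le_sum_abs _ _).trans ?_
      refine (Finset.sum_le_card_nsmul _ _ _ fun a ha =>
        WE_hess_le Γ h0 (hp a) (hs a ha) c x θ i j).trans ?_
      rw [Finset.card_range, nsmul_eq_mul]
    have e2 : |avgΦ Γ (kerK δ0 δ0) c x θ * hess (stdW n) θ (ev i) (ev j)| ≤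
        (Γ.C0 + 4 * T) * 2 := by
      rw [abs_mul, abs_of_nonneg hf0]
      exact mul_le_mul hf1 (abs_hess_stdW_le θ i j) (abs_nonneg _) (by positivity)
    have e2' : |fderiv ℝ (avgΦ Γ (kerK δ0 δ0) c x) θ (ev i) * beta (stdW n) θ (ev j)| ≤
        slen ℓ c x i := by
      rw [abs_mul]
      exact (mul_le_of_le_one_right (abs_nonneg _) (abs_beta_stdW_le hθ j)).trans
        (avg_fderiv_le Γ h0 h0 (by linarith) c x θ i)
    have e3 := WY_hess_le 𝓛 hR0 hZ h0 (hp A) (scale_le h0 h1 le_rfl) hc x w hθ i j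
    rw [← hEz] at e3
    have e4 := abs_add_le
      (∑ a ∈ Finset.range A, hess (WE Γ δ0 (2 ^ a * δ0) c x) θ (ev i) (ev j))
      (fderiv ℝ (avgΦ Γ (kerK δ0 δ0) c x) θ (ev i) * beta (stdW n) θ (ev j) +
        avgΦ Γ (kerK δ0 δ0) c x θ * hess (stdW n) θ (ev i) (ev j))
    have e5 := abs_add_le
      (fderiv ℝ (avgΦ Γ (kerK δ0 δ0) c x) θ (ev i) * beta (stdW n) θ (ev j))
      (avgΦ Γ (kerK δ0 δ0) c x θ * hess (stdW n) θ (ev i) (ev j))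
    obtain ⟨p1, p2⟩ := hP i
    obtain ⟨p3, p4⟩ := hP j
    rw [mul_assoc _ ((1 + T) * _)]
    have hsi : (0 : ℝ) ≤ slen ℓ c x i := Nat.cast_nonneg _
    have hsj : (0 : ℝ) ≤ slen ℓ c x j := Nat.cast_nonneg _
    set P := (1 + T) * (1 + (slen ℓ c x i : ℝ))
    set P' := (1 + T) * (1 + (slen ℓ c x j : ℝ))
    have r1 : (slen ℓ c x i : ℝ) * slen ℓ c x j ≤ P * P' := mul_le_mul p1 p3 hsj (by linarith)
    have r2 : P ≤ P * P' := le_mul_of_one_le_right (by linarith) (by linarith)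
    set Q := P * P'
    have q1 := mul_le_mul_of_nonneg_left r1 (show 0 ≤ A * Γ.lam by positivity)
    have q2 := mul_le_mul_of_nonneg_left r1 hEz0
    have q3 := mul_le_mul_of_nonneg_left (show 1 ≤ Q by linarith) hC0
    have q4 : 0 ≤ A * Q := mul_nonneg hA0 (by linarith)
    nlinarith

theorem Wtot_cost (h0 : 0 < δ0) (h1 : (2 ^ A + 5) * δ0 ≤ 1) (hL : 1 ≤ L) (hR : 0 < R)
    (hZ : 1 ≤ Z) {c : G} (hc : Adm ℓ L0 c) (x : Fin (n + 1) → G) (w : 𝓛.Λ → 𝓛.S)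
    {θ : V (n + 1)} (hθ : θ ∈ cell n) {ε : ℝ} (hε : 0 < ε) (B : ℕ)
    (hB : 2 * Z ≤ B * (2 ^ A * δ0)) (hB' : 27 * Z ^ 3 ≤ ε * (B * (2 ^ A * δ0)))
    (hA : A * Γ.lam ≤ ε * L) (hC : 2 * (Γ.C0 + 4) ≤ ε * L) :
    Cost (Mb (Wtot Γ 𝓛 δ0 A L n c x w) θ)
      (fun i => 4 * ε * (1 + δ0 * tlen ℓ c x) * (1 + slen ℓ c x i.succ) ^ 2)
      ((1 + n / ε) ^ 2 * (10 * (1 + Real.exp Z)) ^ (4 * (⌊Z⌋₊ * B))) := by
  have hp : ∀ a : ℕ, 0 < 2 ^ a * δ0 := fun a => by positivity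
  have hs : ∀ a ∈ Finset.range A, 2 ^ a * δ0 + δ0 ≤ 1 := fun a ha =>
    scale_le h0 h1 (Finset.mem_range.1 ha).le
  have h5 := five_le h0 h1
  have hL0 : 0 < L := by linarith
  have ht0 : 0 < L⁻¹ := inv_pos.2 hL0
  have ht1 : L⁻¹ ≤ 1 := inv_le_one_of_one_le₀ hL
  have hC0 := Γ.C0_nonneg
  have hf0 := avg_nonneg Γ (step0 h0 h1) c x hθ
  have hf1 := avg_le Γ h0 h5 c x hθ
  set T : ℝ := δ0 * tlen ℓ c x with hT
  have hT0 : 0 ≤ T := by positivity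
  have hs0 : ∀ i, (0 : ℝ) ≤ slen ℓ c x i := fun i => Nat.cast_nonneg _
  have c1 := (Cost.sum (Finset.range A) _ _ fun a ha =>
    WE_cost Γ h0 (hp a) (hs a ha) c x θ).smul ht0
  have c2 := Cost.smul_omega n (mul_nonneg ht0.le hf0)
  have c3 := Cost.rank2 (fun i : Fin n => L⁻¹ * fderiv ℝ (avgΦ Γ (kerK δ0 δ0) c x) θ (ev i.succ))
    (fun i => beta (stdW n) θ (ev i.succ)) (fun i => ε * (1 + slen ℓ c x i.succ) ^ 2)
    (A := ε⁻¹) (by positivity) (fun i => by have := hs0 i.succ; positivity) (fun i => by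
      rw [inv_mul_cancel_left₀ hε.ne']
      refine sq_le_sq' ?_ ?_ <;>
      · have h := abs_le.1 (avg_fderiv_le Γ h0 h0 (by linarith) c x θ i.succ)
        nlinarith [hs0 i.succ, h.1, h.2]) (fun i => by
      rw [inv_mul_cancel_left₀ hε.ne']
      have h := abs_le.1 (abs_beta_stdW_le hθ i.succ)
      exact sq_le_sq' (by linarith [hs0 i.succ]) (by linarith [hs0 i.succ]))
  have c4 := (WY_cost 𝓛 hR hZ h0 (hp A) (scale_le h0 h1 le_rfl) hc x w hθ B hB).smul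
    (t := 9) (by norm_num)
  rw [Wtot_eq, comb_Mb _ (smE Γ h0 h1 c x) (smA Γ h0 h1 c x) (smY 𝓛 h0 h1 c x w)]
  refine (((c1.add c2).add c3).add c4).mono (fun i => ?_) (le_of_eq ?_)
  · have hB0 : 0 < B * (2 ^ A * δ0) := by linarith
    have hsi := hs0 i.succ
    set s : ℝ := (slen ℓ c x i.succ : ℝ) with hsdef
    have b1 : L⁻¹ * ∑ _a ∈ Finset.range A, Γ.lam * s ^ 2 ≤ ε * s ^ 2 := by
      rw [Finset.sum_const, Finset.card_range, nsmul_eq_mul, ← mul_assoc (A : ℝ), ← mul_assoc]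
      refine mul_le_mul_of_nonneg_right ?_ (sq_nonneg s)
      rw [inv_mul_le_iff₀ hL0]
      linarith
    have b2 : 2 * (L⁻¹ * avgΦ Γ (kerK δ0 δ0) c x θ) ≤ ε * (1 + T) := by
      rw [mul_left_comm, inv_mul_le_iff₀ hL0]
      nlinarith [mul_le_mul_of_nonneg_right hC (show 0 ≤ 1 + T by linarith),
        mul_nonneg hC0 hT0]
    have b4 : 9 * (3 * Z ^ 3 / (B * (2 ^ A * δ0)) * s ^ 2) ≤ ε * s ^ 2 := by
      rw [← mul_assoc]
      refine mul_le_mul_of_nonneg_right ?_ (sq_nonneg s)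
      rw [← mul_div_assoc, div_le_iff₀ hB0]
      linarith
    have k1 : s ^ 2 ≤ (1 + T) * (1 + s) ^ 2 := by nlinarith [sq_nonneg (1 + s)]
    have k2 : 1 + T ≤ (1 + T) * (1 + s) ^ 2 := by nlinarith [sq_nonneg s]
    have k3 : (1 + s) ^ 2 ≤ (1 + T) * (1 + s) ^ 2 := by nlinarith [sq_nonneg (1 + s)]
    have m1 := mul_le_mul_of_nonneg_left k1 hε.le
    have m2 := mul_le_mul_of_nonneg_left k2 hε.le
    have m3 := mul_le_mul_of_nonneg_left k3 hε.le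
    nlinarith
  · rw [Fintype.card_fin, one_mul, one_mul, div_eq_mul_inv]

end Crest.Agent.R192
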