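import Crest.Agent.R192.TP
import Crest.Agent.R192.OccCalc
import Crest.Agent.R192.Net

/-! Row 192: the label two-point function: smoothness and symmetries. -/

set_option autoImplicit false

namespace Crest.Agent.R192

open Crest.AlgebraR.L1 MeasureTheory Matrix
open scoped ContDiff BoundedContinuousFunction

variable {G : Type} [Group G] [TopologicalSpace G] [DiscreteTopology G] {n : ℕ} {ℓ : Len G}
  {R L0 : ℕ} {Z : ℝ} (𝓛 : Labels ℓ R L0 Z) {K : ℝ → ℝ}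

/-- amplitude of the label `l` along the path -/
noncomputable def Yf (K : ℝ → ℝ) (c : G) (x : Fin (n + 1) → G) (w : 𝓛.Λ → 𝓛.S) (l : 𝓛.L)
    (p : V (n + 1) × ℝ) : ℂ :=
  𝓛.Y w l (fld K c x (bump ℓ R) p)

/-- the integrand of `WY` -/
noncomputable def hY (K : ℝ → ℝ) (c : G) (x : Fin (n + 1) → G) (w : 𝓛.Λ → 𝓛.S)
    (p : (V (n + 1) × ℝ) × (V (n + 1) × ℝ)) : ℝ :=
  ∑ᶠ l ∈ {l | 𝓛.cls l = c},
    ((1 - 𝓛.chi l)⁻¹ * (starRingEnd ℂ) (Yf 𝓛 K c x w l p.1) * Yf 𝓛 K c x w l p.2).re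

theorem WY_eq (K : ℝ → ℝ) (c : G) (x : Fin (n + 1) → G) (w : 𝓛.Λ → 𝓛.S) :
    WY 𝓛 K c x w = tp (hY 𝓛 K c x w) 1 := rfl

theorem Yf_eq (K : ℝ → ℝ) (c : G) (x : Fin (n + 1) → G) (w : 𝓛.Λ → 𝓛.S) (l : 𝓛.L)
    (p : V (n + 1) × ℝ) : Yf 𝓛 K c x w l p = 𝓛.Y w l (feat ℓ R (occ K c x p.1 p.2)) := rfl

theorem Yf_smooth (hK : Step K) (hK' : ContDiff ℝ ∞ K) (c : G) (x : Fin (n + 1) → G)
    (w : 𝓛.Λ → 𝓛.S) (l : 𝓛.L) : ContDiff ℝ ∞ (Yf 𝓛 K c x w l) := by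
  refine contDiff_iff_contDiffAt.2 fun p => ?_
  exact (𝓛.smooth w l (occ K c x p.1 p.2)).comp p (fld_smooth hK hK' c x (bump ℓ R)).contDiffAt

theorem Yf_add_one (hK : Step K) (c : G) (x : Fin (n + 1) → G) (w : 𝓛.Λ → 𝓛.S) (l : 𝓛.L)
    (hl : 𝓛.cls l = c) (θ : V (n + 1)) (φ : ℝ) :
    Yf 𝓛 K c x w l (θ, φ + 1) = 𝓛.chi l * Yf 𝓛 K c x w l (θ, φ) := by
  rw [Yf_eq, Yf_eq]
  simp only
  rw [occ_add_one hK, ← 𝓛.quasi w l, hl]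

theorem finsum_cls_eq (c : G) (F : Finset 𝓛.L) (hF : ∀ l ∈ F, 𝓛.cls l = c) (f : 𝓛.L → ℝ)
    (hf : ∀ l, 𝓛.cls l = c → l ∉ F → f l = 0) :
    ∑ᶠ l ∈ {l | 𝓛.cls l = c}, f l = ∑ l ∈ F, f l := by
  refine finsum_mem_eq_sum_of_inter_support_eq f ?_
  ext l
  simp only [Set.mem_inter_iff, Set.mem_ofPred_eq, Function.mem_support, Finset.mem_coe]
  refine ⟨fun h => ⟨?_, h.2⟩, fun h => ⟨hF l h.1, h.2⟩⟩
  by_contra hl
  exact h.2 (hf l h.1 hl)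

/-- on bounded sets only finitely many labels occur -/
theorem hY_local (hK : Step K) (c : G) (x : Fin (n + 1) → G) (r : ℝ) :
    ∃ F : Finset 𝓛.L, (∀ l ∈ F, 𝓛.cls l = c) ∧
      (∀ w l, 𝓛.cls l = c → l ∉ F → ∀ p : V (n + 1) × ℝ, ‖p‖ ≤ r → Yf 𝓛 K c x w l p = 0) ∧
      ∀ w (p q : V (n + 1) × ℝ), ‖p‖ ≤ r → hY 𝓛 K c x w (p, q) = ∑ l ∈ F,
        ((1 - 𝓛.chi l)⁻¹ * (starRingEnd ℂ) (Yf 𝓛 K c x w l p) * Yf 𝓛 K c x w l q).re := by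
  obtain ⟨X, hX⟩ := occ_support hK c x r
  obtain ⟨F, F', hF, hfin⟩ := 𝓛.fin c X
  have h1 : ∀ w l, 𝓛.cls l = c → l ∉ F → ∀ p : V (n + 1) × ℝ, ‖p‖ ≤ r →
      Yf 𝓛 K c x w l p = 0 := fun w l hl hlF p hp =>
    (hfin _ (hX p.1 p.2 ((norm_fst_le p).trans hp) ((norm_snd_le p).trans hp))).1 w l hl hlF
  refine ⟨F, hF, h1, fun w p q hp => ?_⟩
  refine finsum_cls_eq 𝓛 c F hF _ fun l hl hlF => ?_
  simp only [h1 w l hl hlF p hp, map_zero, mul_zero, zero_mul, Complex.zero_re]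

theorem hY_smooth (hK : Step K) (hK' : ContDiff ℝ ∞ K) (c : G) (x : Fin (n + 1) → G)
    (w : 𝓛.Λ → 𝓛.S) : ContDiff ℝ ∞ (hY 𝓛 K c x w) := by
  refine contDiff_iff_contDiffAt.2 fun p => ?_
  obtain ⟨F, -, -, hF⟩ := hY_local 𝓛 hK c x (‖p.1‖ + 1)
  have h1 : ContDiff ℝ ∞ fun q : (V (n + 1) × ℝ) × (V (n + 1) × ℝ) => ∑ l ∈ F,
      ((1 - 𝓛.chi l)⁻¹ * (starRingEnd ℂ) (Yf 𝓛 K c x w l q.1) * Yf 𝓛 K c x w l q.2).re := by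
    refine ContDiff.sum fun l _ => ?_
    have h2 := Yf_smooth 𝓛 hK hK' c x w l
    exact Complex.reCLM.contDiff.comp ((contDiff_const.mul
      (Complex.conjCLE.contDiff.comp (h2.comp contDiff_fst))).mul (h2.comp contDiff_snd))
  refine h1.contDiffAt.congr_of_eventuallyEq ?_
  have h3 : ∀ᶠ q : (V (n + 1) × ℝ) × (V (n + 1) × ℝ) in nhds p, ‖q.1‖ < ‖p.1‖ + 1 :=
    (continuous_fst.norm.continuousAt).eventually_lt continuousAt_const (lt_add_one _)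
  filter_upwards [h3] with q hq
  exact hF w q.1 q.2 hq.le

theorem unit_cancel {u : ℂ} (hu : ‖u‖ = 1) (a y z : ℂ) :
    a * (starRingEnd ℂ) (u * y) * (u * z) = a * (starRingEnd ℂ) y * z := by
  have h : (starRingEnd ℂ) u * u = 1 := by
    rw [Complex.conj_mul', hu]
    simp
  rw [map_mul]
  linear_combination (a * (starRingEnd ℂ) y * z) * h

theorem hY_timeInv (hK : Step K) (c : G) (x : Fin (n + 1) → G) (w : 𝓛.Λ → 𝓛.S) :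
    TimeInv (hY 𝓛 K c x w) := by
  refine ⟨fun θ φ t q => ?_, fun p θ φ t => ?_, fun θ φ θ' φ' => ?_⟩
  · simp only [hY, Yf_eq, occ_rot]
  · simp only [hY, Yf_eq, occ_rot]
  · refine finsum_mem_congr rfl fun l hl => ?_
    simp only
    rw [Yf_add_one 𝓛 hK c x w l hl, Yf_add_one 𝓛 hK c x w l hl, unit_cancel (𝓛.norm_chi l)]

theorem WY_smooth (hK : Step K) (hK' : ContDiff ℝ ∞ K) (c : G) (x : Fin (n + 1) → G)
    (w : 𝓛.Λ → 𝓛.S) : Smooth2 (WY 𝓛 K c x w) := by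
  rw [WY_eq]
  exact tp_smooth (hY_smooth 𝓛 hK hK' c x w) 1

theorem WY_rotInv (hK : Step K) (c : G) (x : Fin (n + 1) → G) (w : 𝓛.Λ → 𝓛.S) :
    RotInv (WY 𝓛 K c x w) := by
  rw [WY_eq]
  exact tp_rotInv (hY_timeInv 𝓛 hK c x w) 1

theorem hY_conj (hK : Step K) (c g : G) (x : Fin (n + 1) → G) (w : 𝓛.Λ → 𝓛.S) :
    hY 𝓛 K (g * c * g⁻¹) (fun i => g * x i) (act g w) = hY 𝓛 K c x w := by
  funext p
  symm
  refine finsum_mem_eq_of_bijOn (fun l => g • l) ⟨fun l hl => ?_, fun l _ l' _ h => ?_,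
    fun l hl => ⟨g⁻¹ • l, ?_, smul_inv_smul g l⟩⟩ fun l hl => ?_
  · simp only [Set.mem_ofPred_eq] at hl ⊢
    rw [𝓛.cls_smul, hl]
  · exact MulAction.injective g h
  · simp only [Set.mem_ofPred_eq] at hl ⊢
    rw [𝓛.cls_smul, hl]
    group
  · obtain ⟨u, hu, h⟩ := 𝓛.equiv g l
    simp only [Yf_eq, occ_conj hK, h, 𝓛.chi_smul, unit_cancel hu]

theorem WY_conj (hK : Step K) (c g : G) (x : Fin (n + 1) → G) (w : 𝓛.Λ → 𝓛.S) :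
    WY 𝓛 K (g * c * g⁻¹) (fun i => g * x i) (act g w) = WY 𝓛 K c x w := by
  rw [WY_eq, WY_eq, hY_conj 𝓛 hK]

theorem WY_cyc (hK : Step K) (c : G) (x : Fin (n + 1) → G) (w : 𝓛.Λ → 𝓛.S) (θ θ' : V (n + 1)) :
    WY 𝓛 K c (rotx c x) w (rotθ θ) (rotθ θ') = WY 𝓛 K c x w θ θ' := by
  simp only [WY_eq, tp, hY, Yf_eq, occ_cyc hK]

theorem WY_face (K : ℝ → ℝ) (c : G) (x : Fin (n + 2) → G) (w : 𝓛.Λ → 𝓛.S) (p : Fin (n + 2))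
    (θ θ' : V (n + 1)) :
    WY 𝓛 K c x w (faceθ p θ) (faceθ p θ') = WY 𝓛 K c (fun i => x (p.succAbove i)) w θ θ' := by
  simp only [WY_eq, tp, hY, Yf_eq, occ_face]

theorem WY_fin (hK : Step K) (c : G) (x : Fin (n + 1) → G) :
    ∃ F : Finset 𝓛.Λ, ∀ w w', (∀ l ∈ F, w l = w' l) →
      ∀ θ θ', ‖θ‖ < 2 → ‖θ'‖ < 2 → WY 𝓛 K c x w θ θ' = WY 𝓛 K c x w' θ θ' := by
  obtain ⟨X, hX⟩ := occ_support hK c x 2
  obtain ⟨F, F', hF, hfin⟩ := 𝓛.fin c X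
  refine ⟨F', fun w w' hw θ θ' hθ hθ' => ?_⟩
  simp only [WY_eq, tp]
  refine intervalIntegral.integral_congr fun φ hφ => intervalIntegral.integral_congr fun s hs => ?_
  rw [Set.uIcc_of_le zero_le_one] at hφ hs
  have h1 := hfin _ (hX θ φ hθ.le (abs_le.2 ⟨by linarith [hφ.1], by linarith [hφ.2]⟩))
  have h2 := hfin _ (hX θ' (φ + s) hθ'.le
    (abs_le.2 ⟨by linarith [hφ.1, hs.1], by linarith [hφ.2, hs.2]⟩))
  refine finsum_mem_congr rfl fun l hl => ?_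
  simp only [Yf_eq]
  by_cases hlF : l ∈ F
  · rw [h1.2 w w' hw l hlF, h2.2 w w' hw l hlF]
  · rw [h1.1 w l hl hlF, h1.1 w' l hl hlF, h2.1 w l hl hlF, h2.1 w' l hl hlF]

theorem WY_UU (hK : Step K) (hK' : ContDiff ℝ ∞ K) {c : G} (hc : Adm ℓ L0 c)
    (x : Fin (n + 1) → G) (w : 𝓛.Λ → 𝓛.S) (θ : V (n + 1)) :
    ∃ g : ℝ → ℝ, Continuous g ∧ UU (WY 𝓛 K c x w) θ = ∫ φ in (0 : ℝ)..1, g φ ∧
      ∀ φ, 0 ≤ g φ ∧ ∀ l, 𝓛.cls l = c → ‖Yf 𝓛 K c x w l (θ, φ)‖ ^ 2 ≤ g φ := by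
  have hs := (hY_smooth 𝓛 hK hK' c x w).continuous
  refine ⟨fun φ => hY 𝓛 K c x w ((θ, φ), (θ, φ)) - hY 𝓛 K c x w ((θ, φ), (θ, φ + 1)),
    by fun_prop, ?_, fun φ => ?_⟩
  · rw [WY_eq, UU_tp (hY_smooth 𝓛 hK hK' c x w) (hY_timeInv 𝓛 hK c x w)]
  · obtain ⟨F, hF, h0, h1⟩ := hY_local 𝓛 hK c x ‖(θ, φ)‖
    have h2 : hY 𝓛 K c x w ((θ, φ), (θ, φ)) - hY 𝓛 K c x w ((θ, φ), (θ, φ + 1)) =
        ∑ l ∈ F, ‖Yf 𝓛 K c x w l (θ, φ)‖ ^ 2 := by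
      rw [h1 w _ _ le_rfl, h1 w _ _ le_rfl, ← Finset.sum_sub_distrib]
      refine Finset.sum_congr rfl fun l hl => ?_
      have h3 : 1 - 𝓛.chi l ≠ 0 := norm_pos_iff.1
        ((Real.exp_pos _).trans_le (𝓛.chi_far l (by rwa [hF l hl])))
      rw [Yf_add_one 𝓛 hK c x w l (hF l hl), ← Complex.sub_re, ← mul_sub, ← one_sub_mul,
        mul_mul_mul_comm, inv_mul_cancel₀ h3, one_mul, Complex.conj_mul', ← Complex.ofReal_pow,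
        Complex.ofReal_re]
    simp only [h2]
    refine ⟨Finset.sum_nonneg fun l _ => sq_nonneg _, fun l hl => ?_⟩
    by_cases hlF : l ∈ F
    · exact Finset.single_le_sum (f := fun l => ‖Yf 𝓛 K c x w l (θ, φ)‖ ^ 2)
        (fun l _ => sq_nonneg _) hlF
    · rw [h0 w l hl hlF _ le_rfl, norm_zero, zero_pow two_ne_zero]
      exact Finset.sum_nonneg fun l _ => sq_nonneg _

end Crest.Agent.R192
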